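import Vale.Agent.Lib.P110U.Defs
import Vale.Agent.Lib.P110F.CellSum

/-! P110U: module F1. -/

namespace Vale.Agent.P110U

open MeasureTheory Filter Topology
open scoped ComplexConjugate ENNReal
open Vale.Agent.P110F

/-- The sum over one cell. -/
theorem cell_sumT {n k : ℕ} (ρ c : ℝ) (L : ℕ) (H : Fin k → Matrix (Fin n) (Fin n) ℤ)
    (β : Fin k → Fin n → ℝ) (m : Fin k → ℤ) (base x : ℝ) :
    ∑ y : Fin n → Fin L, ((∏ i, tp ρ (((y i : ℕ) : ℝ) / L) : ℝ) : ℂ) *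
      (e1 ((base + ∑ i : Fin n, ((y i : ℕ) : ℝ) * ((4 * L : ℕ) : ℝ) ^ (i : ℕ)) * x) *
      e1 (∑ i, (m i : ℝ) * phi c L H β y i)) =
      e1 (base * x) * TT ρ (scl c (∑ i, m i • H i)) (fun a => ∑ i, (m i : ℝ) * β i a) L
        (kr n L x) := by
  unfold TT
  rw [Finset.mul_sum]
  refine Finset.sum_congr rfl fun y _ => ?_
  rw [phi_sum, ← e1_add, mul_left_comm, ← e1_add]
  congr 2
  rw [add_mul]
  have h1 : ∑ i, (∑ i', (m i' : ℝ) * β i' i + kr n L x i) * ((y i : ℕ) : ℝ) =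
      ∑ i, (∑ i', (m i' : ℝ) * β i' i) * ((y i : ℕ) : ℝ) +
        (∑ i : Fin n, ((y i : ℕ) : ℝ) * ((4 * L : ℕ) : ℝ) ^ (i : ℕ)) * x := by
    rw [Finset.sum_mul, ← Finset.sum_add_distrib]
    refine Finset.sum_congr rfl fun i _ => ?_
    unfold kr
    ring
  rw [h1]
  ring

end Vale.Agent.P110U
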