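import Vale.Agent.Lib.P110U.Defs

/-! P110U: module S1a. -/

namespace Vale.Agent.P110U

open MeasureTheory Filter Topology
open scoped ComplexConjugate ENNReal
open Vale.Agent.P110F

/-- a hinge -/
private noncomputable def hg (a : ℝ) (L : ℕ) (y : ℤ) : ℝ := max 0 ((y : ℝ) / L - a)

private theorem hinge_diff (t δ : ℝ) (hδ : 0 ≤ δ) :
    0 ≤ max 0 (t + δ) - max 0 t ∧ max 0 (t + δ) - max 0 t ≤ δ := by
  rcases le_total 0 t with h1 | h1
  · rw [max_eq_right h1, max_eq_right (by linarith)]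
    constructor <;> linarith
  · rw [max_eq_left h1]
    rcases le_total 0 (t + δ) with h2 | h2
    · rw [max_eq_right h2]
      constructor <;> linarith
    · rw [max_eq_left h2]
      constructor <;> linarith

private theorem hinge_conv (t δ : ℝ) : 0 ≤ max 0 (t + δ) - 2 * max 0 t + max 0 (t - δ) := by
  have h1 : t + δ ≤ max 0 (t + δ) := le_max_right _ _
  have h2 : t - δ ≤ max 0 (t - δ) := le_max_right _ _
  have h3 : 0 ≤ max 0 (t + δ) := le_max_left _ _
  have h4 : 0 ≤ max 0 (t - δ) := le_max_left _ _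
  rcases le_total 0 t with h | h
  · rw [max_eq_right h]
    linarith
  · rw [max_eq_left h]
    linarith

private theorem hg_succ (a : ℝ) (L : ℕ) (y : ℤ) : hg a L (y + 1) = max 0 (((y : ℝ) / L - a) + 1 / L) := by
  unfold hg
  congr 1
  push_cast
  ring

private theorem hg_pred (a : ℝ) (L : ℕ) (y : ℤ) : hg a L (y - 1) = max 0 (((y : ℝ) / L - a) - 1 / L) := by
  unfold hg
  congr 1
  push_cast
  ring

private theorem hg_conv (a : ℝ) (L : ℕ) (y : ℤ) :
    0 ≤ hg a L (y + 1) - 2 * hg a L y + hg a L (y - 1) := by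
  rw [hg_succ, hg_pred]
  exact hinge_conv _ _

private theorem sum_tel (D : ℤ → ℝ) (A B : ℤ) (h : A ≤ B) :
    ∑ y ∈ Finset.Ico A B, (D (y + 1) - D y) = D B - D A := by
  obtain ⟨n, rfl⟩ := Int.le.dest h
  clear h
  induction n with
  | zero => simp
  | succ n ih =>
    have h1 : Finset.Ico A (A + ((n + 1 : ℕ) : ℤ)) = insert (A + (n : ℤ)) (Finset.Ico A (A + (n : ℤ))) := by
      ext y
      simp only [Finset.mem_Ico, Finset.mem_insert]
      push_cast
      omega
    rw [h1, Finset.sum_insert (by simp), ih]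
    push_cast
    rw [add_assoc A (n : ℤ) 1]
    ring

private theorem sum_hg (a : ℝ) (L : ℕ) (A B : ℤ) (h : A ≤ B) :
    ∑ y ∈ Finset.Ico A B, (hg a L (y + 1) - 2 * hg a L y + hg a L (y - 1)) ≤ 1 / L := by
  have h1 := sum_tel (fun y => hg a L y - hg a L (y - 1)) A B h
  have h2 : ∀ y : ℤ, hg a L (y + 1) - 2 * hg a L y + hg a L (y - 1) =
      (hg a L (y + 1) - hg a L (y + 1 - 1)) - (hg a L y - hg a L (y - 1)) := by
    intro y
    rw [add_sub_cancel_right]
    ring
  simp only [h2]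
  rw [h1]
  have hL : (0 : ℝ) ≤ 1 / L := by positivity
  have h3 := (hinge_diff (((B - 1 : ℤ) : ℝ) / L - a) (1 / L) hL).2
  have h4 := (hinge_diff (((A - 1 : ℤ) : ℝ) / L - a) (1 / L) hL).1
  rw [← hg_succ, sub_add_cancel] at h3 h4
  have e1 : max 0 (((B - 1 : ℤ) : ℝ) / L - a) = hg a L (B - 1) := rfl
  have e2 : max 0 (((A - 1 : ℤ) : ℝ) / L - a) = hg a L (A - 1) := rfl
  rw [e1] at h3
  rw [e2] at h4
  linarith

private theorem tp_hinge {ρ : ℝ} (hρ : 0 < ρ) (hρ2 : ρ ≤ 1 / 2) (u : ℝ) :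
    tp ρ u = (1 / ρ) * (max 0 u - max 0 (u - ρ) - max 0 (u - (1 - ρ)) + max 0 (u - 1)) := by
  have h1 : ρ * tp ρ u = max 0 (min ρ (min u (1 - u))) := by
    unfold tp
    rw [mul_max_of_nonneg _ _ hρ.le, mul_min_of_nonneg _ _ hρ.le, mul_min_of_nonneg _ _ hρ.le,
      mul_zero, mul_one, mul_div_cancel₀ _ hρ.ne', mul_div_cancel₀ _ hρ.ne']
  have h2 : max 0 (min ρ (min u (1 - u))) =
      max 0 u - max 0 (u - ρ) - max 0 (u - (1 - ρ)) + max 0 (u - 1) := by
    rcases le_total u 0 with a1 | a1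
    · rw [max_eq_left a1, max_eq_left (by linarith : u - ρ ≤ 0),
        max_eq_left (by linarith : u - (1 - ρ) ≤ 0), max_eq_left (by linarith : u - 1 ≤ 0),
        max_eq_left ((min_le_right _ _).trans ((min_le_left _ _).trans a1))]
      ring
    rcases le_total u ρ with a2 | a2
    · rw [max_eq_right a1, max_eq_left (by linarith : u - ρ ≤ 0),
        max_eq_left (by linarith : u - (1 - ρ) ≤ 0), max_eq_left (by linarith : u - 1 ≤ 0),
        min_eq_left (by linarith : u ≤ 1 - u), min_eq_right a2, max_eq_right a1]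
      ring
    rcases le_total u (1 - ρ) with a3 | a3
    · rw [max_eq_right a1, max_eq_right (by linarith : 0 ≤ u - ρ),
        max_eq_left (by linarith : u - (1 - ρ) ≤ 0), max_eq_left (by linarith : u - 1 ≤ 0),
        min_eq_left (le_min a2 (by linarith)), max_eq_right hρ.le]
      ring
    rcases le_total u 1 with a4 | a4
    · rw [max_eq_right a1, max_eq_right (by linarith : 0 ≤ u - ρ),
        max_eq_right (by linarith : 0 ≤ u - (1 - ρ)), max_eq_left (by linarith : u - 1 ≤ 0),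
        min_eq_right (by linarith : 1 - u ≤ u), min_eq_right (by linarith : 1 - u ≤ ρ),
        max_eq_right (by linarith : 0 ≤ 1 - u)]
      ring
    · rw [max_eq_right a1, max_eq_right (by linarith : 0 ≤ u - ρ),
        max_eq_right (by linarith : 0 ≤ u - (1 - ρ)), max_eq_right (by linarith : 0 ≤ u - 1),
        max_eq_left ((min_le_right _ _).trans ((min_le_right _ _).trans (by linarith)))]
      ring
  rw [← h2, ← h1]
  field_simp

/-- Second differences of the taper. -/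
theorem tp_second_diff {ρ : ℝ} (hρ : 0 < ρ) (hρ2 : ρ ≤ 1 / 2) {L : ℕ} (hL : 0 < L) (A B : ℤ) :
    ∑ y ∈ Finset.Ico A B, |tp ρ (((y : ℝ) + 1) / L) - 2 * tp ρ ((y : ℝ) / L) +
      tp ρ (((y : ℝ) - 1) / L)| ≤ 4 / (ρ * L) := by
  have hL0 : (0 : ℝ) < L := by exact_mod_cast hL
  rcases le_or_gt A B with h | h
  swap
  · rw [Finset.Ico_eq_empty (by omega), Finset.sum_empty]
    positivity
  set S : ℝ → ℤ → ℝ := fun a y => hg a L (y + 1) - 2 * hg a L y + hg a L (y - 1) with hS
  have hS0 : ∀ a y, 0 ≤ S a y := fun a y => hg_conv a L y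
  have key : ∀ y : ℤ, tp ρ (((y : ℝ) + 1) / L) - 2 * tp ρ ((y : ℝ) / L) +
      tp ρ (((y : ℝ) - 1) / L) = (1 / ρ) * (S 0 y - S ρ y - S (1 - ρ) y + S 1 y) := by
    intro y
    have e : ∀ (z : ℤ), tp ρ ((z : ℝ) / L) =
        (1 / ρ) * (hg 0 L z - hg ρ L z - hg (1 - ρ) L z + hg 1 L z) := by
      intro z
      rw [tp_hinge hρ hρ2]
      unfold hg
      rw [sub_zero]
    have e1 := e (y + 1)
    have e2 := e (y - 1)
    have e0 := e y
    push_cast at e1 e2
    rw [e1, e2, e0, hS]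
    ring
  have hbound : ∀ y : ℤ, |tp ρ (((y : ℝ) + 1) / L) - 2 * tp ρ ((y : ℝ) / L) +
      tp ρ (((y : ℝ) - 1) / L)| ≤ (1 / ρ) * (S 0 y + S ρ y + S (1 - ρ) y + S 1 y) := by
    intro y
    rw [key, abs_mul, abs_of_pos (by positivity : (0 : ℝ) < 1 / ρ)]
    refine mul_le_mul_of_nonneg_left ?_ (by positivity)
    have h0 := hS0 0 y
    have h1 := hS0 ρ y
    have h2 := hS0 (1 - ρ) y
    have h3 := hS0 1 y
    rw [abs_le]
    constructor <;> linarith
  refine (Finset.sum_le_sum fun y _ => hbound y).trans ?_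
  rw [← Finset.mul_sum, Finset.sum_add_distrib, Finset.sum_add_distrib, Finset.sum_add_distrib]
  have h0 := sum_hg 0 L A B h
  have h1 := sum_hg ρ L A B h
  have h2 := sum_hg (1 - ρ) L A B h
  have h3 := sum_hg 1 L A B h
  have e : 4 / (ρ * L) = (1 / ρ) * (1 / L + 1 / L + 1 / L + 1 / L) := by
    field_simp
    ring
  rw [e]
  refine mul_le_mul_of_nonneg_left ?_ (by positivity)
  exact add_le_add (add_le_add (add_le_add h0 h1) h2) h3

theorem tp_lipschitz {ρ : ℝ} (hρ : 0 < ρ) (u v : ℝ) : |tp ρ u - tp ρ v| ≤ |u - v| / ρ := by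
  have hp : 0 ≤ |u - v| / ρ := by positivity
  unfold tp
  refine (abs_max_sub_max_le_max _ _ _ _).trans (max_le (by simpa using hp) ?_)
  refine (abs_min_sub_min_le_max _ _ _ _).trans (max_le (by simpa using hp) ?_)
  refine (abs_min_sub_min_le_max _ _ _ _).trans (max_le ?_ ?_)
  · rw [← sub_div, abs_div, abs_of_pos hρ]
  · rw [← sub_div, abs_div, abs_of_pos hρ]
    have e : 1 - u - (1 - v) = -(u - v) := by ring
    rw [e, abs_neg]

theorem tp_nonneg (ρ u : ℝ) : 0 ≤ tp ρ u := le_max_left _ _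

theorem tp_le_one (ρ u : ℝ) : tp ρ u ≤ 1 := max_le zero_le_one (min_le_left _ _)

theorem tp_eq_zero {ρ : ℝ} (hρ : 0 < ρ) {u : ℝ} (hu : u ≤ 0 ∨ 1 ≤ u) : tp ρ u = 0 := by
  unfold tp
  refine max_eq_left ((min_le_right _ _).trans ?_)
  rcases hu with h | h
  · exact (min_le_left _ _).trans (div_nonpos_of_nonpos_of_nonneg h hρ.le)
  · exact (min_le_right _ _).trans (div_nonpos_of_nonpos_of_nonneg (by linarith) hρ.le)

theorem continuous_tp (ρ : ℝ) : Continuous (tp ρ) := by
  unfold tp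
  fun_prop

end Vale.Agent.P110U
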