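import Vale.Agent.Lib.P110U.Defs
import Vale.Agent.Lib.P110U.S1a

/-! P110U: module F2. -/

namespace Vale.Agent.P110U

open MeasureTheory Filter Topology
open scoped ComplexConjugate ENNReal
open Vale.Agent.P110F

private theorem tp_nn (ρ u : ℝ) : 0 ≤ tp ρ u := le_max_left _ _

private theorem tp_le1 (ρ u : ℝ) : tp ρ u ≤ 1 := max_le zero_le_one (min_le_left _ _)

private theorem tp_eq1 {ρ u : ℝ} (hρ : 0 < ρ) (h1 : ρ ≤ u) (h2 : u ≤ 1 - ρ) : tp ρ u = 1 := by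
  unfold tp
  have e1 : 1 ≤ u / ρ := (one_le_div hρ).2 h1
  have e2 : 1 ≤ (1 - u) / ρ := (one_le_div hρ).2 (by linarith)
  rw [min_eq_left (le_min e1 e2), max_eq_right zero_le_one]

private theorem one_sub_prod_le {ι : Type} [DecidableEq ι] (s : Finset ι) (f : ι → ℝ)
    (h0 : ∀ i, 0 ≤ f i) (h1 : ∀ i, f i ≤ 1) : 1 - ∏ i ∈ s, f i ≤ ∑ i ∈ s, (1 - f i) := by
  induction s using Finset.induction_on with
  | empty => simp
  | insert a s ha ih =>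
    rw [Finset.prod_insert ha, Finset.sum_insert ha]
    have hp0 : 0 ≤ ∏ i ∈ s, f i := Finset.prod_nonneg fun i _ => h0 i
    have hp1 : ∏ i ∈ s, f i ≤ 1 := Finset.prod_le_one (fun i _ => h0 i) fun i _ => h1 i
    nlinarith [h0 a, h1 a]

private theorem one_dim {ρ : ℝ} (hρ : 0 < ρ) (hρ2 : ρ ≤ 1 / 2) {L : ℕ} (hL : 0 < L) :
    ∑ y : Fin L, (1 - tp ρ (((y : ℕ) : ℝ) / L)) ≤ 2 * ρ * L + 2 := by
  have hL' : (0 : ℝ) < L := by exact_mod_cast hL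
  rw [Fin.sum_univ_eq_sum_range (fun y => 1 - tp ρ ((y : ℝ) / L)) L]
  -- count the bad points
  have h1 : ∀ y ∈ Finset.range L, 1 - tp ρ ((y : ℝ) / L) ≤
      (if y ∈ Finset.range ⌈ρ * L⌉₊ then (1 : ℝ) else 0) +
        (if y ∈ Finset.Ioo ⌊(1 - ρ) * L⌋₊ L then (1 : ℝ) else 0) := by
    intro y hy
    rw [Finset.mem_range] at hy
    by_cases h2 : y ∈ Finset.range ⌈ρ * L⌉₊
    · rw [if_pos h2]
      have := tp_nn ρ ((y : ℝ) / L)
      have h3 : (0 : ℝ) ≤ (if y ∈ Finset.Ioo ⌊(1 - ρ) * L⌋₊ L then (1 : ℝ) else 0) := by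
        split_ifs <;> norm_num
      linarith
    · rw [if_neg h2]
      by_cases h3 : y ∈ Finset.Ioo ⌊(1 - ρ) * L⌋₊ L
      · rw [if_pos h3]
        have := tp_nn ρ ((y : ℝ) / L)
        linarith
      · rw [if_neg h3]
        rw [Finset.mem_range, not_lt] at h2
        rw [Finset.mem_Ioo, not_and] at h3
        have h4 : y ≤ ⌊(1 - ρ) * L⌋₊ := by
          by_contra h5
          exact h3 (not_le.1 h5) hy
        have h5 : ρ * L ≤ y := (Nat.ceil_le).1 h2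
        have h6 : (y : ℝ) ≤ (1 - ρ) * L := by
          have h7 : (0 : ℝ) ≤ (1 - ρ) * L := by
            apply mul_nonneg _ hL'.le
            linarith
          exact (Nat.le_floor_iff h7).1 h4
        rw [tp_eq1 hρ ((le_div_iff₀ hL').2 h5) ((div_le_iff₀ hL').2 h6)]
        norm_num
  refine (Finset.sum_le_sum h1).trans ?_
  rw [Finset.sum_add_distrib, Finset.sum_ite_mem, Finset.sum_ite_mem, Finset.sum_const,
    Finset.sum_const, nsmul_eq_mul, nsmul_eq_mul, mul_one, mul_one]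
  have h2 : ((Finset.range L ∩ Finset.range ⌈ρ * L⌉₊).card : ℝ) ≤ ρ * L + 1 := by
    have h3 : (Finset.range L ∩ Finset.range ⌈ρ * L⌉₊).card ≤ ⌈ρ * L⌉₊ := by
      refine (Finset.card_le_card Finset.inter_subset_right).trans ?_
      rw [Finset.card_range]
    have h4 : (⌈ρ * L⌉₊ : ℝ) < ρ * L + 1 := Nat.ceil_lt_add_one (by positivity)
    have h5 : ((Finset.range L ∩ Finset.range ⌈ρ * L⌉₊).card : ℝ) ≤ ⌈ρ * L⌉₊ := by
      exact_mod_cast h3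
    linarith
  have h3 : ((Finset.range L ∩ Finset.Ioo ⌊(1 - ρ) * L⌋₊ L).card : ℝ) ≤ ρ * L + 1 := by
    have h4 : (Finset.range L ∩ Finset.Ioo ⌊(1 - ρ) * L⌋₊ L).card ≤ L - ⌊(1 - ρ) * L⌋₊ - 1 := by
      refine (Finset.card_le_card Finset.inter_subset_right).trans ?_
      rw [Nat.card_Ioo]
    have h5 : (1 - ρ) * L < (⌊(1 - ρ) * L⌋₊ : ℝ) + 1 := Nat.lt_floor_add_one _
    have h6 : (L - ⌊(1 - ρ) * L⌋₊ - 1 : ℕ) + ⌊(1 - ρ) * L⌋₊ + 1 ≤ max L (⌊(1 - ρ) * L⌋₊ + 1) := by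
      omega
    have h7 : ⌊(1 - ρ) * L⌋₊ ≤ L := by
      apply Nat.floor_le_of_le
      nlinarith
    have h8 : (L - ⌊(1 - ρ) * L⌋₊ - 1 : ℕ) + ⌊(1 - ρ) * L⌋₊ ≤ L := by omega
    have h9 : ((L - ⌊(1 - ρ) * L⌋₊ - 1 : ℕ) : ℝ) + (⌊(1 - ρ) * L⌋₊ : ℝ) ≤ L := by
      exact_mod_cast h8
    have h10 : ((Finset.range L ∩ Finset.Ioo ⌊(1 - ρ) * L⌋₊ L).card : ℝ) ≤
        ((L - ⌊(1 - ρ) * L⌋₊ - 1 : ℕ) : ℝ) := by exact_mod_cast h4
    linarith
  linarith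

/-- Loss by the taper. -/
theorem taper_loss {ρ : ℝ} (hρ : 0 < ρ) (hρ2 : ρ ≤ 1 / 2) (n : ℕ) {L : ℕ} (hL : 0 < L) :
    ∑ y : Fin n → Fin L, (1 - ∏ i, tp ρ (((y i : ℕ) : ℝ) / L)) ≤
      (2 * n * ρ + 2 * n / L) * (L : ℝ) ^ n := by
  have hL' : (0 : ℝ) < L := by exact_mod_cast hL
  refine (Finset.sum_le_sum fun y _ => one_sub_prod_le Finset.univ
    (fun i => tp ρ (((y i : ℕ) : ℝ) / L)) (fun i => tp_nn _ _) fun i => tp_le1 _ _).trans ?_
  rw [Finset.sum_comm]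
  have h1 : ∀ i : Fin n, ∑ y : Fin n → Fin L, (1 - tp ρ (((y i : ℕ) : ℝ) / L)) ≤
      (2 * ρ + 2 / L) * (L : ℝ) ^ n := by
    intro i
    obtain ⟨n', rfl⟩ : ∃ n', n = n' + 1 := ⟨n - 1, by have := i.pos; omega⟩
    have h2 : ∑ y : Fin (n' + 1) → Fin L, (1 - tp ρ (((y i : ℕ) : ℝ) / L)) =
        ∑ p : Fin L × (Fin n' → Fin L), (1 - tp ρ (((p.1 : ℕ) : ℝ) / L)) := by
      rw [← (Fin.insertNthEquiv (fun _ : Fin (n' + 1) => Fin L) i).sum_comp]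
      refine Finset.sum_congr rfl fun p _ => ?_
      simp
    rw [h2, Fintype.sum_prod_type]
    have h3 : ∀ x : Fin L, ∑ _y : Fin n' → Fin L, (1 - tp ρ (((x : ℕ) : ℝ) / L)) =
        (L : ℝ) ^ n' * (1 - tp ρ (((x : ℕ) : ℝ) / L)) := by
      intro x
      rw [Finset.sum_const, Finset.card_univ, Fintype.card_fun, Fintype.card_fin, Fintype.card_fin,
        nsmul_eq_mul]
      push_cast
      rfl
    rw [Finset.sum_congr rfl fun x _ => h3 x, ← Finset.mul_sum]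
    have h4 := one_dim hρ hρ2 hL
    have h5 : (2 * ρ + 2 / L) * (L : ℝ) ^ (n' + 1) = (L : ℝ) ^ n' * (2 * ρ * L + 2) := by
      rw [pow_succ]
      field_simp
    rw [h5]
    exact mul_le_mul_of_nonneg_left h4 (by positivity)
  refine (Finset.sum_le_sum fun i _ => h1 i).trans ?_
  rw [Finset.sum_const, Finset.card_univ, Fintype.card_fin, nsmul_eq_mul]
  apply le_of_eq
  ring

end Vale.Agent.P110U
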