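import Vale.Agent.Lib.P110U.Defs
import Vale.Agent.Lib.P110U.F1
import Vale.Agent.Lib.P110F.FinalA

/-! P110U: module F3a. -/

namespace Vale.Agent.P110U

open MeasureTheory Filter Topology
open scoped ComplexConjugate ENNReal
open Vale.Agent.P110F

theorem f_decompT {k n : ℕ} {ι : Type} [Fintype ι] (ρ c : ℝ) (L : ℕ)
    (H : ι → Fin k → Matrix (Fin n) (Fin n) ℤ) (β : ι → Fin k → Fin n → ℝ)
    (Sp : Finset (Fin k → ℤ)) (q : (Fin k → ℤ) → ℂ) (α : UnitAddTorus (Fin k)) (base : ι → ℝ)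
    (x : ℝ) :
    ∑ j : ι, ∑ y : Fin n → Fin L, ((∏ i, tp ρ (((y i : ℕ) : ℝ) / L) : ℝ) : ℂ) * (∑ m ∈ Sp,
      (q m * UnitAddTorus.mFourier m
          ((fun i => (phi c L (H j) (β j) y i : UnitAddCircle)) + α) +
        conj (q m) * UnitAddTorus.mFourier (-m)
          ((fun i => (phi c L (H j) (β j) y i : UnitAddCircle)) + α))) *
      e1 ((base j + ∑ i : Fin n, ((y i : ℕ) : ℝ) * ((4 * L : ℕ) : ℝ) ^ (i : ℕ)) * x) =
    ∑ p : ι × Sp × Bool, cf q α p * e1 (base p.1 * x) *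
      TT ρ (scl c (∑ i, (sgz p.2.2 * p.2.1.1 i) • H p.1 i))
        (fun a => ∑ i, ((sgz p.2.2 * p.2.1.1 i : ℤ) : ℝ) * β p.1 i a) L (kr n L x) := by
  rw [Fintype.sum_prod_type]
  refine Finset.sum_congr rfl fun j _ => ?_
  rw [Fintype.sum_prod_type]
  have key : ∀ (m : Fin k → ℤ) (q' : ℂ), ∑ y : Fin n → Fin L,
        ((∏ i, tp ρ (((y i : ℕ) : ℝ) / L) : ℝ) : ℂ) * (q' * UnitAddTorus.mFourier m
        ((fun i => (phi c L (H j) (β j) y i : UnitAddCircle)) + α)) *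
        e1 ((base j + ∑ i : Fin n, ((y i : ℕ) : ℝ) * ((4 * L : ℕ) : ℝ) ^ (i : ℕ)) * x) =
      q' * UnitAddTorus.mFourier m α * e1 (base j * x) *
        TT ρ (scl c (∑ i, m i • H j i)) (fun a => ∑ i, (m i : ℝ) * β j i a) L (kr n L x) := by
    intro m q'
    rw [mul_assoc (q' * _), ← cell_sumT, Finset.mul_sum]
    refine Finset.sum_congr rfl fun y _ => ?_
    rw [mFourier_add', mFourier_coe]
    ring
  have e0 : ∀ y : Fin n → Fin L, ((∏ i, tp ρ (((y i : ℕ) : ℝ) / L) : ℝ) : ℂ) * (∑ m ∈ Sp,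
      (q m * UnitAddTorus.mFourier m
          ((fun i => (phi c L (H j) (β j) y i : UnitAddCircle)) + α) +
        conj (q m) * UnitAddTorus.mFourier (-m)
          ((fun i => (phi c L (H j) (β j) y i : UnitAddCircle)) + α))) *
      e1 ((base j + ∑ i : Fin n, ((y i : ℕ) : ℝ) * ((4 * L : ℕ) : ℝ) ^ (i : ℕ)) * x) =
      ∑ m ∈ Sp, (((∏ i, tp ρ (((y i : ℕ) : ℝ) / L) : ℝ) : ℂ) * (q m * UnitAddTorus.mFourier m
          ((fun i => (phi c L (H j) (β j) y i : UnitAddCircle)) + α)) *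
      e1 ((base j + ∑ i : Fin n, ((y i : ℕ) : ℝ) * ((4 * L : ℕ) : ℝ) ^ (i : ℕ)) * x) +
      ((∏ i, tp ρ (((y i : ℕ) : ℝ) / L) : ℝ) : ℂ) * (conj (q m) * UnitAddTorus.mFourier (-m)
          ((fun i => (phi c L (H j) (β j) y i : UnitAddCircle)) + α)) *
      e1 ((base j + ∑ i : Fin n, ((y i : ℕ) : ℝ) * ((4 * L : ℕ) : ℝ) ^ (i : ℕ)) * x)) := by
    intro y
    rw [Finset.mul_sum, Finset.sum_mul]
    exact Finset.sum_congr rfl fun m _ => by ring
  rw [Finset.sum_congr rfl fun y _ => e0 y, Finset.sum_comm, ← Finset.sum_coe_sort]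
  refine Finset.sum_congr rfl fun m _ => ?_
  rw [Finset.sum_add_distrib, key, key, Fintype.sum_bool]
  congr 1
  · simp [cf, sgz]
  · have hm : (-(m : Fin k → ℤ)) = fun i => sgz false * m.1 i := by
      funext i
      simp [sgz]
    rw [hm]
    simp only [cf, Bool.false_eq_true, if_false]

end Vale.Agent.P110U
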