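import Vale.Agent.Lib.P110U.Defs
import Vale.Agent.Lib.P110F.D2

/-! P110U: module F3b. -/

namespace Vale.Agent.P110U

open MeasureTheory Filter Topology
open scoped ComplexConjugate ENNReal
open Vale.Agent.P110F

theorem exists_polyT {n R L : ℕ} (hL : 0 < L) {ι : Type} [Fintype ι] [DecidableEq ι]
    (sl : ι → Fin R × (Fin n → Fin 4)) (hsl : Function.Injective sl)
    (g : ι → (Fin n → Fin L) → ℝ) (hg : ∀ j y, |g j y| ≤ 1) :
    ∃ (c : ℕ → ℝ) (base : ι → ℝ), (∀ t, |c t| ≤ 1) ∧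
      (∀ x : ℝ, ∑ t ∈ Finset.range (R * (4 * L) ^ n), (c t : ℂ) * e1 (t * x) =
        ∑ j, ∑ y, (g j y : ℂ) *
          e1 ((base j + ∑ i : Fin n, ((y i : ℕ) : ℝ) * ((4 * L : ℕ) : ℝ) ^ (i : ℕ)) * x)) ∧
      ∑ t ∈ Finset.range (R * (4 * L) ^ n), (1 - |c t|) = ((R * (4 * L) ^ n : ℕ) : ℝ) -
        Fintype.card ι * (L : ℝ) ^ n + ∑ j, ∑ y, (1 - |g j y|) := by
  classical
  obtain ⟨e, he⟩ := exists_reindex n R L hL
  obtain ⟨A, hA⟩ : ∃ A : (Fin R × (Fin n → Fin 4)) × (Fin n → Fin L) → ℝ,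
    A = fun q => if h : ∃ j, sl j = q.1 then g h.choose q.2 else 0 := ⟨_, rfl⟩
  have hch : ∀ j (h : ∃ j', sl j' = sl j), h.choose = j := fun j h => hsl h.choose_spec
  have hAj : ∀ j y, A (sl j, y) = g j y := by
    intro j y
    rw [hA]
    have h : ∃ j', sl j' = sl j := ⟨j, rfl⟩
    simp only [dif_pos h]
    rw [hch j h]
  have hA0 : ∀ q, (¬ ∃ j, sl j = q.1) → A q = 0 := by
    intro q h
    rw [hA]
    simp only [dif_neg h]
  have hA1 : ∀ q, |A q| ≤ 1 := by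
    intro q
    by_cases h : ∃ j, sl j = q.1
    · rw [hA]
      simp only [dif_pos h]
      exact hg _ _
    · rw [hA0 q h]
      simp
  have hsum : ∀ {M : Type} [AddCommMonoid M] (Φ : (Fin R × (Fin n → Fin 4)) × (Fin n → Fin L) → M),
      (∀ q, (¬ ∃ j, sl j = q.1) → Φ q = 0) → ∑ q, Φ q = ∑ j, ∑ y, Φ (sl j, y) := by
    intro M _ Φ hΦ
    rw [← Fintype.sum_prod_type']
    refine (Fintype.sum_of_injective (fun q : ι × (Fin n → Fin L) => (sl q.1, q.2)) ?_ _ _ ?_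
      fun q => rfl).symm
    · rintro ⟨j, y⟩ ⟨j', y'⟩ h
      simp only [Prod.mk.injEq] at h
      rw [hsl h.1, h.2]
    · intro q hq
      refine hΦ q fun h => hq ?_
      obtain ⟨j, hj⟩ := h
      exact ⟨(j, q.2), by simp [hj]⟩
  refine ⟨fun t => if h : t < R * (4 * L) ^ n then A (e.symm ⟨t, h⟩) else 0,
    fun j => ((sl j).1 : ℕ) * ((4 * L : ℕ) : ℝ) ^ n +
      ∑ i : Fin n, (((sl j).2 i : ℕ) : ℝ) * L * ((4 * L : ℕ) : ℝ) ^ (i : ℕ), ?_, ?_, ?_⟩
  · intro t
    beta_reduce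
    split_ifs
    · exact hA1 _
    · simp
  · intro x
    have h1 : ∑ t ∈ Finset.range (R * (4 * L) ^ n),
        (((if h : t < R * (4 * L) ^ n then A (e.symm ⟨t, h⟩) else 0 : ℝ)) : ℂ) * e1 (t * x) =
        ∑ q, (A q : ℂ) * e1 (((e q : ℕ) : ℝ) * x) := by
      rw [Finset.sum_range, ← Equiv.sum_comp e]
      refine Finset.sum_congr rfl fun q _ => ?_
      rw [dif_pos (e q).2]
      simp
    rw [h1, hsum (fun q => (A q : ℂ) * e1 (((e q : ℕ) : ℝ) * x)) fun q h => by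
      rw [hA0 q h, Complex.ofReal_zero, zero_mul]]
    refine Finset.sum_congr rfl fun j _ => Finset.sum_congr rfl fun y _ => ?_
    rw [hAj]
    congr 3
    have h3 := he (sl j).1 (sl j).2 y
    rw [Prod.mk.eta] at h3
    rw [h3]
    push_cast
    rw [add_assoc, ← Finset.sum_add_distrib]
    congr 1
    exact Finset.sum_congr rfl fun i _ => by ring
  · have h2 : ∑ t ∈ Finset.range (R * (4 * L) ^ n),
        (1 - |(if h : t < R * (4 * L) ^ n then A (e.symm ⟨t, h⟩) else 0 : ℝ)|) =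
        ∑ q, (1 - |A q|) := by
      rw [Finset.sum_range, ← Equiv.sum_comp e]
      refine Finset.sum_congr rfl fun q _ => ?_
      rw [dif_pos (e q).2]
      simp
    beta_reduce
    rw [h2]
    have h3 : ∑ q, (1 - |A q|) = ∑ q : (Fin R × (Fin n → Fin 4)) × (Fin n → Fin L),
        (1 + (-|A q|)) := Finset.sum_congr rfl fun q _ => by ring
    rw [h3, Finset.sum_add_distrib,
      hsum (fun q => -|A q|) fun q h => by rw [hA0 q h]; simp]
    have h4 : ∑ _q : (Fin R × (Fin n → Fin 4)) × (Fin n → Fin L), (1 : ℝ) =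
        ((R * (4 * L) ^ n : ℕ) : ℝ) := by
      rw [Finset.sum_const, Finset.card_univ, nsmul_eq_mul, mul_one, Fintype.card_congr e,
        Fintype.card_fin]
    rw [h4]
    simp only [hAj, Finset.sum_sub_distrib, Finset.sum_neg_distrib, Finset.sum_const,
      Finset.card_univ, nsmul_eq_mul, mul_one, Fintype.card_fun, Fintype.card_fin]
    push_cast
    ring

end Vale.Agent.P110U
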