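import Vale.Agent.Lib.P110U.GDefs
import Vale.Agent.Lib.P110U.S1a

/-! P110U: module G0. -/

namespace Vale.Agent.P110U

open MeasureTheory Filter Topology
open scoped ComplexConjugate ENNReal
open Vale.Agent.P110F

private theorem G0_tp {ρ : ℝ} (hρ : 0 < ρ) (hρ2 : ρ ≤ 1 / 2) :
    GF (12 / ρ + 8) (tp ρ) := by
  have h12 : 0 < 12 / ρ := by positivity
  refine ⟨by linarith, fun u hu => tp_eq_zero hρ hu, fun u => ?_, fun u v => ?_, ?_⟩
  · rw [abs_of_nonneg (tp_nonneg ρ u)]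
    linarith [tp_le_one ρ u]
  · refine (tp_lipschitz hρ u v).trans ?_
    have h1 : |u - v| / ρ = (1 / ρ) * |u - v| := by ring
    rw [h1]
    refine mul_le_mul_of_nonneg_right ?_ (abs_nonneg _)
    have : 1 / ρ ≤ 12 / ρ := by gcongr; norm_num
    linarith
  · intro L hL A B
    refine (tp_second_diff hρ hρ2 hL A B).trans ?_
    have hL0 : (0 : ℝ) < L := by exact_mod_cast hL
    have e : 4 / (ρ * L) = (4 / ρ) / L := by field_simp
    rw [e]
    have : 4 / ρ ≤ 12 / ρ := by gcongr; norm_num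
    gcongr
    linarith

private noncomputable def cl (u : ℝ) : ℝ := max 0 (min 1 u)

private theorem cl_lip (u v : ℝ) : |cl u - cl v| ≤ |u - v| := by
  unfold cl
  refine (abs_max_sub_max_le_max _ _ _ _).trans (max_le (by simp) ?_)
  refine (abs_min_sub_min_le_max _ _ _ _).trans (max_le (by simp) le_rfl)

private theorem cl_nonneg (u : ℝ) : 0 ≤ cl u := le_max_left _ _

private theorem cl_le (u : ℝ) : cl u ≤ 1 := max_le zero_le_one (min_le_left _ _)

private theorem cl_mul {ρ : ℝ} (hρ : 0 < ρ) (s u : ℝ) :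
    (s + u) * tp ρ u = (s + cl u) * tp ρ u := by
  by_cases h : u ≤ 0 ∨ 1 ≤ u
  · rw [tp_eq_zero hρ h]
    ring
  · push Not at h
    have : cl u = u := by
      unfold cl
      rw [min_eq_right h.2.le, max_eq_right h.1.le]
    rw [this]

private theorem G0_sum_ind (L : ℕ) (A B : ℤ) (c : ℝ) (hc : 0 ≤ c) :
    ∑ y ∈ Finset.Ico A B, (if (0 : ℤ) ≤ y ∧ y ≤ (L : ℤ) then c else 0) ≤ ((L : ℝ) + 1) * c := by
  rw [← Finset.sum_filter, Finset.sum_const, nsmul_eq_mul]
  refine mul_le_mul_of_nonneg_right ?_ hc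
  have h1 : (Finset.filter (fun y : ℤ => (0 : ℤ) ≤ y ∧ y ≤ (L : ℤ)) (Finset.Ico A B)) ⊆
      Finset.Icc (0 : ℤ) (L : ℤ) := by
    intro y hy
    rw [Finset.mem_filter] at hy
    exact Finset.mem_Icc.mpr hy.2
  have h2 := Finset.card_le_card h1
  have h3 : (Finset.Icc (0 : ℤ) (L : ℤ)).card = L + 1 := by
    rw [Int.card_Icc]
    omega
  rw [h3] at h2
  exact_mod_cast h2

private theorem G0_win {ρ : ℝ} (hρ : 0 < ρ) (hρ2 : ρ ≤ 1 / 2) {s : ℝ} (hs : 0 ≤ s) (hs1 : s ≤ 1) :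
    GF (12 / ρ + 8) (fun u => (s + u) * tp ρ u) := by
  have h12 : 0 < 12 / ρ := by positivity
  refine ⟨by linarith, fun u hu => ?_, fun u => ?_, fun u v => ?_, ?_⟩
  · simp only [tp_eq_zero hρ hu, mul_zero]
  · simp only [cl_mul hρ s u]
    have h1 := cl_nonneg u
    have h2 := cl_le u
    have h3 := tp_nonneg ρ u
    have h4 := tp_le_one ρ u
    rw [abs_of_nonneg (mul_nonneg (by linarith) h3)]
    nlinarith
  · simp only [cl_mul hρ s u, cl_mul hρ s v]
    have e : (s + cl u) * tp ρ u - (s + cl v) * tp ρ v =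
        (s + cl u) * (tp ρ u - tp ρ v) + (cl u - cl v) * tp ρ v := by ring
    rw [e]
    refine (abs_add_le _ _).trans ?_
    rw [abs_mul, abs_mul]
    have h1 := cl_nonneg u
    have h2 := cl_le u
    have h3 := tp_nonneg ρ v
    have h4 := tp_le_one ρ v
    have h5 := tp_lipschitz hρ u v
    have h6 := cl_lip u v
    have h7 : |s + cl u| ≤ 2 := by rw [abs_of_nonneg (by linarith)]; linarith
    have h8 : |tp ρ v| ≤ 1 := by rw [abs_of_nonneg h3]; exact h4
    have h9 : |s + cl u| * |tp ρ u - tp ρ v| ≤ 2 * (|u - v| / ρ) :=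
      mul_le_mul h7 h5 (abs_nonneg _) (by norm_num)
    have h10 : |cl u - cl v| * |tp ρ v| ≤ |u - v| * 1 :=
      mul_le_mul h6 h8 (abs_nonneg _) (abs_nonneg _)
    have h11 : 2 * (|u - v| / ρ) = (2 / ρ) * |u - v| := by ring
    have h13 : (2 / ρ) * |u - v| ≤ (12 / ρ) * |u - v| := by
      gcongr
      norm_num
    nlinarith [abs_nonneg (u - v)]
  · intro L hL A B
    have hL0 : (0 : ℝ) < L := by exact_mod_cast hL
    have hL1 : (1 : ℝ) ≤ L := by exact_mod_cast hL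
    have hb : ∀ y : ℤ, |(s + ((y : ℝ) + 1) / L) * tp ρ (((y : ℝ) + 1) / L) -
        2 * ((s + (y : ℝ) / L) * tp ρ ((y : ℝ) / L)) +
        (s + ((y : ℝ) - 1) / L) * tp ρ (((y : ℝ) - 1) / L)| ≤
        2 * |tp ρ (((y : ℝ) + 1) / L) - 2 * tp ρ ((y : ℝ) / L) + tp ρ (((y : ℝ) - 1) / L)| +
        (if (0 : ℤ) ≤ y ∧ y ≤ (L : ℤ) then 2 / (ρ * L ^ 2) else 0) := by
      intro y
      by_cases hy : (0 : ℤ) ≤ y ∧ y ≤ (L : ℤ)
      · rw [if_pos hy]
        have y0 : (0 : ℝ) ≤ y := by exact_mod_cast hy.1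
        have y1 : (y : ℝ) ≤ L := by exact_mod_cast hy.2
        have x0 : 0 ≤ (y : ℝ) / L := by positivity
        have x1 : (y : ℝ) / L ≤ 1 := by rw [div_le_one hL0]; exact y1
        have e : (s + ((y : ℝ) + 1) / L) * tp ρ (((y : ℝ) + 1) / L) -
            2 * ((s + (y : ℝ) / L) * tp ρ ((y : ℝ) / L)) +
            (s + ((y : ℝ) - 1) / L) * tp ρ (((y : ℝ) - 1) / L) =
            (s + (y : ℝ) / L) * (tp ρ (((y : ℝ) + 1) / L) - 2 * tp ρ ((y : ℝ) / L) +
              tp ρ (((y : ℝ) - 1) / L)) +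
            (1 / L) * (tp ρ (((y : ℝ) + 1) / L) - tp ρ (((y : ℝ) - 1) / L)) := by
          field_simp
          ring
        rw [e]
        refine (abs_add_le _ _).trans ?_
        rw [abs_mul, abs_mul, abs_of_nonneg (by linarith : 0 ≤ s + (y : ℝ) / L),
          abs_of_pos (by positivity : (0 : ℝ) < 1 / L)]
        refine add_le_add (mul_le_mul_of_nonneg_right (by linarith) (abs_nonneg _)) ?_
        have h1 := tp_lipschitz hρ (((y : ℝ) + 1) / L) (((y : ℝ) - 1) / L)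
        have h2 : ((y : ℝ) + 1) / L - ((y : ℝ) - 1) / L = 2 / L := by ring
        rw [h2, abs_of_pos (by positivity : (0 : ℝ) < 2 / L)] at h1
        refine (mul_le_mul_of_nonneg_left h1 (by positivity)).trans (le_of_eq ?_)
        field_simp
      · rw [if_neg hy, add_zero]
        have hz : (((y : ℝ) + 1) / L ≤ 0 ∨ 1 ≤ ((y : ℝ) + 1) / L) ∧
            ((y : ℝ) / L ≤ 0 ∨ 1 ≤ (y : ℝ) / L) ∧
            (((y : ℝ) - 1) / L ≤ 0 ∨ 1 ≤ ((y : ℝ) - 1) / L) := by
          by_cases h0 : (0 : ℤ) ≤ y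
          · have h1 : (L : ℤ) + 1 ≤ y := by
              by_contra hc
              exact hy ⟨h0, by omega⟩
            have h2 : (L : ℝ) + 1 ≤ y := by exact_mod_cast h1
            refine ⟨Or.inr ?_, Or.inr ?_, Or.inr ?_⟩ <;> rw [one_le_div hL0] <;> linarith
          · have h1 : y + 1 ≤ 0 := by omega
            have h2 : (y : ℝ) + 1 ≤ 0 := by exact_mod_cast h1
            refine ⟨Or.inl ?_, Or.inl ?_, Or.inl ?_⟩ <;>
              exact div_nonpos_of_nonpos_of_nonneg (by linarith) hL0.le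
        rw [tp_eq_zero hρ hz.1, tp_eq_zero hρ hz.2.1, tp_eq_zero hρ hz.2.2]
        simp
    refine (Finset.sum_le_sum fun y _ => hb y).trans ?_
    rw [Finset.sum_add_distrib, ← Finset.mul_sum]
    have h1 := tp_second_diff hρ hρ2 hL A B
    have h2 := G0_sum_ind L A B (2 / (ρ * L ^ 2)) (by positivity)
    have h3 : ((L : ℝ) + 1) * (2 / (ρ * L ^ 2)) ≤ (2 * L) * (2 / (ρ * L ^ 2)) :=
      mul_le_mul_of_nonneg_right (by linarith) (by positivity)
    have h4 : (2 * (L : ℝ)) * (2 / (ρ * L ^ 2)) = 4 / (ρ * L) := by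
      field_simp
      ring
    have h5 : (12 / ρ + 8) / L = 12 / (ρ * L) + 8 / L := by
      field_simp
    have h6 : 2 * (4 / (ρ * L)) + 4 / (ρ * L) = 12 / (ρ * L) := by ring
    have h7 : (0 : ℝ) ≤ 8 / L := by positivity
    rw [h5]
    linarith

/-- The three windows are admissible. -/
theorem exists_GF {ρ : ℝ} (hρ : 0 < ρ) (hρ2 : ρ ≤ 1 / 2) :
    ∃ C : ℝ, GF C (tp ρ) ∧ GF C (fun u => (0 + u) * tp ρ u) ∧
      GF C (fun u => (1 + u) * tp ρ u) :=
  ⟨12 / ρ + 8, G0_tp hρ hρ2, G0_win hρ hρ2 le_rfl zero_le_one, G0_win hρ hρ2 zero_le_one le_rfl⟩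

theorem exists_GF_fa {ρ : ℝ} (hρ : 0 < ρ) (hρ2 : ρ ≤ 1 / 2) :
    ∃ C : ℝ, GF C (tp ρ) ∧ ∀ (n : ℕ) (a : Fin n), (∀ i, GF C (fa ρ a 0 i)) ∧
      ∀ i, GF C (fa ρ a 1 i) := by
  obtain ⟨C, h1, h2, h3⟩ := exists_GF hρ hρ2
  refine ⟨C, h1, fun n a => ⟨fun i => ?_, fun i => ?_⟩⟩
  · by_cases h : i = a
    · have : fa ρ a 0 i = fun u => (0 + u) * tp ρ u := by
        funext u
        simp [fa, h]
      rw [this]
      exact h2
    · have : fa ρ a 0 i = tp ρ := by
        funext u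
        simp [fa, h]
      rw [this]
      exact h1
  · by_cases h : i = a
    · have : fa ρ a 1 i = fun u => (1 + u) * tp ρ u := by
        funext u
        simp [fa, h]
      rw [this]
      exact h3
    · have : fa ρ a 1 i = tp ρ := by
        funext u
        simp [fa, h]
      rw [this]
      exact h1

theorem GF.continuous {C : ℝ} {f : ℝ → ℝ} (hf : GF C f) : Continuous f := by
  have h : LipschitzWith C.toNNReal f := by
    refine LipschitzWith.of_dist_le_mul fun u v => ?_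
    rw [Real.dist_eq, Real.dist_eq, Real.coe_toNNReal _ hf.pos.le]
    exact hf.lip u v
  exact h.continuous

end Vale.Agent.P110U
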