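import Vale.Agent.Lib.P110U.Defs
import Vale.Agent.Lib.P110U.S1a

/-! P110U: module S1. -/

namespace Vale.Agent.P110U

open MeasureTheory Filter Topology
open scoped ComplexConjugate ENNReal
open Vale.Agent.P110F

private theorem S1_sub {L : ℕ} {A B : ℤ} (hA : A ≤ 0) (hB : (L : ℤ) ≤ B) (a : ℤ → ℂ)
    (ha : ∀ y : ℤ, (y ≤ 0 ∨ (L : ℤ) ≤ y) → a y = 0) :
    ∑ y ∈ Finset.Ico A B, a y = ∑ y ∈ Finset.Ico (0 : ℤ) L, a y := by
  symm
  apply Finset.sum_subset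
  · intro y hy
    rw [Finset.mem_Ico] at hy ⊢
    omega
  · intro y _ hy
    rw [Finset.mem_Ico] at hy
    apply ha
    omega

private theorem S1_parts {L : ℕ} (φ : ℤ → ℂ) (E : ℤ → ℂ) (z w : ℂ)
    (hz : ∀ y, E (y + 1) = z * E y) (hw : ∀ y, E (y - 1) = w * E y)
    (hφ : ∀ y : ℤ, (y ≤ 0 ∨ (L : ℤ) ≤ y) → φ y = 0) :
    (z + w - 2) * ∑ y ∈ Finset.Ico (0 : ℤ) L, φ y * E y =
      ∑ y ∈ Finset.Ico (-1 : ℤ) (L + 1), (φ (y + 1) - 2 * φ y + φ (y - 1)) * E y := by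
  have h1 : ∑ y ∈ Finset.Ico (-1 : ℤ) (L + 1), φ (y + 1) * E y =
      w * ∑ y ∈ Finset.Ico (0 : ℤ) L, φ y * E y := by
    have h := Finset.sum_Ico_add' (fun y : ℤ => φ y * (w * E y)) (-1 : ℤ) (L + 1) 1
    have h2 : ∀ y : ℤ, φ (y + 1) * E y = φ (y + 1) * (w * E (y + 1)) := by
      intro y
      rw [← hw (y + 1), add_sub_cancel_right]
    simp only [h2]
    rw [h, S1_sub (L := L) (by norm_num) (by omega) _ (fun y hy => by rw [hφ y hy, zero_mul]),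
      Finset.mul_sum]
    exact Finset.sum_congr rfl fun y _ => by ring
  have h2 : ∑ y ∈ Finset.Ico (-1 : ℤ) (L + 1), φ (y - 1) * E y =
      z * ∑ y ∈ Finset.Ico (0 : ℤ) L, φ y * E y := by
    have h := Finset.sum_Ico_add' (fun y : ℤ => φ y * (z * E y)) (-1 : ℤ) (L + 1) (-1)
    have h2 : ∀ y : ℤ, φ (y - 1) * E y = φ (y + -1) * (z * E (y + -1)) := by
      intro y
      rw [← hz (y + -1), neg_add_cancel_right, sub_eq_add_neg]
    simp only [h2]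
    rw [h, S1_sub (L := L) (by norm_num) (by omega) _ (fun y hy => by rw [hφ y hy, zero_mul]),
      Finset.mul_sum]
    exact Finset.sum_congr rfl fun y _ => by ring
  have h3 : ∑ y ∈ Finset.Ico (-1 : ℤ) (L + 1), φ y * E y =
      ∑ y ∈ Finset.Ico (0 : ℤ) L, φ y * E y :=
    S1_sub (L := L) (by norm_num) (by omega) _ (fun y hy => by rw [hφ y hy, zero_mul])
  have h4 : ∑ y ∈ Finset.Ico (-1 : ℤ) (L + 1), (φ (y + 1) - 2 * φ y + φ (y - 1)) * E y =
      ∑ y ∈ Finset.Ico (-1 : ℤ) (L + 1), φ (y + 1) * E y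
      - 2 * ∑ y ∈ Finset.Ico (-1 : ℤ) (L + 1), φ y * E y
      + ∑ y ∈ Finset.Ico (-1 : ℤ) (L + 1), φ (y - 1) * E y := by
    rw [Finset.mul_sum, ← Finset.sum_sub_distrib, ← Finset.sum_add_distrib]
    exact Finset.sum_congr rfl fun y _ => by ring
  rw [h4, h1, h2, h3]
  ring

private theorem S1_prod (fp f0 fm gp g0 gm δ : ℝ) (hf : |f0| ≤ 1) (hg : |g0| ≤ 1)
    (h1 : |fp - f0| ≤ δ) (h2 : |gp - g0| ≤ δ) (h3 : |fm - f0| ≤ δ) (h4 : |gm - g0| ≤ δ) :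
    |fp * gp - 2 * (f0 * g0) + fm * gm| ≤
      |fp - 2 * f0 + fm| + |gp - 2 * g0 + gm| + 2 * δ ^ 2 := by
  have h : fp * gp - 2 * (f0 * g0) + fm * gm = f0 * (gp - 2 * g0 + gm) + g0 * (fp - 2 * f0 + fm)
      + (fp - f0) * (gp - g0) + (fm - f0) * (gm - g0) := by ring
  rw [h]
  have hδ : 0 ≤ δ := le_trans (abs_nonneg _) h1
  have e1 : |f0 * (gp - 2 * g0 + gm)| ≤ |gp - 2 * g0 + gm| := by
    rw [abs_mul]
    exact mul_le_of_le_one_left (abs_nonneg _) hf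
  have e2 : |g0 * (fp - 2 * f0 + fm)| ≤ |fp - 2 * f0 + fm| := by
    rw [abs_mul]
    exact mul_le_of_le_one_left (abs_nonneg _) hg
  have e3 : |(fp - f0) * (gp - g0)| ≤ δ ^ 2 := by
    rw [abs_mul, sq]
    exact mul_le_mul h1 h2 (abs_nonneg _) hδ
  have e4 : |(fm - f0) * (gm - g0)| ≤ δ ^ 2 := by
    rw [abs_mul, sq]
    exact mul_le_mul h3 h4 (abs_nonneg _) hδ
  have e5 := abs_add_le (f0 * (gp - 2 * g0 + gm) + g0 * (fp - 2 * f0 + fm)
      + (fp - f0) * (gp - g0)) ((fm - f0) * (gm - g0))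
  have e6 := abs_add_le (f0 * (gp - 2 * g0 + gm) + g0 * (fp - 2 * f0 + fm))
      ((fp - f0) * (gp - g0))
  have e7 := abs_add_le (f0 * (gp - 2 * g0 + gm)) (g0 * (fp - 2 * f0 + fm))
  linarith

private theorem S1_diff {ρ : ℝ} (hρ : 0 < ρ) (hρ2 : ρ ≤ 1 / 2) {L : ℕ} (hL : 0 < L) (d : ℤ) :
    ∑ y ∈ Finset.Ico (-1 : ℤ) (L + 1),
      |tp ρ (((y : ℝ) + 1) / L) * tp ρ (((y + d : ℝ) + 1) / L)
        - 2 * (tp ρ ((y : ℝ) / L) * tp ρ ((y + d : ℝ) / L))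
        + tp ρ (((y : ℝ) - 1) / L) * tp ρ (((y + d : ℝ) - 1) / L)| ≤ 16 / (ρ ^ 2 * L) := by
  have hL' : (0 : ℝ) < L := by exact_mod_cast hL
  have hL1 : (1 : ℝ) ≤ L := by exact_mod_cast hL
  have hlip : ∀ u v : ℝ, |u - v| ≤ 1 → |tp ρ (u / L) - tp ρ (v / L)| ≤ 1 / (ρ * L) := by
    intro u v huv
    refine (tp_lipschitz hρ _ _).trans ?_
    rw [← sub_div, abs_div, abs_of_pos hL', div_div, mul_comm (L : ℝ) ρ]
    exact div_le_div_of_nonneg_right huv (by positivity)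
  have habs : ∀ u : ℝ, |tp ρ u| ≤ 1 := by
    intro u
    rw [abs_of_nonneg (tp_nonneg ρ u)]
    exact tp_le_one ρ u
  have hterm : ∀ y ∈ Finset.Ico (-1 : ℤ) (L + 1),
      |tp ρ (((y : ℝ) + 1) / L) * tp ρ (((y + d : ℝ) + 1) / L)
        - 2 * (tp ρ ((y : ℝ) / L) * tp ρ ((y + d : ℝ) / L))
        + tp ρ (((y : ℝ) - 1) / L) * tp ρ (((y + d : ℝ) - 1) / L)| ≤
      |tp ρ (((y : ℝ) + 1) / L) - 2 * tp ρ ((y : ℝ) / L) + tp ρ (((y : ℝ) - 1) / L)| +
      |tp ρ (((y + d : ℝ) + 1) / L) - 2 * tp ρ ((y + d : ℝ) / L) + tp ρ (((y + d : ℝ) - 1) / L)| +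
      2 * (1 / (ρ * L)) ^ 2 := by
    intro y _
    apply S1_prod _ _ _ _ _ _ _ (habs _) (habs _)
    · apply hlip; rw [add_sub_cancel_left]; simp
    · apply hlip; rw [add_sub_cancel_left]; simp
    · apply hlip; rw [sub_sub_cancel_left]; simp
    · apply hlip; rw [sub_sub_cancel_left]; simp
  refine (Finset.sum_le_sum hterm).trans ?_
  rw [Finset.sum_add_distrib, Finset.sum_add_distrib, Finset.sum_const, Int.card_Ico, nsmul_eq_mul]
  have hA := tp_second_diff hρ hρ2 hL (-1) (L + 1)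
  have hB : ∑ y ∈ Finset.Ico (-1 : ℤ) (L + 1),
      |tp ρ (((y + d : ℝ) + 1) / L) - 2 * tp ρ ((y + d : ℝ) / L) + tp ρ (((y + d : ℝ) - 1) / L)|
      ≤ 4 / (ρ * L) := by
    have h := tp_second_diff hρ hρ2 hL (-1 + d) (L + 1 + d)
    rw [← Finset.sum_Ico_add'] at h
    push_cast at h
    exact h
  have hn : (((L : ℤ) + 1 - -1).toNat : ℝ) = L + 2 := by
    have : ((L : ℤ) + 1 - -1).toNat = L + 2 := by omega
    rw [this]
    push_cast
    ring
  rw [hn]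
  have h8 : 8 / (ρ * L) ≤ 4 / (ρ ^ 2 * L) := by
    rw [div_le_div_iff₀ (by positivity) (by positivity)]
    have : 0 < ρ * L := by positivity
    nlinarith
  have h9 : ((L : ℝ) + 2) * (2 * (1 / (ρ * L)) ^ 2) ≤ 6 / (ρ ^ 2 * L) := by
    have h10 : ((L : ℝ) + 2) * (2 * (1 / (ρ * L)) ^ 2) = (2 * (L + 2) / L) / (ρ ^ 2 * L) := by
      field_simp
    rw [h10]
    apply div_le_div_of_nonneg_right _ (by positivity)
    rw [div_le_iff₀ hL']
    linarith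
  have h11 : 4 / (ρ * (L : ℝ)) + 4 / (ρ * L) = 8 / (ρ * L) := by ring
  have h12 : 4 / (ρ ^ 2 * (L : ℝ)) + 6 / (ρ ^ 2 * L) ≤ 16 / (ρ ^ 2 * L) := by
    rw [← add_div]
    apply div_le_div_of_nonneg_right _ (by positivity)
    norm_num
  linarith

private theorem S1_e1_re (x : ℝ) : (e1 x).re = Real.cos (2 * Real.pi * x) := by
  unfold e1
  rw [show (2 * Real.pi * Complex.I * x : ℂ) = ((2 * Real.pi * x : ℝ) : ℂ) * Complex.I by
    push_cast; ring]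
  exact Complex.exp_ofReal_mul_I_re _

private theorem S1_zw {L : ℕ} (hL : 0 < L) {t : ℝ} (ht : |t| ≤ L / 2) :
    16 * t ^ 2 / L ^ 2 ≤ ‖e1 (t / L) + e1 (-(t / L)) - 2‖ := by
  have hL' : (0 : ℝ) < L := by exact_mod_cast hL
  have h1 : e1 (t / L) + e1 (-(t / L)) - 2 =
      ((-(4 * Real.sin (Real.pi * (t / L)) ^ 2) : ℝ) : ℂ) := by
    rw [e1_neg, Complex.add_conj, S1_e1_re]
    have h2 : 2 * Real.pi * (t / L) = 2 * (Real.pi * (t / L)) := by ring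
    rw [h2, Real.cos_two_mul, Real.cos_sq']
    push_cast
    ring
  rw [h1, Complex.norm_real, Real.norm_eq_abs, abs_neg, abs_of_nonneg (by positivity)]
  have h3 : |Real.pi * (t / L)| ≤ Real.pi / 2 := by
    rw [abs_mul, abs_of_pos Real.pi_pos, abs_div, abs_of_pos hL']
    have h4 : |t| / L ≤ 1 / 2 := by
      rw [div_le_iff₀ hL']
      linarith
    nlinarith [Real.pi_pos]
  have h5 := Real.mul_abs_le_abs_sin h3
  have h6 : 2 / Real.pi * |Real.pi * (t / L)| = 2 * (|t| / L) := by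
    rw [abs_mul, abs_of_pos Real.pi_pos, abs_div, abs_of_pos hL']
    field_simp
  rw [h6] at h5
  have h7 : (2 * (|t| / L)) ^ 2 ≤ |Real.sin (Real.pi * (t / L))| ^ 2 :=
    pow_le_pow_left₀ (by positivity) h5 2
  rw [sq_abs] at h7
  have h8 : 16 * t ^ 2 / L ^ 2 = 4 * (2 * (|t| / L)) ^ 2 := by
    rw [mul_pow, div_pow, sq_abs]
    ring
  rw [h8]
  linarith

/-- Decay of the tapered correlation sum. -/
theorem norm_W1_le {ρ : ℝ} (hρ : 0 < ρ) (hρ2 : ρ ≤ 1 / 2) {L : ℕ} (hL : 0 < L) (d : ℤ) {t : ℝ}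
    (ht : |t| ≤ L / 2) :
    ‖W1 ρ L d t‖ ≤ L * ((1 / ρ ^ 2) / max 1 (t ^ 2)) := by
  have hL' : (0 : ℝ) < L := by exact_mod_cast hL
  rcases le_or_gt (t ^ 2) 1 with h | h
  · rw [max_eq_left h, div_one]
    have h1 : ‖W1 ρ L d t‖ ≤ L := by
      unfold W1
      refine (norm_sum_le _ _).trans ?_
      have h2 : ∀ y ∈ Finset.Ico (0 : ℤ) L,
          ‖((tp ρ ((y : ℝ) / L) * tp ρ (((y + d : ℤ) : ℝ) / L) : ℝ) : ℂ) *
            e1 (t * ((y : ℝ) / L))‖ ≤ 1 := by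
        intro y _
        rw [norm_mul, norm_e1, mul_one, Complex.norm_real, Real.norm_eq_abs,
          abs_of_nonneg (mul_nonneg (tp_nonneg _ _) (tp_nonneg _ _))]
        exact mul_le_one₀ (tp_le_one _ _) (tp_nonneg _ _) (tp_le_one _ _)
      refine (Finset.sum_le_sum h2).trans ?_
      simp
    refine h1.trans (le_mul_of_one_le_right hL'.le ?_)
    rw [le_div_iff₀ (by positivity), one_mul]
    nlinarith
  · rw [max_eq_right h.le]
    set S := W1 ρ L d t with hS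
    have hparts := S1_parts (L := L)
      (fun y : ℤ => ((tp ρ ((y : ℝ) / L) * tp ρ (((y + d : ℤ) : ℝ) / L) : ℝ) : ℂ))
      (fun y : ℤ => e1 (t * ((y : ℝ) / L))) (e1 (t / L)) (e1 (-(t / L)))
      (fun y => by
        rw [← e1_add]
        congr 1
        push_cast
        ring)
      (fun y => by
        rw [← e1_add]
        congr 1
        push_cast
        ring)
      (fun y hy => by
        have h0 : tp ρ ((y : ℝ) / L) = 0 := by
          apply tp_eq_zero hρ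
          rcases hy with hy | hy
          · left
            apply div_nonpos_of_nonpos_of_nonneg _ hL'.le
            exact_mod_cast hy
          · right
            rw [le_div_iff₀ hL', one_mul]
            exact_mod_cast hy
        rw [h0, zero_mul, Complex.ofReal_zero])
    have hnorm : ‖e1 (t / L) + e1 (-(t / L)) - 2‖ * ‖S‖ ≤ 16 / (ρ ^ 2 * L) := by
      rw [← norm_mul]
      have hS2 : (e1 (t / L) + e1 (-(t / L)) - 2) * S = _ := hparts
      rw [hS2]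
      refine (norm_sum_le _ _).trans ?_
      refine le_trans (Finset.sum_le_sum fun y _ => ?_) (S1_diff hρ hρ2 hL d)
      rw [norm_mul, norm_e1, mul_one]
      have h9 : (((tp ρ (((y + 1 : ℤ) : ℝ) / L) * tp ρ (((y + 1 + d : ℤ) : ℝ) / L) : ℝ) : ℂ) -
          2 * ((tp ρ ((y : ℝ) / L) * tp ρ (((y + d : ℤ) : ℝ) / L) : ℝ) : ℂ) +
          ((tp ρ (((y - 1 : ℤ) : ℝ) / L) * tp ρ (((y - 1 + d : ℤ) : ℝ) / L) : ℝ) : ℂ)) =
          ((tp ρ (((y : ℝ) + 1) / L) * tp ρ (((y + d : ℝ) + 1) / L)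
        - 2 * (tp ρ ((y : ℝ) / L) * tp ρ ((y + d : ℝ) / L))
        + tp ρ (((y : ℝ) - 1) / L) * tp ρ (((y + d : ℝ) - 1) / L) : ℝ) : ℂ) := by
        have a1 : (((y + 1 + d : ℤ) : ℝ)) = (y + d : ℝ) + 1 := by push_cast; ring
        have a2 : (((y - 1 + d : ℤ) : ℝ)) = (y + d : ℝ) - 1 := by push_cast; ring
        have a3 : (((y + d : ℤ) : ℝ)) = (y + d : ℝ) := by push_cast; ring
        have a4 : (((y + 1 : ℤ) : ℝ)) = (y : ℝ) + 1 := by push_cast; ring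
        have a5 : (((y - 1 : ℤ) : ℝ)) = (y : ℝ) - 1 := by push_cast; ring
        rw [a1, a2, a3, a4, a5]
        push_cast
        ring
      rw [h9, Complex.norm_real, Real.norm_eq_abs]
    have hzw := S1_zw hL ht
    have ht2 : 0 < t ^ 2 := by linarith
    have h10 : 16 * t ^ 2 / L ^ 2 * ‖S‖ ≤ 16 / (ρ ^ 2 * L) :=
      (mul_le_mul_of_nonneg_right hzw (norm_nonneg _)).trans hnorm
    have h11 : ‖S‖ ≤ 16 / (ρ ^ 2 * L) / (16 * t ^ 2 / L ^ 2) := by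
      rw [le_div_iff₀ (by positivity), mul_comm]
      exact h10
    refine h11.trans (le_of_eq ?_)
    field_simp

end Vale.Agent.P110U
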