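import Vale.Agent.Lib.P110U.Defs
import Vale.Agent.Lib.P110U.S1a

/-! P110U: module S2. -/

namespace Vale.Agent.P110U

open MeasureTheory Filter Topology
open scoped ComplexConjugate ENNReal
open Vale.Agent.P110F

private lemma S2_e1_lip (a b : ℝ) : ‖e1 a - e1 b‖ ≤ 2 * Real.pi * |a - b| := by
  have h1 : e1 a - e1 b = e1 b * (e1 (a - b) - 1) := by
    rw [mul_sub, ← e1_add, mul_one]
    congr 2
    ring
  have h2 : e1 (a - b) = Complex.exp (Complex.I * ((2 * Real.pi * (a - b) : ℝ) : ℂ)) := by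
    unfold e1
    congr 1
    push_cast
    ring
  rw [h1, norm_mul, norm_e1, one_mul, h2]
  refine (Real.norm_exp_I_mul_ofReal_sub_one_le).trans ?_
  rw [Real.norm_eq_abs, abs_mul, abs_of_pos Real.two_pi_pos]

private lemma S2_tp_nonneg (ρ u : ℝ) : 0 ≤ tp ρ u := le_max_left _ _

private lemma S2_tp_le (ρ u : ℝ) : tp ρ u ≤ 1 := max_le zero_le_one (min_le_left _ _)

private lemma S2_lip {ρ : ℝ} (hρ : 0 < ρ) (t u v : ℝ) :
    ‖((tp ρ u ^ 2 : ℝ) : ℂ) * e1 (t * u) - ((tp ρ v ^ 2 : ℝ) : ℂ) * e1 (t * v)‖ ≤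
      (2 / ρ + 2 * Real.pi * |t|) * |u - v| := by
  have h0 : ((tp ρ u ^ 2 : ℝ) : ℂ) * e1 (t * u) - ((tp ρ v ^ 2 : ℝ) : ℂ) * e1 (t * v) =
      ((tp ρ u ^ 2 - tp ρ v ^ 2 : ℝ) : ℂ) * e1 (t * u) +
        ((tp ρ v ^ 2 : ℝ) : ℂ) * (e1 (t * u) - e1 (t * v)) := by
    push_cast
    ring
  have h1 : |tp ρ u ^ 2 - tp ρ v ^ 2| ≤ 2 / ρ * |u - v| := by
    have e : tp ρ u ^ 2 - tp ρ v ^ 2 = (tp ρ u - tp ρ v) * (tp ρ u + tp ρ v) := by ring
    have e2 : |tp ρ u + tp ρ v| ≤ 2 := by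
      rw [abs_of_nonneg (add_nonneg (S2_tp_nonneg _ _) (S2_tp_nonneg _ _))]
      linarith [S2_tp_le ρ u, S2_tp_le ρ v]
    rw [e, abs_mul]
    calc |tp ρ u - tp ρ v| * |tp ρ u + tp ρ v| ≤ (|u - v| / ρ) * 2 :=
          mul_le_mul (tp_lipschitz hρ u v) e2 (abs_nonneg _) (by positivity)
      _ = 2 / ρ * |u - v| := by ring
  have h2 : |tp ρ v ^ 2| ≤ 1 := by
    rw [abs_of_nonneg (sq_nonneg _)]
    exact pow_le_one₀ (S2_tp_nonneg _ _) (S2_tp_le _ _)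
  have h3 : ‖e1 (t * u) - e1 (t * v)‖ ≤ 2 * Real.pi * (|t| * |u - v|) := by
    refine (S2_e1_lip _ _).trans_eq ?_
    rw [← mul_sub, abs_mul]
  rw [h0]
  refine (norm_add_le _ _).trans ?_
  rw [norm_mul, norm_mul, norm_e1, mul_one, Complex.norm_real, Complex.norm_real,
    Real.norm_eq_abs, Real.norm_eq_abs]
  calc |tp ρ u ^ 2 - tp ρ v ^ 2| + |tp ρ v ^ 2| * ‖e1 (t * u) - e1 (t * v)‖
      ≤ 2 / ρ * |u - v| + 1 * (2 * Real.pi * (|t| * |u - v|)) :=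
        add_le_add h1 (mul_le_mul h2 h3 (norm_nonneg _) zero_le_one)
    _ = (2 / ρ + 2 * Real.pi * |t|) * |u - v| := by ring

private lemma S2_cont {ρ : ℝ} (t : ℝ) :
    Continuous fun u : ℝ => ((tp ρ u ^ 2 : ℝ) : ℂ) * e1 (t * u) := by
  have h1 : Continuous fun u : ℝ => tp ρ u := by
    unfold tp
    fun_prop
  have h2 : Continuous fun u : ℝ => e1 (t * u) := continuous_e1.comp (continuous_const.mul
    continuous_id)
  exact (Complex.continuous_ofReal.comp (h1.pow 2)).mul h2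

private lemma S2_full {ρ : ℝ} (hρ : 0 < ρ) (t : ℝ) (L : ℕ) (hL : 0 < L) :
    ‖(∑ y ∈ Finset.range L, ((tp ρ ((y : ℝ) / L) ^ 2 : ℝ) : ℂ) * e1 (t * ((y : ℝ) / L))) / (L : ℂ) -
      sT ρ t‖ ≤ (2 / ρ + 2 * Real.pi * |t|) / L := by
  have hcont := S2_cont (ρ := ρ) t
  have hL0 : (0 : ℝ) < L := by exact_mod_cast hL
  set F : ℝ → ℂ := fun u : ℝ => ((tp ρ u ^ 2 : ℝ) : ℂ) * e1 (t * u) with hF
  have h1 : sT ρ t = ∑ y ∈ Finset.range L, ∫ u in ((y : ℝ) / L)..(((y + 1 : ℕ) : ℝ) / L),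
      F u := by
    have h2 := intervalIntegral.sum_integral_adjacent_intervals (μ := volume)
      (f := F) (a := fun y : ℕ => (y : ℝ) / L) (n := L)
      (fun k _ => hcont.intervalIntegrable _ _)
    rw [h2]
    unfold sT
    simp only [Nat.cast_zero, zero_div]
    rw [div_self hL0.ne']
  have h3 : (∑ y ∈ Finset.range L, ((tp ρ ((y : ℝ) / L) ^ 2 : ℝ) : ℂ) *
      e1 (t * ((y : ℝ) / L))) / (L : ℂ) =
      ∑ y ∈ Finset.range L, ∫ _u in ((y : ℝ) / L)..(((y + 1 : ℕ) : ℝ) / L),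
        F ((y : ℝ) / L) := by
    rw [Finset.sum_div]
    refine Finset.sum_congr rfl fun y _ => ?_
    rw [intervalIntegral.integral_const]
    have h4 : ((y + 1 : ℕ) : ℝ) / L - (y : ℝ) / L = 1 / L := by
      push_cast
      field_simp
      ring
    rw [h4, Complex.real_smul, hF]
    push_cast
    ring
  rw [h3, h1, ← Finset.sum_sub_distrib]
  refine (norm_sum_le _ _).trans ?_
  have h5 : ∀ y ∈ Finset.range L,
      ‖(∫ _u in ((y : ℝ) / L)..(((y + 1 : ℕ) : ℝ) / L), F ((y : ℝ) / L)) -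
        ∫ u in ((y : ℝ) / L)..(((y + 1 : ℕ) : ℝ) / L), F u‖ ≤
      (2 / ρ + 2 * Real.pi * |t|) / L * (1 / L) := by
    intro y _
    rw [← intervalIntegral.integral_sub (intervalIntegrable_const) (hcont.intervalIntegrable _ _)]
    have h4 : ((y + 1 : ℕ) : ℝ) / L - (y : ℝ) / L = 1 / L := by
      push_cast
      field_simp
      ring
    have hle : (y : ℝ) / L ≤ ((y + 1 : ℕ) : ℝ) / L := by
      have : (0 : ℝ) < 1 / L := by positivity
      linarith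
    have h6 := intervalIntegral.norm_integral_le_of_norm_le_const (a := (y : ℝ) / L)
      (b := ((y + 1 : ℕ) : ℝ) / L) (C := (2 / ρ + 2 * Real.pi * |t|) / L)
      (f := fun u => F ((y : ℝ) / L) - F u) (by
        intro u hu
        rw [Set.uIoc_of_le hle] at hu
        refine (S2_lip hρ t _ _).trans ?_
        have h7 : |(y : ℝ) / L - u| ≤ 1 / L := by
          rw [abs_sub_comm, abs_of_nonneg (by linarith [hu.1])]
          linarith [hu.2]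
        have h9 : 0 ≤ 2 / ρ + 2 * Real.pi * |t| := by positivity
        calc (2 / ρ + 2 * Real.pi * |t|) * |(y : ℝ) / L - u| ≤
              (2 / ρ + 2 * Real.pi * |t|) * (1 / L) := mul_le_mul_of_nonneg_left h7 h9
          _ = (2 / ρ + 2 * Real.pi * |t|) / L := by ring)
    refine h6.trans_eq ?_
    have h8 : (0 : ℝ) < 1 / L := by positivity
    rw [h4, abs_of_pos h8]
  refine (Finset.sum_le_sum h5).trans_eq ?_
  rw [Finset.sum_const, Finset.card_range, nsmul_eq_mul]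
  field_simp

private lemma S2_diff {ρ : ℝ} (hρ : 0 < ρ) (d : ℤ) (t : ℝ) (L : ℕ) (hL : 0 < L) :
    ‖W1 ρ L d t -
      ∑ y ∈ Finset.range L, ((tp ρ ((y : ℝ) / L) ^ 2 : ℝ) : ℂ) * e1 (t * ((y : ℝ) / L))‖ ≤
      |(d : ℝ)| / ρ := by
  have hL0 : (0 : ℝ) < L := by exact_mod_cast hL
  have h1 : ∑ y ∈ Finset.range L, ((tp ρ ((y : ℝ) / L) ^ 2 : ℝ) : ℂ) * e1 (t * ((y : ℝ) / L)) =
      ∑ y ∈ Finset.Ico (0 : ℤ) L, ((tp ρ ((y : ℝ) / L) ^ 2 : ℝ) : ℂ) *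
        e1 (t * ((y : ℝ) / L)) := by
    refine Finset.sum_bij (fun (y : ℕ) _ => (y : ℤ)) (fun y hy => ?_) (fun a _ b _ h => ?_)
      (fun z hz => ?_) (fun y _ => ?_)
    · rw [Finset.mem_Ico]
      rw [Finset.mem_range] at hy
      omega
    · exact_mod_cast h
    · rw [Finset.mem_Ico] at hz
      refine ⟨z.toNat, ?_, ?_⟩
      · rw [Finset.mem_range]
        omega
      · omega
    · rw [Int.cast_natCast]
  unfold W1
  rw [h1, ← Finset.sum_sub_distrib]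
  refine (norm_sum_le _ _).trans ?_
  have h2 : ∀ y ∈ Finset.Ico (0 : ℤ) L,
      ‖((tp ρ ((y : ℝ) / L) * tp ρ (((y + d : ℤ) : ℝ) / L) : ℝ) : ℂ) * e1 (t * ((y : ℝ) / L)) -
        ((tp ρ ((y : ℝ) / L) ^ 2 : ℝ) : ℂ) * e1 (t * ((y : ℝ) / L))‖ ≤
        |(d : ℝ)| / L / ρ := by
    intro y _
    rw [← sub_mul, norm_mul, norm_e1, mul_one, ← Complex.ofReal_sub, Complex.norm_real,
      Real.norm_eq_abs]
    have e : tp ρ ((y : ℝ) / L) * tp ρ (((y + d : ℤ) : ℝ) / L) - tp ρ ((y : ℝ) / L) ^ 2 =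
        tp ρ ((y : ℝ) / L) * (tp ρ (((y + d : ℤ) : ℝ) / L) - tp ρ ((y : ℝ) / L)) := by ring
    rw [e, abs_mul, abs_of_nonneg (S2_tp_nonneg _ _)]
    have h3 := tp_lipschitz hρ (((y + d : ℤ) : ℝ) / L) ((y : ℝ) / L)
    have h4 : ((y + d : ℤ) : ℝ) / L - (y : ℝ) / L = (d : ℝ) / L := by
      push_cast
      ring
    rw [h4, abs_div, abs_of_pos hL0] at h3
    calc tp ρ ((y : ℝ) / L) * |tp ρ (((y + d : ℤ) : ℝ) / L) - tp ρ ((y : ℝ) / L)|
        ≤ 1 * (|(d : ℝ)| / L / ρ) :=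
          mul_le_mul (S2_tp_le _ _) h3 (abs_nonneg _) zero_le_one
      _ = _ := one_mul _
  refine (Finset.sum_le_sum h2).trans_eq ?_
  rw [Finset.sum_const, Int.card_Ico, nsmul_eq_mul]
  simp only [sub_zero, Int.toNat_natCast]
  field_simp

/-- Riemann sums. -/
theorem tendsto_W1 {ρ : ℝ} (hρ : 0 < ρ) (hρ2 : ρ ≤ 1 / 2) (d : ℤ) (t : ℝ) :
    Tendsto (fun L : ℕ => W1 ρ L d t / (L : ℂ)) atTop (𝓝 (sT ρ t)) := by
  rw [tendsto_iff_norm_sub_tendsto_zero]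
  refine squeeze_zero' (Eventually.of_forall fun _ => norm_nonneg _) ?_
    (tendsto_const_div_atTop_nhds_zero_nat (|(d : ℝ)| / ρ + (2 / ρ + 2 * Real.pi * |t|)))
  filter_upwards [eventually_gt_atTop 0] with L hL
  have hL0 : (0 : ℝ) < L := by exact_mod_cast hL
  have h1 := S2_full hρ t L hL
  have h2 : ‖(W1 ρ L d t - ∑ y ∈ Finset.range L, ((tp ρ ((y : ℝ) / L) ^ 2 : ℝ) : ℂ) *
      e1 (t * ((y : ℝ) / L))) / (L : ℂ)‖ ≤ |(d : ℝ)| / ρ / L := by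
    rw [norm_div, Complex.norm_natCast]
    exact div_le_div_of_nonneg_right (S2_diff hρ d t L hL) hL0.le
  have h3 : W1 ρ L d t / (L : ℂ) - sT ρ t =
      (W1 ρ L d t - ∑ y ∈ Finset.range L, ((tp ρ ((y : ℝ) / L) ^ 2 : ℝ) : ℂ) *
      e1 (t * ((y : ℝ) / L))) / (L : ℂ) + ((∑ y ∈ Finset.range L,
        ((tp ρ ((y : ℝ) / L) ^ 2 : ℝ) : ℂ) * e1 (t * ((y : ℝ) / L))) / (L : ℂ) - sT ρ t) := by
    ring
  rw [h3, add_div]
  exact (norm_add_le _ _).trans (add_le_add h2 h1)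

end Vale.Agent.P110U
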