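import Vale.Agent.Lib.P110U.Defs
import Vale.Agent.Lib.P110U.S1
import Vale.Agent.Lib.P110U.S2

/-! P110U: module S5. -/

namespace Vale.Agent.P110U

open MeasureTheory Filter Topology
open scoped ComplexConjugate ENNReal
open Vale.Agent.P110F

private theorem S5_one {ρ : ℝ} (hρ : 0 < ρ) {c : ℝ} (hc : 0 < c) :
    Summable fun z : ℤ => (1 / ρ ^ 2) / max 1 ((c * (z : ℝ)) ^ 2) := by
  have h1 : Summable fun z : ℤ => (1 / ρ ^ 2) * (if z = 0 then (1 : ℝ) else 0) +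
      (1 / ρ ^ 2) * ((1 / c ^ 2) * (1 / (z : ℝ) ^ 2)) := by
    refine Summable.add ?_ ?_
    · exact ((hasSum_ite_eq (0 : ℤ) (1 : ℝ)).summable).mul_left _
    · exact ((Real.summable_one_div_int_pow.2 one_lt_two).mul_left _).mul_left _
  refine Summable.of_nonneg_of_le (fun z => by positivity) (fun z => ?_) h1
  by_cases hz : z = 0
  · subst hz
    simp
  · have hz' : (z : ℝ) ≠ 0 := by exact_mod_cast hz
    have h2 : 0 < (c * (z : ℝ)) ^ 2 := by positivity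
    rw [if_neg hz, mul_zero, zero_add]
    have h3 : (1 / ρ ^ 2) / max 1 ((c * (z : ℝ)) ^ 2) ≤ (1 / ρ ^ 2) / ((c * (z : ℝ)) ^ 2) :=
      div_le_div_of_nonneg_left (by positivity) h2 (le_max_right _ _)
    refine h3.trans (le_of_eq ?_)
    field_simp

private theorem S5_prod (f : ℤ → ℝ) (h0 : ∀ z, 0 ≤ f z) (hf : Summable f) (n : ℕ) :
    Summable fun e : Fin n → ℤ => ∏ i, f (e i) := by
  induction n with
  | zero => exact (hasSum_unique _).summable
  | succ n ih =>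
    have h1 : Summable fun p : ℤ × (Fin n → ℤ) => f p.1 * ∏ i, f (p.2 i) :=
      Summable.mul_of_nonneg (f := f) (g := fun e : Fin n → ℤ => ∏ i, f (e i)) hf ih
        (fun z => h0 z) (fun e => Finset.prod_nonneg fun i _ => h0 (e i))
    have h2 : (fun e : Fin (n + 1) → ℤ => ∏ i, f (e i)) ∘ (Fin.consEquiv fun _ => ℤ) =
        fun p : ℤ × (Fin n → ℤ) => f p.1 * ∏ i, f (p.2 i) := by
      funext p
      simp [Fin.consEquiv, Fin.prod_univ_succ]
    rw [← (Fin.consEquiv fun _ : Fin (n + 1) => ℤ).summable_iff, h2]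
    exact h1

/-- Summability. -/
theorem summable_wT {n : ℕ} {ρ : ℝ} (hρ : 0 < ρ) {c : ℝ} (hc : 0 < c)
    (A : Matrix (Fin n) (Fin n) ℤ) (hA : A.det ≠ 0) :
    Summable fun d : Fin n → ℤ => wT ρ (scl c A) d := by
  have h1 := S5_prod (fun z : ℤ => (1 / ρ ^ 2) / max 1 ((c * (z : ℝ)) ^ 2))
    (fun z => by positivity) (S5_one hρ hc) n
  have hinj : Function.Injective fun d : Fin n → ℤ => A.mulVec d := by
    intro d d' h
    have h3 : A.mulVec (d - d') = 0 := by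
      rw [Matrix.mulVec_sub]
      exact sub_eq_zero.2 h
    have h4 := Matrix.eq_zero_of_mulVec_eq_zero hA h3
    exact sub_eq_zero.1 h4
  have h2 := h1.comp_injective hinj
  refine h2.congr fun d => ?_
  symm
  unfold wT
  rw [Function.comp_apply]
  refine Finset.prod_congr rfl fun i _ => ?_
  have h5 : ∑ j, scl c A i j * (d j : ℝ) = c * ((A.mulVec d i : ℤ) : ℝ) := by
    unfold scl Matrix.mulVec dotProduct
    push_cast
    rw [Finset.mul_sum]
    exact Finset.sum_congr rfl fun j _ => by ring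
  rw [h5]

theorem norm_sT_le {ρ : ℝ} (hρ : 0 < ρ) (hρ2 : ρ ≤ 1 / 2) (t : ℝ) :
    ‖sT ρ t‖ ≤ (1 / ρ ^ 2) / max 1 (t ^ 2) := by
  refine le_of_tendsto (tendsto_W1 hρ hρ2 0 t).norm ?_
  filter_upwards [eventually_ge_atTop (⌈2 * |t|⌉₊ + 1)] with L hL
  have hL1 : 2 * |t| ≤ (L : ℝ) := by
    have h1 := Nat.le_ceil (2 * |t|)
    have h2 : ((⌈2 * |t|⌉₊ : ℕ) : ℝ) ≤ (L : ℝ) := by exact_mod_cast (by omega : ⌈2 * |t|⌉₊ ≤ L)
    linarith
  have hL0 : 0 < L := by omega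
  have hL0' : (0 : ℝ) < (L : ℝ) := by exact_mod_cast hL0
  have h3 := norm_W1_le hρ hρ2 hL0 0 (t := t) (by linarith)
  rw [norm_div, Complex.norm_natCast, div_le_iff₀ hL0', mul_comm]
  exact h3

theorem norm_gT_le {n : ℕ} {ρ : ℝ} (hρ : 0 < ρ) (hρ2 : ρ ≤ 1 / 2) (H : Matrix (Fin n) (Fin n) ℝ)
    (b : Fin n → ℝ) (d : Fin n → ℤ) : ‖gT ρ H b d‖ ≤ wT ρ H d := by
  unfold gT wT
  rw [norm_mul, norm_e1, one_mul, norm_prod]
  exact Finset.prod_le_prod (fun i _ => norm_nonneg _) fun i _ => norm_sT_le hρ hρ2 _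

theorem summable_gT {n : ℕ} {ρ : ℝ} (hρ : 0 < ρ) (hρ2 : ρ ≤ 1 / 2) {c : ℝ} (hc : 0 < c)
    (A : Matrix (Fin n) (Fin n) ℤ) (hA : A.det ≠ 0) (b : Fin n → ℝ) :
    Summable fun d : Fin n → ℤ => gT ρ (scl c A) b d :=
  Summable.of_norm_bounded (summable_wT hρ hc A hA) fun d => norm_gT_le hρ hρ2 _ b d

end Vale.Agent.P110U
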