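import Vale.Agent.Lib.P110U.GDefs
import Vale.Agent.Lib.P110U.G5
import Vale.Agent.Lib.P110F.F0

/-! P110U: module G8. -/

namespace Vale.Agent.P110U

open MeasureTheory Filter Topology
open scoped ComplexConjugate ENNReal
open Vale.Agent.P110F

private theorem G8_e1_sum {ι : Type} (s : Finset ι) (f : ι → ℝ) :
    e1 (∑ i ∈ s, f i) = ∏ i ∈ s, e1 (f i) := by
  classical
  induction s using Finset.induction_on with
  | empty => simp [e1_zero]
  | insert a s ha ih => rw [Finset.sum_insert ha, Finset.prod_insert ha, e1_add, ih]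

private theorem G8_f_cont {C : ℝ} {f : ℝ → ℝ} (hf : GF C f) : Continuous f := by
  refine LipschitzWith.continuous (K := ⟨C, hf.pos.le⟩) ?_
  refine LipschitzWith.of_dist_le_mul fun x y => ?_
  rw [Real.dist_eq, Real.dist_eq]
  exact hf.lip x y

/-- the tapered exponential of the affine image of `u` -/
private noncomputable def G8F {n : ℕ} (f : Fin n → ℝ → ℝ) (H : Matrix (Fin n) (Fin n) ℝ) (b : Fin n → ℝ)
    (d : Fin n → ℤ) (u : Fin n → ℝ) : ℂ :=
  ((∏ i, f i (u i) ^ 2 : ℝ) : ℂ) * e1 (∑ i, (d i : ℝ) * (b i + ∑ j, H i j * u j))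

private theorem G8_cont {n : ℕ} {C : ℝ} (f : Fin n → ℝ → ℝ) (hf : ∀ i, GF C (f i)) (H : Matrix (Fin n) (Fin n) ℝ) (b : Fin n → ℝ)
    (d : Fin n → ℤ) : Continuous (G8F f H b d) := by
  unfold G8F
  have h1 : Continuous fun u : Fin n → ℝ => (∏ i, f i (u i) ^ 2 : ℝ) :=
    continuous_finsetProd _ fun i _ => ((G8_f_cont (hf i)).comp (continuous_apply i)).pow 2
  have h2 : Continuous fun u : Fin n → ℝ => e1 (∑ i, (d i : ℝ) * (b i + ∑ j, H i j * u j)) := by
    refine continuous_e1.comp ?_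
    fun_prop
  exact (Complex.continuous_ofReal.comp h1).mul h2

private theorem G8_norm {n : ℕ} {C : ℝ} (f : Fin n → ℝ → ℝ) (hf : ∀ i, GF C (f i)) (H : Matrix (Fin n) (Fin n) ℝ) (b : Fin n → ℝ)
    (d : Fin n → ℤ) (u : Fin n → ℝ) : ‖G8F f H b d u‖ ≤ ∏ _i : Fin n, C ^ 2 := by
  unfold G8F
  rw [norm_mul, norm_e1, mul_one, Complex.norm_real, Real.norm_eq_abs,
    abs_of_nonneg (Finset.prod_nonneg fun i _ => sq_nonneg _)]
  refine Finset.prod_le_prod (fun i _ => sq_nonneg _) fun i _ => ?_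
  rw [← sq_abs]
  exact pow_le_pow_left₀ (abs_nonneg _) ((hf i).bd (u i)) 2

private theorem G8_cube_restrict {n : ℕ} :
    (volume : Measure (Fin n → ℝ)).restrict (cube n) =
      Measure.pi (fun _ : Fin n => (volume : Measure ℝ).restrict (Set.Icc (0 : ℝ) 1)) := by
  unfold cube
  rw [volume_pi, Measure.restrict_pi_pi]

private theorem G8_integrable {n : ℕ} {C : ℝ} (f : Fin n → ℝ → ℝ) (hf : ∀ i, GF C (f i)) (H : Matrix (Fin n) (Fin n) ℝ) (b : Fin n → ℝ)
    (d : Fin n → ℤ) :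
    Integrable (G8F f H b d) ((volume : Measure (Fin n → ℝ)).restrict (cube n)) := by
  have hfin : IsFiniteMeasure ((volume : Measure (Fin n → ℝ)).restrict (cube n)) := by
    rw [G8_cube_restrict]
    infer_instance
  refine Integrable.of_bound (G8_cont f hf H b d).aestronglyMeasurable (∏ _i : Fin n, C ^ 2) ?_
  exact Filter.Eventually.of_forall fun u => G8_norm f hf H b d u

private theorem G8_int {n : ℕ} (f : Fin n → ℝ → ℝ) (H : Matrix (Fin n) (Fin n) ℝ) (hH : H.IsSymm)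
    (b : Fin n → ℝ) (d : Fin n → ℤ) : ∫ u in cube n, G8F f H b d u = gF f H b d := by
  have h1 : ∀ u : Fin n → ℝ, G8F f H b d u = e1 (∑ i, b i * (d i : ℝ)) *
      ∏ j, (((f j (u j) ^ 2 : ℝ) : ℂ) * e1 ((∑ i, H j i * (d i : ℝ)) * u j)) := by
    intro u
    unfold G8F
    rw [Finset.prod_mul_distrib, ← G8_e1_sum, Complex.ofReal_prod]
    rw [mul_left_comm, ← e1_add]
    congr 2
    have h2 : ∑ i, (d i : ℝ) * (b i + ∑ j, H i j * u j) =
        ∑ i, b i * (d i : ℝ) + ∑ i, ∑ j, (d i : ℝ) * (H i j * u j) := by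
      rw [← Finset.sum_add_distrib]
      refine Finset.sum_congr rfl fun i _ => ?_
      rw [mul_add, Finset.mul_sum, mul_comm]
    rw [h2, Finset.sum_comm]
    congr 1
    refine Finset.sum_congr rfl fun j _ => ?_
    rw [Finset.sum_mul]
    refine Finset.sum_congr rfl fun i _ => ?_
    rw [hH.apply i j]
    ring
  simp_rw [h1]
  rw [integral_const_mul, G8_cube_restrict,
    integral_fintype_prod_eq_prod (fun (j : Fin n) (x : ℝ) =>
      ((f j x ^ 2 : ℝ) : ℂ) * e1 ((∑ i, H j i * (d i : ℝ)) * x))]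
  unfold gF sF
  congr 1
  refine Finset.prod_congr rfl fun j _ => ?_
  rw [integral_Icc_eq_integral_Ioc, intervalIntegral.integral_of_le zero_le_one]

private theorem G8_prod {n R : ℕ} (hR : 0 < R) (f : Fin n → ℝ → ℝ) (H : Matrix (Fin n) (Fin n) ℝ)
    (b θ : Fin n → ℝ) (u : Fin n → ℝ) :
    (((∏ i, f i (u i) ^ 2) * ∏ i, K1 R (b i + ∑ j, H i j * u j + θ i) : ℝ) : ℂ) =
      ∑ d ∈ dbox n R, (((∏ i, (1 - |(d i : ℝ)| / R) : ℝ) : ℂ) *
        e1 (∑ i, (d i : ℝ) * θ i)) * G8F f H b d u := by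
  rw [Complex.ofReal_mul, Complex.ofReal_prod (s := Finset.univ)
    (f := fun i => K1 R (b i + ∑ j, H i j * u j + θ i)),
    Finset.prod_congr rfl (fun i _ => K1_eq hR _), Finset.prod_univ_sum]
  unfold dbox
  rw [Finset.mul_sum]
  refine Finset.sum_congr rfl fun d _ => ?_
  rw [Finset.prod_mul_distrib, Complex.ofReal_prod (s := Finset.univ)
    (f := fun i => (1 - |(d i : ℝ)| / R))]
  unfold G8F
  have h : (∏ x, e1 ((d x : ℝ) * (b x + ∑ j, H x j * u j + θ x))) =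
      e1 (∑ i, (d i : ℝ) * θ i) * e1 (∑ i, (d i : ℝ) * (b i + ∑ j, H i j * u j)) := by
    rw [← e1_add, ← G8_e1_sum, ← Finset.sum_add_distrib]
    congr 1
    refine Finset.sum_congr rfl fun i _ => ?_
    ring
  rw [h]
  ring

theorem fejer_F {n R : ℕ} (hR : 0 < R) {C : ℝ} (f : Fin n → ℝ → ℝ) (hf : ∀ i, GF C (f i))
    (H : Matrix (Fin n) (Fin n) ℝ) (hH : H.IsSymm) (b θ : Fin n → ℝ) :
    ∑ d ∈ dbox n R, ((∏ i, (1 - |(d i : ℝ)| / R) : ℝ) : ℂ) *
      (gF f H b d * e1 (∑ i, (d i : ℝ) * θ i)) =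
      ((∫ u in cube n, (∏ i, f i (u i) ^ 2) *
        ∏ i, K1 R (b i + ∑ j, H i j * u j + θ i) : ℝ) : ℂ) := by
  rw [← integral_complex_ofReal]
  simp_rw [G8_prod hR f H b θ]
  rw [integral_finsetSum _ (fun d _ => (G8_integrable f hf H b d).const_mul _)]
  refine Finset.sum_congr rfl fun d _ => ?_
  rw [integral_const_mul, G8_int f H hH]
  ring

end Vale.Agent.P110U
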