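import Vale.Agent.Lib.P110U.Defs
import Vale.Agent.Lib.P110F.F0

/-! P110U: module S8a. -/

namespace Vale.Agent.P110U

open MeasureTheory Filter Topology
open scoped ComplexConjugate ENNReal
open Vale.Agent.P110F

private theorem S8a_e1_sum {ι : Type} (s : Finset ι) (f : ι → ℝ) :
    e1 (∑ i ∈ s, f i) = ∏ i ∈ s, e1 (f i) := by
  classical
  induction s using Finset.induction_on with
  | empty => simp [e1_zero]
  | insert a s ha ih => rw [Finset.sum_insert ha, Finset.prod_insert ha, e1_add, ih]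

private theorem S8a_tp_cont (ρ : ℝ) : Continuous (tp ρ) := by
  unfold tp
  fun_prop

private theorem S8a_tp_nonneg (ρ u : ℝ) : 0 ≤ tp ρ u := le_max_left _ _

private theorem S8a_tp_le (ρ u : ℝ) : tp ρ u ≤ 1 :=
  max_le zero_le_one (min_le_left _ _)

/-- the tapered exponential of the affine image of `u` -/
private noncomputable def S8aF {n : ℕ} (ρ : ℝ) (H : Matrix (Fin n) (Fin n) ℝ) (b : Fin n → ℝ)
    (d : Fin n → ℤ) (u : Fin n → ℝ) : ℂ :=
  ((∏ i, tp ρ (u i) ^ 2 : ℝ) : ℂ) * e1 (∑ i, (d i : ℝ) * (b i + ∑ j, H i j * u j))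

private theorem S8a_cont {n : ℕ} (ρ : ℝ) (H : Matrix (Fin n) (Fin n) ℝ) (b : Fin n → ℝ)
    (d : Fin n → ℤ) : Continuous (S8aF ρ H b d) := by
  unfold S8aF
  have h1 : Continuous fun u : Fin n → ℝ => (∏ i, tp ρ (u i) ^ 2 : ℝ) :=
    continuous_finsetProd _ fun i _ => ((S8a_tp_cont ρ).comp (continuous_apply i)).pow 2
  have h2 : Continuous fun u : Fin n → ℝ => e1 (∑ i, (d i : ℝ) * (b i + ∑ j, H i j * u j)) := by
    refine continuous_e1.comp ?_
    fun_prop
  exact (Complex.continuous_ofReal.comp h1).mul h2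

private theorem S8a_norm {n : ℕ} (ρ : ℝ) (H : Matrix (Fin n) (Fin n) ℝ) (b : Fin n → ℝ)
    (d : Fin n → ℤ) (u : Fin n → ℝ) : ‖S8aF ρ H b d u‖ ≤ 1 := by
  unfold S8aF
  rw [norm_mul, norm_e1, mul_one, Complex.norm_real, Real.norm_eq_abs,
    abs_of_nonneg (Finset.prod_nonneg fun i _ => sq_nonneg _)]
  refine Finset.prod_le_one (fun i _ => sq_nonneg _) fun i _ => ?_
  have h1 := S8a_tp_nonneg ρ (u i)
  have h2 := S8a_tp_le ρ (u i)
  nlinarith

private theorem S8a_cube_restrict {n : ℕ} :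
    (volume : Measure (Fin n → ℝ)).restrict (cube n) =
      Measure.pi (fun _ : Fin n => (volume : Measure ℝ).restrict (Set.Icc (0 : ℝ) 1)) := by
  unfold cube
  rw [volume_pi, Measure.restrict_pi_pi]

private theorem S8a_integrable {n : ℕ} (ρ : ℝ) (H : Matrix (Fin n) (Fin n) ℝ) (b : Fin n → ℝ)
    (d : Fin n → ℤ) :
    Integrable (S8aF ρ H b d) ((volume : Measure (Fin n → ℝ)).restrict (cube n)) := by
  have hfin : IsFiniteMeasure ((volume : Measure (Fin n → ℝ)).restrict (cube n)) := by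
    rw [S8a_cube_restrict]
    infer_instance
  refine Integrable.of_bound (S8a_cont ρ H b d).aestronglyMeasurable 1 ?_
  exact Filter.Eventually.of_forall fun u => S8a_norm ρ H b d u

private theorem S8a_int {n : ℕ} (ρ : ℝ) (H : Matrix (Fin n) (Fin n) ℝ) (hH : H.IsSymm)
    (b : Fin n → ℝ) (d : Fin n → ℤ) : ∫ u in cube n, S8aF ρ H b d u = gT ρ H b d := by
  have h1 : ∀ u : Fin n → ℝ, S8aF ρ H b d u = e1 (∑ i, b i * (d i : ℝ)) *
      ∏ j, (((tp ρ (u j) ^ 2 : ℝ) : ℂ) * e1 ((∑ i, H j i * (d i : ℝ)) * u j)) := by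
    intro u
    unfold S8aF
    rw [Finset.prod_mul_distrib, ← S8a_e1_sum, Complex.ofReal_prod]
    rw [mul_left_comm, ← e1_add]
    congr 2
    have h2 : ∑ i, (d i : ℝ) * (b i + ∑ j, H i j * u j) =
        ∑ i, b i * (d i : ℝ) + ∑ i, ∑ j, (d i : ℝ) * (H i j * u j) := by
      rw [← Finset.sum_add_distrib]
      refine Finset.sum_congr rfl fun i _ => ?_
      rw [mul_add, Finset.mul_sum, mul_comm]
    rw [h2, Finset.sum_comm]
    congr 1
    refine Finset.sum_congr rfl fun j _ => ?_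
    rw [Finset.sum_mul]
    refine Finset.sum_congr rfl fun i _ => ?_
    rw [hH.apply i j]
    ring
  simp_rw [h1]
  rw [integral_const_mul, S8a_cube_restrict,
    integral_fintype_prod_eq_prod (fun (j : Fin n) (x : ℝ) =>
      ((tp ρ x ^ 2 : ℝ) : ℂ) * e1 ((∑ i, H j i * (d i : ℝ)) * x))]
  unfold gT sT
  congr 1
  refine Finset.prod_congr rfl fun j _ => ?_
  rw [integral_Icc_eq_integral_Ioc, intervalIntegral.integral_of_le zero_le_one]

private theorem S8a_prod {n R : ℕ} (hR : 0 < R) (ρ : ℝ) (H : Matrix (Fin n) (Fin n) ℝ)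
    (b θ : Fin n → ℝ) (u : Fin n → ℝ) :
    (((∏ i, tp ρ (u i) ^ 2) * ∏ i, K1 R (b i + ∑ j, H i j * u j + θ i) : ℝ) : ℂ) =
      ∑ d ∈ dbox n R, (((∏ i, (1 - |(d i : ℝ)| / R) : ℝ) : ℂ) *
        e1 (∑ i, (d i : ℝ) * θ i)) * S8aF ρ H b d u := by
  rw [Complex.ofReal_mul, Complex.ofReal_prod (s := Finset.univ)
    (f := fun i => K1 R (b i + ∑ j, H i j * u j + θ i)),
    Finset.prod_congr rfl (fun i _ => K1_eq hR _), Finset.prod_univ_sum]
  unfold dbox
  rw [Finset.mul_sum]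
  refine Finset.sum_congr rfl fun d _ => ?_
  rw [Finset.prod_mul_distrib, Complex.ofReal_prod (s := Finset.univ)
    (f := fun i => (1 - |(d i : ℝ)| / R))]
  unfold S8aF
  have h : (∏ x, e1 ((d x : ℝ) * (b x + ∑ j, H x j * u j + θ x))) =
      e1 (∑ i, (d i : ℝ) * θ i) * e1 (∑ i, (d i : ℝ) * (b i + ∑ j, H i j * u j)) := by
    rw [← e1_add, ← S8a_e1_sum, ← Finset.sum_add_distrib]
    congr 1
    refine Finset.sum_congr rfl fun i _ => ?_
    ring
  rw [h]
  ring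

/-- Fejer mean of the limit coefficients. -/
theorem fejer_T {n R : ℕ} (hR : 0 < R) (ρ : ℝ) (H : Matrix (Fin n) (Fin n) ℝ) (hH : H.IsSymm)
    (b θ : Fin n → ℝ) :
    ∑ d ∈ dbox n R, ((∏ i, (1 - |(d i : ℝ)| / R) : ℝ) : ℂ) *
      (gT ρ H b d * e1 (∑ i, (d i : ℝ) * θ i)) =
      ((∫ u in cube n, (∏ i, tp ρ (u i) ^ 2) *
        ∏ i, K1 R (b i + ∑ j, H i j * u j + θ i) : ℝ) : ℂ) := by
  rw [← integral_complex_ofReal]
  simp_rw [S8a_prod hR ρ H b θ]
  rw [integral_finsetSum _ (fun d _ => (S8a_integrable ρ H b d).const_mul _)]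
  refine Finset.sum_congr rfl fun d _ => ?_
  rw [integral_const_mul, S8a_int ρ H hH]
  ring

end Vale.Agent.P110U
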