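import Vale.Agent.Lib.P110U.Defs
import Vale.Agent.Lib.P110U.S5
import Vale.Agent.Lib.P110U.S8a
import Vale.Agent.Lib.P110F.F0
import Vale.Agent.Lib.P110F.F1
import Vale.Agent.Lib.P110F.F5
import Vale.Agent.Lib.P110F.V1

/-! P110U: module S8. -/

namespace Vale.Agent.P110U

open MeasureTheory Filter Topology
open scoped ComplexConjugate ENNReal
open Vale.Agent.P110F

private theorem S8_isCompact_cube (n : ℕ) : IsCompact (cube n) :=
  isCompact_univ_pi fun _ => isCompact_Icc

private theorem S8_measurableSet_cube (n : ℕ) : MeasurableSet (cube n) := by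
  unfold cube
  exact MeasurableSet.univ_pi fun _ => measurableSet_Icc

private theorem S8_continuous_prod {n : ℕ} (R : ℕ) :
    Continuous fun v : Fin n → ℝ => ∏ i, K1 R (v i) :=
  continuous_finsetProd _ fun i _ => (continuous_K1 R).comp (continuous_apply i)

private theorem S8_int {n R : ℕ} (hR : 0 < R) :
    ∫ v in hcube n, ∏ i, K1 R (v i) = 1 := by
  have h1 : (volume : Measure (Fin n → ℝ)).restrict (hcube n) =
      Measure.pi fun _ => (volume : Measure ℝ).restrict (Set.Ico 0 1) := by
    unfold hcube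
    rw [volume_pi, Measure.restrict_pi_pi]
  rw [h1, integral_fintype_prod_eq_prod (fun _ : Fin n => K1 R)]
  have h2 : ∫ t in Set.Ico (0 : ℝ) 1, K1 R t = 1 := by
    rw [integral_Ico_eq_integral_Ioc, ← intervalIntegral.integral_of_le zero_le_one,
      integral_K1 hR]
  rw [h2]
  simp

private theorem S8_lint {n R : ℕ} (hR : 0 < R) :
    ∫⁻ v in hcube n, ENNReal.ofReal (∏ i, K1 R (v i)) = 1 := by
  rw [← ofReal_integral_eq_lintegral_ofReal, S8_int hR, ENNReal.ofReal_one]
  · refine ((S8_continuous_prod R).continuousOn.integrableOn_compact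
      (S8_isCompact_cube n)).mono_set ?_
    exact Set.pi_mono fun i _ => Set.Ico_subset_Icc_self
  · exact Eventually.of_forall fun v => Finset.prod_nonneg fun i _ => K1_nonneg R _

private theorem S8_tp (ρ u : ℝ) : 0 ≤ tp ρ u ∧ tp ρ u ≤ 1 := by
  unfold tp
  exact ⟨le_max_left _ _, max_le zero_le_one (min_le_left _ _)⟩

private theorem S8_continuous_tp (ρ : ℝ) : Continuous (tp ρ) := by
  unfold tp
  exact continuous_const.max (continuous_const.min
    ((continuous_id.div_const ρ).min ((continuous_const.sub continuous_id).div_const ρ)))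

private theorem S8_cont {n : ℕ} (R : ℕ) (H : Matrix (Fin n) (Fin n) ℝ) (w : Fin n → ℝ) :
    Continuous fun u : Fin n → ℝ => ∏ i, K1 R (w i + ∑ j, H i j * u j) :=
  continuous_finsetProd _ fun i _ => (continuous_K1 R).comp (by fun_prop)

/-- the taper only decreases the integral -/
private theorem S8_drop {n : ℕ} (R : ℕ) (ρ : ℝ) (H : Matrix (Fin n) (Fin n) ℝ)
    (b θ : Fin n → ℝ) :
    ∫ u in cube n, (∏ i, tp ρ (u i) ^ 2) * ∏ i, K1 R (b i + ∑ j, H i j * u j + θ i) ≤
      ∫ u in cube n, ∏ i, K1 R ((b i + θ i) + ∑ j, H i j * u j) := by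
  have h0 : ∀ u : Fin n → ℝ, ∏ i, K1 R (b i + ∑ j, H i j * u j + θ i) =
      ∏ i, K1 R ((b i + θ i) + ∑ j, H i j * u j) := by
    intro u
    refine Finset.prod_congr rfl fun i _ => ?_
    congr 1
    ring
  simp only [h0]
  refine integral_mono_of_nonneg (Eventually.of_forall fun u => ?_)
    ((S8_cont R H _).continuousOn.integrableOn_compact (S8_isCompact_cube n))
    (Eventually.of_forall fun u => ?_)
  · exact mul_nonneg (Finset.prod_nonneg fun i _ => sq_nonneg _)
      (Finset.prod_nonneg fun i _ => K1_nonneg R _)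
  · refine mul_le_of_le_one_left (Finset.prod_nonneg fun i _ => K1_nonneg R _) ?_
    refine Finset.prod_le_one (fun i _ => sq_nonneg _) fun i _ => ?_
    exact pow_le_one₀ (S8_tp ρ _).1 (S8_tp ρ _).2

private theorem S8_inner {n : ℕ} {H : Matrix (Fin n) (Fin n) ℝ} (w : Fin n → ℝ)
    (hdet : H.det ≠ 0) (hrow : ∀ i, ∑ j, |H i j| ≤ 1 / 4) {R : ℕ} (hR : 0 < R) :
    ∫ u in cube n, ∏ i, K1 R (w i + ∑ j, H i j * u j) ≤ 1 / |H.det| := by
  have h1 := lintegral_affine_le H hdet hrow w
    (fun v => ENNReal.ofReal (∏ i, K1 R (v i)))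
    (ENNReal.measurable_ofReal.comp (S8_continuous_prod R).measurable) (fun v z => by
      simp only [K1_add_int])
  rw [S8_lint hR, mul_one, ← ofReal_integral_eq_lintegral_ofReal
    ((S8_cont R H w).continuousOn.integrableOn_compact (S8_isCompact_cube n))
    (Eventually.of_forall fun v => Finset.prod_nonneg fun i _ => K1_nonneg R _)] at h1
  exact (ENNReal.ofReal_le_ofReal_iff (by positivity)).1 h1

/-- the set of points whose `i`-th coordinate is far from the integers -/
private def S8_far (n : ℕ) (η : ℝ) (i : Fin n) : Set (Fin n → ℝ) :=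
  {v | ∀ z : ℤ, η ≤ |v i - z|}

private theorem S8_meas_far (n : ℕ) (η : ℝ) (i : Fin n) : MeasurableSet (S8_far n η i) := by
  unfold S8_far
  rw [Set.ofPred_forall]
  refine MeasurableSet.iInter fun z => ?_
  refine measurableSet_le measurable_const ?_
  exact ((measurable_pi_apply i).sub_const _).norm

private theorem S8_integral_Ico {R : ℕ} (hR : 0 < R) : ∫ t in Set.Ico (0 : ℝ) 1, K1 R t = 1 := by
  rw [← integral_Icc_eq_integral_Ico, integral_Icc_eq_integral_Ioc,
    ← intervalIntegral.integral_of_le zero_le_one]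
  exact integral_K1 hR

private theorem S8_lint2 {n R : ℕ} (hR : 0 < R) {η : ℝ} (hη : 0 < η) (i : Fin n) :
    ∫⁻ v in hcube n, (S8_far n η i).indicator
      (fun v => ENNReal.ofReal (∏ j, K1 R (v j))) v ≤ ENNReal.ofReal (1 / (4 * R * η ^ 2)) := by
  classical
  set G : Fin n → ℝ → ℝ := fun j t => if j = i then 1 / (4 * R * η ^ 2) else K1 R t with hG
  have hGint : ∀ j, Integrable (G j) ((volume : Measure ℝ).restrict (Set.Ico 0 1)) := by
    intro j
    have hc : Continuous (G j) := by
      rw [hG]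
      by_cases h : j = i
      · simp only [h, if_true]
        exact continuous_const
      · simp only [h, if_false]
        exact continuous_K1 R
    exact (hc.continuousOn.integrableOn_compact isCompact_Icc).mono_set Set.Ico_subset_Icc_self
  have hG0 : ∀ j t, 0 ≤ G j t := by
    intro j t
    rw [hG]
    by_cases h : j = i
    · simp only [h, if_true]
      positivity
    · simp only [h, if_false]
      exact K1_nonneg R t
  have hres : (volume : Measure (Fin n → ℝ)).restrict (hcube n) =
      Measure.pi fun _ : Fin n => (volume : Measure ℝ).restrict (Set.Ico 0 1) := by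
    unfold hcube
    exact Measure.restrict_pi_pi _ _
  calc ∫⁻ v in hcube n, (S8_far n η i).indicator
          (fun v => ENNReal.ofReal (∏ j, K1 R (v j))) v
      ≤ ∫⁻ v in hcube n, ENNReal.ofReal (∏ j, G j (v j)) := by
        refine lintegral_mono fun v => ?_
        by_cases hv : v ∈ S8_far n η i
        · rw [Set.indicator_of_mem hv]
          refine ENNReal.ofReal_le_ofReal ?_
          refine Finset.prod_le_prod (fun j _ => K1_nonneg R _) fun j _ => ?_
          rw [hG]
          by_cases h : j = i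
          · simp only [h, if_true]
            exact K1_le hR hη _ hv
          · simp only [h, if_false]
            exact le_rfl
        · rw [Set.indicator_of_notMem hv]
          exact bot_le
    _ = ENNReal.ofReal (∫ v in hcube n, ∏ j, G j (v j)) := by
        rw [ofReal_integral_eq_lintegral_ofReal]
        · rw [hres]
          exact Integrable.fintype_prod hGint
        · exact Filter.Eventually.of_forall fun v => Finset.prod_nonneg fun j _ => hG0 j _
    _ = ENNReal.ofReal (∏ j, ∫ t in Set.Ico (0 : ℝ) 1, G j t) := by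
        rw [hres, integral_fintype_prod_eq_prod (𝕜 := ℝ) (fun j => G j)]
    _ = ENNReal.ofReal (1 / (4 * R * η ^ 2)) := by
        congr 1
        rw [Finset.prod_eq_single i]
        · rw [hG]
          simp
        · intro j _ hj
          rw [hG]
          simp only [hj, if_false]
          exact S8_integral_Ico hR
        · intro h
          exact absurd (Finset.mem_univ i) h

private theorem S8_inner2 {n : ℕ} {H : Matrix (Fin n) (Fin n) ℝ} {w : Fin n → ℝ}
    (hdet : H.det ≠ 0) (hrow : ∀ i, ∑ j, |H i j| ≤ 1 / 4) {η : ℝ} (hη : 0 < η)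
    (hsep : ∀ u ∈ cube n, ∃ i, ∀ z : ℤ, η ≤ |(w i + ∑ j, H i j * u j) - z|)
    {R : ℕ} (hR : 0 < R) :
    ∫ u in cube n, ∏ i, K1 R (w i + ∑ j, H i j * u j) ≤
      n * (1 / |H.det| * (1 / (4 * R * η ^ 2))) := by
  classical
  have hKm : Measurable fun v : Fin n → ℝ => ENNReal.ofReal (∏ j, K1 R (v j)) := by
    refine Measurable.ennreal_ofReal ?_
    exact (continuous_finsetProd _ fun j _ =>
      (continuous_K1 R).comp (continuous_apply j)).measurable
  set f : Fin n → (Fin n → ℝ) → ℝ≥0∞ := fun i => (S8_far n η i).indicator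
      (fun v => ENNReal.ofReal (∏ j, K1 R (v j))) with hf
  have hfm : ∀ i, Measurable (f i) := fun i => hKm.indicator (S8_meas_far n η i)
  have hper : ∀ i, ∀ (v : Fin n → ℝ) (z : Fin n → ℤ), f i (fun i => v i + z i) = f i v := by
    intro i v z
    have hmem : ((fun i => v i + z i) ∈ S8_far n η i) ↔ v ∈ S8_far n η i := by
      unfold S8_far
      simp only [Set.mem_ofPred_eq]
      constructor
      · intro h y
        have := h (y + z i)
        push_cast at this
        rwa [show v i + (z i : ℝ) - ((y : ℝ) + (z i : ℝ)) = v i - y by ring] at this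
      · intro h y
        have := h (y - z i)
        push_cast at this
        rwa [show v i - ((y : ℝ) - (z i : ℝ)) = v i + (z i : ℝ) - y by ring] at this
    rw [hf]
    by_cases hv : v ∈ S8_far n η i
    · simp only [Set.indicator_of_mem hv, Set.indicator_of_mem (hmem.2 hv), K1_add_int]
    · simp only [Set.indicator_of_notMem hv, Set.indicator_of_notMem (fun h => hv (hmem.1 h))]
  have haff : Continuous fun u : Fin n → ℝ => (fun i => w i + ∑ j, H i j * u j : Fin n → ℝ) := by
    fun_prop
  have hbound : ∫⁻ u in cube n, ENNReal.ofReal (∏ i, K1 R (w i + ∑ j, H i j * u j)) ≤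
      ENNReal.ofReal (n * (1 / |H.det| * (1 / (4 * R * η ^ 2)))) := by
    calc ∫⁻ u in cube n, ENNReal.ofReal (∏ i, K1 R (w i + ∑ j, H i j * u j))
        ≤ ∫⁻ u in cube n, ∑ i, f i (fun i => w i + ∑ j, H i j * u j) := by
          refine setLIntegral_mono' (S8_measurableSet_cube n) fun u hu => ?_
          obtain ⟨i, hi⟩ := hsep u hu
          have hmem : (fun i => w i + ∑ j, H i j * u j) ∈ S8_far n η i := by
            intro z
            exact hi z
          calc ENNReal.ofReal (∏ i, K1 R (w i + ∑ j, H i j * u j))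
              = f i (fun i => w i + ∑ j, H i j * u j) := by
                rw [hf]
                simp only [Set.indicator_of_mem hmem]
            _ ≤ ∑ i, f i (fun i => w i + ∑ j, H i j * u j) :=
                Finset.single_le_sum (f := fun i => f i (fun i => w i + ∑ j, H i j * u j))
                  (fun i _ => bot_le) (Finset.mem_univ i)
      _ = ∑ i, ∫⁻ u in cube n, f i (fun i => w i + ∑ j, H i j * u j) := by
          rw [lintegral_finsetSum]
          intro i _
          exact (hfm i).comp haff.measurable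
      _ ≤ ∑ _i : Fin n, ENNReal.ofReal (1 / |H.det|) * ENNReal.ofReal (1 / (4 * R * η ^ 2)) := by
          refine Finset.sum_le_sum fun i _ => ?_
          refine (lintegral_affine_le H hdet hrow w (f i) (hfm i) (hper i)).trans ?_
          gcongr
          exact S8_lint2 hR hη i
      _ = ENNReal.ofReal (n * (1 / |H.det| * (1 / (4 * R * η ^ 2)))) := by
          rw [Finset.sum_const, Finset.card_univ, Fintype.card_fin,
            ENNReal.ofReal_mul (by positivity), ENNReal.ofReal_mul (by positivity),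
            ENNReal.ofReal_natCast, nsmul_eq_mul]
  rw [integral_eq_lintegral_of_nonneg_ae]
  · refine ENNReal.toReal_le_of_le_ofReal (by positivity) hbound
  · exact Filter.Eventually.of_forall fun u => Finset.prod_nonneg fun i _ => K1_nonneg R _
  · exact (S8_cont R H w).aestronglyMeasurable

private theorem S8_det {n : ℕ} (c : ℝ) (A : Matrix (Fin n) (Fin n) ℤ) :
    (scl c A).det = c ^ n * (A.det : ℝ) := by
  have h1 : scl c A = c • (A.map (Int.castRingHom ℝ)) := by
    ext i j
    simp [scl]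
  rw [h1, Matrix.det_smul, Fintype.card_fin]
  congr 1
  exact ((Int.castRingHom ℝ).map_det A).symm

private theorem S8_abs_det {n : ℕ} {c : ℝ} (hc : 0 < c) (A : Matrix (Fin n) (Fin n) ℤ) :
    |(scl c A).det| = c ^ n * |(A.det : ℝ)| := by
  rw [S8_det, abs_mul, abs_of_pos (pow_pos hc n)]

private theorem S8_det_ne {n : ℕ} {c : ℝ} (hc : 0 < c) (A : Matrix (Fin n) (Fin n) ℤ)
    (hA : A.det ≠ 0) : (scl c A).det ≠ 0 := by
  rw [S8_det]
  exact mul_ne_zero (pow_pos hc n).ne' (by exact_mod_cast hA)

private theorem S8_symm {n : ℕ} (c : ℝ) (A : Matrix (Fin n) (Fin n) ℤ) (hs : A.IsSymm) :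
    (scl c A).IsSymm := by
  ext i j
  simp only [Matrix.transpose_apply, scl]
  rw [hs.apply]

private theorem S8_tendsto {n : ℕ} {ρ : ℝ} (hρ : 0 < ρ) (hρ2 : ρ ≤ 1 / 2) {c : ℝ} (hc : 0 < c)
    (A : Matrix (Fin n) (Fin n) ℤ) (hA : A.det ≠ 0) (hs : A.IsSymm) (b θ : Fin n → ℝ) :
    Tendsto (fun R : ℕ => ∫ u in cube n, (∏ i, tp ρ (u i) ^ 2) *
        ∏ i, K1 R (b i + ∑ j, scl c A i j * u j + θ i)) atTop
      (𝓝 (∑' d : Fin n → ℤ, gT ρ (scl c A) b d * e1 (∑ i, (d i : ℝ) * θ i)).re) := by
  have hsum : Summable fun d : Fin n → ℤ => gT ρ (scl c A) b d * e1 (∑ i, (d i : ℝ) * θ i) := by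
    refine Summable.of_norm ?_
    refine (summable_gT hρ hρ2 hc A hA b).norm.congr fun d => ?_
    rw [norm_mul, norm_e1, mul_one]
  have h1 := (Complex.continuous_re.tendsto _).comp (fejer_tendsto hsum)
  refine h1.congr' ?_
  filter_upwards [eventually_gt_atTop 0] with R hR
  simp only [Function.comp_apply]
  rw [fejer_T hR ρ (scl c A) (S8_symm c A hs) b θ, Complex.ofReal_re]

/-- The limit density is at most `1 / |det|`. -/
theorem gT_le {n : ℕ} {ρ : ℝ} (hρ : 0 < ρ) (hρ2 : ρ ≤ 1 / 2) {c : ℝ} (hc : 0 < c)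
    (A : Matrix (Fin n) (Fin n) ℤ) (hA : A.det ≠ 0) (hs : A.IsSymm)
    (hrow : ∀ i, ∑ j, |scl c A i j| ≤ 1 / 4) (b θ : Fin n → ℝ) :
    (∑' d : Fin n → ℤ, gT ρ (scl c A) b d * e1 (∑ i, (d i : ℝ) * θ i)).re ≤
      1 / (c ^ n * |(A.det : ℝ)|) := by
  refine le_of_tendsto (S8_tendsto hρ hρ2 hc A hA hs b θ) ?_
  filter_upwards [eventually_gt_atTop 0] with R hR
  refine (S8_drop R ρ (scl c A) b θ).trans ?_
  rw [← S8_abs_det hc A]
  exact S8_inner (fun i => b i + θ i) (S8_det_ne hc A hA) hrow hR

/-- It vanishes off the piece. -/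
theorem gT_sep {n : ℕ} {ρ : ℝ} (hρ : 0 < ρ) (hρ2 : ρ ≤ 1 / 2) {c : ℝ} (hc : 0 < c)
    (A : Matrix (Fin n) (Fin n) ℤ) (hA : A.det ≠ 0) (hs : A.IsSymm)
    (hrow : ∀ i, ∑ j, |scl c A i j| ≤ 1 / 4) (b θ : Fin n → ℝ) {η : ℝ} (hη : 0 < η)
    (hsep : ∀ u ∈ cube n, ∃ i, ∀ z : ℤ, η ≤ |b i + ∑ j, scl c A i j * u j + θ i - z|) :
    (∑' d : Fin n → ℤ, gT ρ (scl c A) b d * e1 (∑ i, (d i : ℝ) * θ i)).re ≤ 0 := by
  have hlim : Tendsto (fun R : ℕ => (n : ℝ) * (1 / |(scl c A).det| * (1 / (4 * (R : ℝ) * η ^ 2))))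
      atTop (𝓝 0) := by
    have h1 : Tendsto (fun R : ℕ => (1 : ℝ) / (R : ℝ)) atTop (𝓝 0) :=
      tendsto_one_div_atTop_nhds_zero_nat
    have h2 := h1.const_mul ((n : ℝ) * (1 / |(scl c A).det| * (1 / (4 * η ^ 2))))
    rw [mul_zero] at h2
    refine h2.congr fun R => ?_
    rw [show (4 * (R : ℝ) * η ^ 2) = (4 * η ^ 2) * R by ring, one_div_mul_one_div_rev,
      one_div_mul_one_div_rev]
    rw [show (n : ℝ) * (1 / (4 * η ^ 2 * |(scl c A).det|)) * (1 / (R : ℝ)) =
      n * ((1 / (4 * η ^ 2 * |(scl c A).det|)) * (1 / (R : ℝ))) by ring,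
      one_div_mul_one_div_rev]
    congr 2
    ring
  refine le_of_tendsto_of_tendsto (S8_tendsto hρ hρ2 hc A hA hs b θ) hlim ?_
  filter_upwards [eventually_gt_atTop 0] with R hR
  refine (S8_drop R ρ (scl c A) b θ).trans ?_
  refine S8_inner2 (S8_det_ne hc A hA) hrow hη ?_ hR
  intro u hu
  obtain ⟨i, hi⟩ := hsep u hu
  refine ⟨i, fun z => ?_⟩
  have := hi z
  rwa [show b i + ∑ j, scl c A i j * u j + θ i - (z : ℝ) =
    b i + θ i + ∑ j, scl c A i j * u j - z by ring] at this

end Vale.Agent.P110U
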