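import Vale.Agent.Lib.P110U.GDefs
import Vale.Agent.Lib.P110U.G8
import Vale.Agent.Lib.P110U.G5
import Vale.Agent.Lib.P110U.S8

/-! P110U: module G8b. -/

namespace Vale.Agent.P110U

open MeasureTheory Filter Topology
open scoped ComplexConjugate ENNReal
open Vale.Agent.P110F

private theorem G8b_symm {n : ℕ} (c : ℝ) (A : Matrix (Fin n) (Fin n) ℤ) (hs : A.IsSymm) :
    (scl c A).IsSymm := by
  ext i j
  simp only [Matrix.transpose_apply, scl]
  rw [hs.apply]

theorem tendsto_DF {n : ℕ} {C : ℝ} (f : Fin n → ℝ → ℝ) (hf : ∀ i, GF C (f i)) {c : ℝ} (hc : 0 < c)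
    (A : Matrix (Fin n) (Fin n) ℤ) (hA : A.det ≠ 0) (hs : A.IsSymm) (b θ : Fin n → ℝ) :
    Tendsto (fun R : ℕ => ∫ u in cube n, (∏ i, f i (u i) ^ 2) *
        ∏ i, K1 R (b i + ∑ j, scl c A i j * u j + θ i)) atTop
      (𝓝 (DF f (scl c A) b θ)) := by
  have hsum : Summable fun d : Fin n → ℤ =>
      gF f (scl c A) b d * e1 (∑ i, (d i : ℝ) * θ i) := by
    refine Summable.of_norm ?_
    refine (summable_gF f hf hc A hA b).norm.congr fun d => ?_
    rw [norm_mul, norm_e1, mul_one]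
  unfold DF
  have h1 := (Complex.continuous_re.tendsto _).comp (fejer_tendsto hsum)
  refine h1.congr' ?_
  filter_upwards [eventually_gt_atTop 0] with R hR
  simp only [Function.comp_apply]
  rw [fejer_F hR f hf (scl c A) (G8b_symm c A hs) b θ, Complex.ofReal_re]

end Vale.Agent.P110U
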