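import Vale.Agent.Lib.P110U.GDefs
import Vale.Agent.Lib.P110F.F0
import Vale.Agent.Lib.P110F.F1
import Vale.Agent.Lib.P110F.F5
import Vale.Agent.Lib.P110F.V1

/-! P110U: module G9. -/

namespace Vale.Agent.P110U

open MeasureTheory Filter Topology
open scoped ComplexConjugate ENNReal
open Vale.Agent.P110F

private theorem G9_isCompact_cube (n : ℕ) : IsCompact (cube n) :=
  isCompact_univ_pi fun _ => isCompact_Icc

private theorem G9_measurableSet_cube (n : ℕ) : MeasurableSet (cube n) := by
  unfold cube
  exact MeasurableSet.univ_pi fun _ => measurableSet_Icc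

private theorem G9_continuous_prod {n : ℕ} (R : ℕ) :
    Continuous fun v : Fin n → ℝ => ∏ i, K1 R (v i) :=
  continuous_finsetProd _ fun i _ => (continuous_K1 R).comp (continuous_apply i)

private theorem G9_int {n R : ℕ} (hR : 0 < R) :
    ∫ v in hcube n, ∏ i, K1 R (v i) = 1 := by
  have h1 : (volume : Measure (Fin n → ℝ)).restrict (hcube n) =
      Measure.pi fun _ => (volume : Measure ℝ).restrict (Set.Ico 0 1) := by
    unfold hcube
    rw [volume_pi, Measure.restrict_pi_pi]
  rw [h1, integral_fintype_prod_eq_prod (fun _ : Fin n => K1 R)]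
  have h2 : ∫ t in Set.Ico (0 : ℝ) 1, K1 R t = 1 := by
    rw [integral_Ico_eq_integral_Ioc, ← intervalIntegral.integral_of_le zero_le_one,
      integral_K1 hR]
  rw [h2]
  simp

private theorem G9_lint {n R : ℕ} (hR : 0 < R) :
    ∫⁻ v in hcube n, ENNReal.ofReal (∏ i, K1 R (v i)) = 1 := by
  rw [← ofReal_integral_eq_lintegral_ofReal, G9_int hR, ENNReal.ofReal_one]
  · refine ((G9_continuous_prod R).continuousOn.integrableOn_compact
      (G9_isCompact_cube n)).mono_set ?_
    exact Set.pi_mono fun i _ => Set.Ico_subset_Icc_self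
  · exact Eventually.of_forall fun v => Finset.prod_nonneg fun i _ => K1_nonneg R _

private theorem G9_cont {n : ℕ} (R : ℕ) (H : Matrix (Fin n) (Fin n) ℝ) (w : Fin n → ℝ) :
    Continuous fun u : Fin n → ℝ => ∏ i, K1 R (w i + ∑ j, H i j * u j) :=
  continuous_finsetProd _ fun i _ => (continuous_K1 R).comp (by fun_prop)

/-- the set of points whose `i`-th coordinate is far from the integers -/
private def G9_far (n : ℕ) (η : ℝ) (i : Fin n) : Set (Fin n → ℝ) :=
  {v | ∀ z : ℤ, η ≤ |v i - z|}

private theorem G9_meas_far (n : ℕ) (η : ℝ) (i : Fin n) : MeasurableSet (G9_far n η i) := by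
  unfold G9_far
  rw [Set.ofPred_forall]
  refine MeasurableSet.iInter fun z => ?_
  refine measurableSet_le measurable_const ?_
  exact ((measurable_pi_apply i).sub_const _).norm

private theorem G9_integral_Ico {R : ℕ} (hR : 0 < R) : ∫ t in Set.Ico (0 : ℝ) 1, K1 R t = 1 := by
  rw [← integral_Icc_eq_integral_Ico, integral_Icc_eq_integral_Ioc,
    ← intervalIntegral.integral_of_le zero_le_one]
  exact integral_K1 hR

private theorem G9_lint2 {n R : ℕ} (hR : 0 < R) {η : ℝ} (hη : 0 < η) (i : Fin n) :
    ∫⁻ v in hcube n, (G9_far n η i).indicator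
      (fun v => ENNReal.ofReal (∏ j, K1 R (v j))) v ≤ ENNReal.ofReal (1 / (4 * R * η ^ 2)) := by
  classical
  set G : Fin n → ℝ → ℝ := fun j t => if j = i then 1 / (4 * R * η ^ 2) else K1 R t with hG
  have hGint : ∀ j, Integrable (G j) ((volume : Measure ℝ).restrict (Set.Ico 0 1)) := by
    intro j
    have hc : Continuous (G j) := by
      rw [hG]
      by_cases h : j = i
      · simp only [h, if_true]
        exact continuous_const
      · simp only [h, if_false]
        exact continuous_K1 R
    exact (hc.continuousOn.integrableOn_compact isCompact_Icc).mono_set Set.Ico_subset_Icc_self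
  have hG0 : ∀ j t, 0 ≤ G j t := by
    intro j t
    rw [hG]
    by_cases h : j = i
    · simp only [h, if_true]
      positivity
    · simp only [h, if_false]
      exact K1_nonneg R t
  have hres : (volume : Measure (Fin n → ℝ)).restrict (hcube n) =
      Measure.pi fun _ : Fin n => (volume : Measure ℝ).restrict (Set.Ico 0 1) := by
    unfold hcube
    exact Measure.restrict_pi_pi _ _
  calc ∫⁻ v in hcube n, (G9_far n η i).indicator
          (fun v => ENNReal.ofReal (∏ j, K1 R (v j))) v
      ≤ ∫⁻ v in hcube n, ENNReal.ofReal (∏ j, G j (v j)) := by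
        refine lintegral_mono fun v => ?_
        by_cases hv : v ∈ G9_far n η i
        · rw [Set.indicator_of_mem hv]
          refine ENNReal.ofReal_le_ofReal ?_
          refine Finset.prod_le_prod (fun j _ => K1_nonneg R _) fun j _ => ?_
          rw [hG]
          by_cases h : j = i
          · simp only [h, if_true]
            exact K1_le hR hη _ hv
          · simp only [h, if_false]
            exact le_rfl
        · rw [Set.indicator_of_notMem hv]
          exact bot_le
    _ = ENNReal.ofReal (∫ v in hcube n, ∏ j, G j (v j)) := by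
        rw [ofReal_integral_eq_lintegral_ofReal]
        · rw [hres]
          exact Integrable.fintype_prod hGint
        · exact Filter.Eventually.of_forall fun v => Finset.prod_nonneg fun j _ => hG0 j _
    _ = ENNReal.ofReal (∏ j, ∫ t in Set.Ico (0 : ℝ) 1, G j t) := by
        rw [hres, integral_fintype_prod_eq_prod (𝕜 := ℝ) (fun j => G j)]
    _ = ENNReal.ofReal (1 / (4 * R * η ^ 2)) := by
        congr 1
        rw [Finset.prod_eq_single i]
        · rw [hG]
          simp
        · intro j _ hj
          rw [hG]
          simp only [hj, if_false]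
          exact G9_integral_Ico hR
        · intro h
          exact absurd (Finset.mem_univ i) h

/-- Localisation of integrals against the Fejer kernel. -/
theorem loc_int {n : ℕ} {H : Matrix (Fin n) (Fin n) ℝ} (v : Fin n → ℝ)
    (hdet : H.det ≠ 0) (hrow : ∀ i, ∑ j, |H i j| ≤ 1 / 4) {η δ : ℝ} (hη : 0 < η) (hδ : 0 ≤ δ)
    (w : (Fin n → ℝ) → ℝ) (hw : Continuous w) (hw0 : ∀ u ∈ cube n, 0 ≤ w u)
    (hw1 : ∀ u ∈ cube n, w u ≤ 1)
    (hsep : ∀ u ∈ cube n, w u ≤ δ ∨ ∃ i, ∀ z : ℤ, η ≤ |(v i + ∑ j, H i j * u j) - z|)
    {R : ℕ} (hR : 0 < R) :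
    ∫ u in cube n, w u * ∏ i, K1 R (v i + ∑ j, H i j * u j) ≤
      δ * (1 / |H.det|) + n * (1 / |H.det| * (1 / (4 * R * η ^ 2))) := by
  classical
  have hKm : Measurable fun v : Fin n → ℝ => ENNReal.ofReal (∏ j, K1 R (v j)) := by
    refine Measurable.ennreal_ofReal ?_
    exact (continuous_finsetProd _ fun j _ =>
      (continuous_K1 R).comp (continuous_apply j)).measurable
  set f : Fin n → (Fin n → ℝ) → ℝ≥0∞ := fun i => (G9_far n η i).indicator
      (fun v => ENNReal.ofReal (∏ j, K1 R (v j))) with hf
  have hfm : ∀ i, Measurable (f i) := fun i => hKm.indicator (G9_meas_far n η i)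
  have hper : ∀ i, ∀ (v : Fin n → ℝ) (z : Fin n → ℤ), f i (fun i => v i + z i) = f i v := by
    intro i v z
    have hmem : ((fun i => v i + z i) ∈ G9_far n η i) ↔ v ∈ G9_far n η i := by
      unfold G9_far
      simp only [Set.mem_ofPred_eq]
      constructor
      · intro h y
        have := h (y + z i)
        push_cast at this
        rwa [show v i + (z i : ℝ) - ((y : ℝ) + (z i : ℝ)) = v i - y by ring] at this
      · intro h y
        have := h (y - z i)
        push_cast at this
        rwa [show v i - ((y : ℝ) - (z i : ℝ)) = v i + (z i : ℝ) - y by ring] at this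
    rw [hf]
    by_cases hv : v ∈ G9_far n η i
    · simp only [Set.indicator_of_mem hv, Set.indicator_of_mem (hmem.2 hv), K1_add_int]
    · simp only [Set.indicator_of_notMem hv, Set.indicator_of_notMem (fun h => hv (hmem.1 h))]
  have haff : Continuous fun u : Fin n → ℝ => (fun i => v i + ∑ j, H i j * u j : Fin n → ℝ) := by
    fun_prop
  have hP0 : ∀ u : Fin n → ℝ, 0 ≤ ∏ i, K1 R (v i + ∑ j, H i j * u j) := fun u =>
    Finset.prod_nonneg fun i _ => K1_nonneg R _
  have hfirst : ∫⁻ u in cube n, ENNReal.ofReal (∏ i, K1 R (v i + ∑ j, H i j * u j)) ≤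
      ENNReal.ofReal (1 / |H.det|) := by
    have h1 := lintegral_affine_le H hdet hrow v
      (fun v => ENNReal.ofReal (∏ i, K1 R (v i)))
      (ENNReal.measurable_ofReal.comp (G9_continuous_prod R).measurable) (fun v z => by
        simp only [K1_add_int])
    rw [G9_lint hR, mul_one] at h1
    exact h1
  have hbound : ∫⁻ u in cube n, ENNReal.ofReal (w u * ∏ i, K1 R (v i + ∑ j, H i j * u j)) ≤
      ENNReal.ofReal (δ * (1 / |H.det|) + n * (1 / |H.det| * (1 / (4 * R * η ^ 2)))) := by
    calc ∫⁻ u in cube n, ENNReal.ofReal (w u * ∏ i, K1 R (v i + ∑ j, H i j * u j))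
        ≤ ∫⁻ u in cube n, (ENNReal.ofReal δ *
            ENNReal.ofReal (∏ i, K1 R (v i + ∑ j, H i j * u j)) +
            ∑ i, f i (fun i => v i + ∑ j, H i j * u j)) := by
          refine setLIntegral_mono' (G9_measurableSet_cube n) fun u hu => ?_
          rcases hsep u hu with h | ⟨i, hi⟩
          · refine le_trans ?_ (le_add_of_nonneg_right bot_le)
            rw [← ENNReal.ofReal_mul hδ]
            exact ENNReal.ofReal_le_ofReal (mul_le_mul_of_nonneg_right h (hP0 u))
          · have hmem : (fun i => v i + ∑ j, H i j * u j) ∈ G9_far n η i := by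
              intro z
              exact hi z
            refine le_trans ?_ (le_add_of_nonneg_left bot_le)
            calc ENNReal.ofReal (w u * ∏ i, K1 R (v i + ∑ j, H i j * u j))
                ≤ ENNReal.ofReal (∏ i, K1 R (v i + ∑ j, H i j * u j)) :=
                  ENNReal.ofReal_le_ofReal (mul_le_of_le_one_left (hP0 u) (hw1 u hu))
              _ = f i (fun i => v i + ∑ j, H i j * u j) := by
                  rw [hf]
                  simp only [Set.indicator_of_mem hmem]
              _ ≤ ∑ i, f i (fun i => v i + ∑ j, H i j * u j) :=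
                  Finset.single_le_sum (f := fun i => f i (fun i => v i + ∑ j, H i j * u j))
                    (fun i _ => bot_le) (Finset.mem_univ i)
      _ = ENNReal.ofReal δ * (∫⁻ u in cube n,
            ENNReal.ofReal (∏ i, K1 R (v i + ∑ j, H i j * u j))) +
            ∑ i, ∫⁻ u in cube n, f i (fun i => v i + ∑ j, H i j * u j) := by
          rw [lintegral_add_left, lintegral_const_mul, lintegral_finsetSum]
          · intro i _
            exact (hfm i).comp haff.measurable
          · exact (G9_cont R H v).measurable.ennreal_ofReal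
          · exact (G9_cont R H v).measurable.ennreal_ofReal.const_mul _
      _ ≤ ENNReal.ofReal δ * ENNReal.ofReal (1 / |H.det|) +
            ∑ _i : Fin n, ENNReal.ofReal (1 / |H.det|) * ENNReal.ofReal (1 / (4 * R * η ^ 2)) := by
          refine add_le_add (mul_le_mul_right hfirst _) (Finset.sum_le_sum fun i _ => ?_)
          refine (lintegral_affine_le H hdet hrow v (f i) (hfm i) (hper i)).trans ?_
          gcongr
          exact G9_lint2 hR hη i
      _ = ENNReal.ofReal (δ * (1 / |H.det|) + n * (1 / |H.det| * (1 / (4 * R * η ^ 2)))) := by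
          rw [Finset.sum_const, Finset.card_univ, Fintype.card_fin,
            ENNReal.ofReal_add (by positivity) (by positivity), ENNReal.ofReal_mul hδ,
            ENNReal.ofReal_mul (p := (n : ℝ)) (by positivity),
            ENNReal.ofReal_mul (p := 1 / |H.det|) (by positivity),
            ENNReal.ofReal_natCast, nsmul_eq_mul]
  rw [integral_eq_lintegral_of_nonneg_ae]
  · exact ENNReal.toReal_le_of_le_ofReal (by positivity) hbound
  · rw [EventuallyLE, ae_restrict_iff' (G9_measurableSet_cube n)]
    exact Eventually.of_forall fun u hu => mul_nonneg (hw0 u hu) (hP0 u)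
  · exact (hw.mul (G9_cont R H v)).aestronglyMeasurable

end Vale.Agent.P110U
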