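import Vale.Agent.Lib.P110U.GDefs
import Vale.Agent.Lib.P110U.G0
import Vale.Agent.Lib.P110U.G8b
import Vale.Agent.Lib.P110U.G9

/-! P110U: module G10. -/

namespace Vale.Agent.P110U

open MeasureTheory Filter Topology
open scoped ComplexConjugate ENNReal
open Vale.Agent.P110F

private theorem G10_tp (ρ u : ℝ) : 0 ≤ tp ρ u ∧ tp ρ u ≤ 1 := by
  unfold tp
  exact ⟨le_max_left _ _, max_le zero_le_one (min_le_left _ _)⟩

private theorem G10_continuous_tp (ρ : ℝ) : Continuous (tp ρ) := by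
  unfold tp
  exact continuous_const.max (continuous_const.min
    ((continuous_id.div_const ρ).min ((continuous_const.sub continuous_id).div_const ρ)))

private theorem G10_isCompact_cube (n : ℕ) : IsCompact (cube n) :=
  isCompact_univ_pi fun _ => isCompact_Icc

private theorem G10_prod {n : ℕ} (ρ : ℝ) (a : Fin n) (s : ℝ) (y : Fin n → ℝ) :
    ∏ i, fa ρ a s i (y i) ^ 2 = (s + y a) ^ 2 * ∏ i, tp ρ (y i) ^ 2 := by
  have h1 : ∀ i, fa ρ a s i (y i) ^ 2 = (if i = a then (s + y i) ^ 2 else 1) * tp ρ (y i) ^ 2 := by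
    intro i
    unfold fa
    split_ifs <;> ring
  simp only [h1]
  rw [Finset.prod_mul_distrib]
  congr 1
  rw [Finset.prod_eq_single a]
  · rw [if_pos rfl]
  · intro i _ hi
    rw [if_neg hi]
  · intro h
    exact absurd (Finset.mem_univ a) h

private theorem G10_det {n : ℕ} {c : ℝ} (hc : 0 < c) (A : Matrix (Fin n) (Fin n) ℤ)
    (hA : A.det ≠ 0) : (scl c A).det ≠ 0 := by
  have h1 : scl c A = c • A.map (Int.castRingHom ℝ) := by
    ext i j
    rfl
  rw [h1, Matrix.det_smul]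
  have h2 : (A.map (Int.castRingHom ℝ)).det = ((A.det : ℤ) : ℝ) := by
    have := (Int.castRingHom ℝ).map_det A
    simpa using this.symm
  rw [h2]
  have h3 : ((A.det : ℤ) : ℝ) ≠ 0 := by exact_mod_cast hA
  exact mul_ne_zero (pow_pos hc _).ne' h3

private theorem G10_lin {X : Type} [MeasurableSpace X] {μ : Measure X} {F0 F1 F2 : X → ℝ}
    (i0 : Integrable F0 μ) (i1 : Integrable F1 μ) (i2 : Integrable F2 μ) (α β γ : ℝ) :
    α * ∫ x, F0 x ∂μ - β * ∫ x, F1 x ∂μ + γ * ∫ x, F2 x ∂μ =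
      ∫ x, (α * F0 x - β * F1 x + γ * F2 x) ∂μ := by
  have h1 : ∫ x, (α * F0 x - β * F1 x) ∂μ = ∫ x, α * F0 x ∂μ - ∫ x, β * F1 x ∂μ :=
    integral_sub (i0.const_mul α) (i1.const_mul β)
  have h2 : ∫ x, (α * F0 x - β * F1 x + γ * F2 x) ∂μ =
      ∫ x, (α * F0 x - β * F1 x) ∂μ + ∫ x, γ * F2 x ∂μ :=
    integral_add ((i0.const_mul α).sub (i1.const_mul β)) (i2.const_mul γ)
  rw [h2, h1, integral_const_mul, integral_const_mul, integral_const_mul]

/-- The limit of the squared modulus of `S_{(y_a - u) χ}` is small if all stationary points are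
near `u`. -/
theorem DF_loc {n : ℕ} {ρ : ℝ} (hρ : 0 < ρ) (hρ2 : ρ ≤ 1 / 2) {c : ℝ} (hc : 0 < c)
    (A : Matrix (Fin n) (Fin n) ℤ) (hA : A.det ≠ 0) (hs : A.IsSymm)
    (hrow : ∀ i, ∑ j, |scl c A i j| ≤ 1 / 4) (b θ : Fin n → ℝ) (a : Fin n) {u : ℝ}
    (hu0 : 0 ≤ u) (hu1 : u ≤ 1) {η δ : ℝ} (hη : 0 < η) (hδ : 0 ≤ δ)
    (hsep : ∀ y ∈ cube n, (y a - u) ^ 2 ≤ δ ∨
      ∃ i, ∀ z : ℤ, η ≤ |(b i + θ i + ∑ j, scl c A i j * y j) - z|) :
    (1 + u) * DF (fa ρ a 0) (scl c A) b θ - u * DF (fa ρ a 1) (scl c A) b θ +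
      (u + u ^ 2) * DF (fun _ => tp ρ) (scl c A) b θ ≤ δ * (1 / |(scl c A).det|) := by
  obtain ⟨C, h0, h1⟩ := exists_GF_fa hρ hρ2
  have T0 := tendsto_DF (fa ρ a 0) (h1 n a).1 hc A hA hs b θ
  have T1 := tendsto_DF (fa ρ a 1) (h1 n a).2 hc A hA hs b θ
  have T2 := tendsto_DF (fun _ : Fin n => tp ρ) (fun _ => h0) hc A hA hs b θ
  have hdet := G10_det hc A hA
  have T := ((T0.const_mul (1 + u)).sub (T1.const_mul u)).add (T2.const_mul (u + u ^ 2))
  have hR : Tendsto (fun R : ℕ => δ * (1 / |(scl c A).det|) +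
      n * (1 / |(scl c A).det| * (1 / (4 * (R : ℝ) * η ^ 2)))) atTop
      (𝓝 (δ * (1 / |(scl c A).det|))) := by
    have h2 : Tendsto (fun R : ℕ => 1 / (4 * (R : ℝ) * η ^ 2)) atTop (𝓝 0) := by
      have h3 := (tendsto_one_div_atTop_nhds_zero_nat (𝕜 := ℝ)).mul_const (1 / (4 * η ^ 2))
      rw [zero_mul] at h3
      refine h3.congr fun R => ?_
      rw [div_mul_div_comm, one_mul]
      congr 1
      ring
    have h4 := (((h2.const_mul (1 / |(scl c A).det|)).const_mul (n : ℝ)).const_add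
      (δ * (1 / |(scl c A).det|)))
    simpa using h4
  refine le_of_tendsto_of_tendsto T hR ?_
  filter_upwards [eventually_gt_atTop 0] with R hR0
  have hw : Continuous fun y : Fin n → ℝ => (y a - u) ^ 2 * ∏ i, tp ρ (y i) ^ 2 := by
    refine (((continuous_apply a).sub continuous_const).pow 2).mul ?_
    exact continuous_finsetProd _ fun i _ =>
      ((G10_continuous_tp ρ).comp (continuous_apply i)).pow 2
  have hp0 : ∀ y : Fin n → ℝ, 0 ≤ ∏ i, tp ρ (y i) ^ 2 := fun y =>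
    Finset.prod_nonneg fun i _ => sq_nonneg _
  have hp1 : ∀ y : Fin n → ℝ, ∏ i, tp ρ (y i) ^ 2 ≤ 1 := fun y =>
    Finset.prod_le_one (fun i _ => sq_nonneg _) fun i _ =>
      pow_le_one₀ (G10_tp ρ _).1 (G10_tp ρ _).2
  have hya : ∀ y ∈ cube n, (y a - u) ^ 2 ≤ 1 := by
    intro y hy
    have h2 := hy a (Set.mem_univ a)
    have h3 : |y a - u| ≤ 1 := by
      rw [abs_le]
      constructor <;> linarith [h2.1, h2.2]
    rw [← sq_abs]
    exact pow_le_one₀ (abs_nonneg _) h3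
  have hl := loc_int (H := scl c A) (fun i => b i + θ i) hdet hrow hη hδ
    (fun y => (y a - u) ^ 2 * ∏ i, tp ρ (y i) ^ 2) hw
    (fun y _ => mul_nonneg (sq_nonneg _) (hp0 y))
    (fun y hy => mul_le_one₀ (hya y hy) (hp0 y) (hp1 y))
    (fun y hy => by
      rcases hsep y hy with h | h
      · exact Or.inl ((mul_le_of_le_one_right (sq_nonneg _) (hp1 y)).trans h)
      · exact Or.inr h) hR0
  refine le_trans (le_of_eq ?_) hl
  have hK : Continuous fun y : Fin n → ℝ => ∏ i, K1 R (b i + ∑ j, scl c A i j * y j + θ i) :=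
    continuous_finsetProd _ fun i _ => (continuous_K1 R).comp (by fun_prop)
  have hint : ∀ f : Fin n → ℝ → ℝ, (∀ i, GF C (f i)) →
      IntegrableOn (fun y : Fin n → ℝ => (∏ i, f i (y i) ^ 2) *
        ∏ i, K1 R (b i + ∑ j, scl c A i j * y j + θ i)) (cube n) := by
    intro f hf
    refine ContinuousOn.integrableOn_compact (G10_isCompact_cube n) (Continuous.continuousOn ?_)
    refine Continuous.mul ?_ hK
    exact continuous_finsetProd _ fun i _ => ((hf i).continuous.comp (continuous_apply i)).pow 2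
  rw [G10_lin (hint _ (h1 n a).1) (hint _ (h1 n a).2) (hint (fun _ => tp ρ) fun _ => h0)]
  refine integral_congr_ae (Eventually.of_forall fun y => ?_)
  have h0 : ∏ i, K1 R (b i + ∑ j, scl c A i j * y j + θ i) =
      ∏ i, K1 R ((b i + θ i) + ∑ j, scl c A i j * y j) := by
    refine Finset.prod_congr rfl fun i _ => ?_
    congr 1
    ring
  show (1 + u) * ((∏ i, fa ρ a 0 i (y i) ^ 2) * ∏ i, K1 R (b i + ∑ j, scl c A i j * y j + θ i)) -
    u * ((∏ i, fa ρ a 1 i (y i) ^ 2) * ∏ i, K1 R (b i + ∑ j, scl c A i j * y j + θ i)) +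
    (u + u ^ 2) * ((∏ i, tp ρ (y i) ^ 2) * ∏ i, K1 R (b i + ∑ j, scl c A i j * y j + θ i)) =
    (y a - u) ^ 2 * (∏ i, tp ρ (y i) ^ 2) * ∏ i, K1 R ((b i + θ i) + ∑ j, scl c A i j * y j)
  rw [G10_prod, G10_prod, h0]
  ring

end Vale.Agent.P110U
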