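import Vale.Agent.Lib.P110U.GDefs

/-! P110U: module G11a. -/

namespace Vale.Agent.P110U

open MeasureTheory Filter Topology
open scoped ComplexConjugate ENNReal
open Vale.Agent.P110F

private theorem G11a_mem {n : ℕ} {y : Fin n → ℝ} (hy : y ∈ cube n) (a : Fin n) :
    0 ≤ y a ∧ y a ≤ 1 := by
  have h := hy a (Set.mem_univ a)
  exact ⟨h.1, h.2⟩

private theorem G11a_inv {n : ℕ} {H : Matrix (Fin n) (Fin n) ℝ} (hdet : H.det ≠ 0)
    {v : Fin n → ℝ} {W : ℝ} (hW : 0 ≤ W) (h : ∀ i, |∑ j, H i j * v j| ≤ W) (a : Fin n) :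
    |v a| ≤ (1 + ∑ a, ∑ i, |H⁻¹ a i|) * W := by
  have h1 : v = H⁻¹.mulVec (H.mulVec v) := by
    rw [Matrix.mulVec_mulVec, Matrix.nonsing_inv_mul H (isUnit_iff_ne_zero.2 hdet),
      Matrix.one_mulVec]
  have h2 : v a = ∑ i, H⁻¹ a i * ∑ j, H i j * v j := by
    conv_lhs => rw [h1]
    rfl
  have h3 : |v a| ≤ ∑ i, |H⁻¹ a i| * W := by
    rw [h2]
    refine (Finset.abs_sum_le_sum_abs _ _).trans (Finset.sum_le_sum fun i _ => ?_)
    rw [abs_mul]
    exact mul_le_mul_of_nonneg_left (h i) (abs_nonneg _)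
  rw [← Finset.sum_mul] at h3
  have h4 : ∑ i, |H⁻¹ a i| ≤ ∑ a, ∑ i, |H⁻¹ a i| :=
    Finset.single_le_sum (f := fun a => ∑ i, |H⁻¹ a i|)
      (fun a _ => Finset.sum_nonneg fun i _ => abs_nonneg _) (Finset.mem_univ a)
  refine h3.trans (mul_le_mul_of_nonneg_right ?_ hW)
  linarith

/-- Stationary points for nearby parameters are close. -/
theorem cube_dichotomy {n : ℕ} {H : Matrix (Fin n) (Fin n) ℝ} (hdet : H.det ≠ 0)
    (hrow : ∀ i, ∑ j, |H i j| ≤ 1 / 4) {δ : ℝ} (hδ : 0 < δ) :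
    ∃ r : ℝ, 0 < r ∧ ∀ b θ₀ : Fin n → ℝ, ∃ u ∈ cube n, ∀ θ : Fin n → ℝ, (∀ i, |θ i - θ₀ i| ≤ r) →
      ∀ y ∈ cube n, (∀ a, |y a - u a| ≤ δ) ∨
        ∃ i, ∀ z : ℤ, r ≤ |(b i + θ i + ∑ j, H i j * y j) - z| := by
  obtain ⟨K, hK⟩ : ∃ K : ℝ, K = 1 + ∑ a, ∑ i, |H⁻¹ a i| := ⟨_, rfl⟩
  have hK0 : 0 < K := by
    have : 0 ≤ ∑ a, ∑ i, |H⁻¹ a i| :=
      Finset.sum_nonneg fun a _ => Finset.sum_nonneg fun i _ => abs_nonneg _
    linarith
  obtain ⟨r, hr⟩ : ∃ r : ℝ, r = min (1 / 32) (δ / (4 * K)) := ⟨_, rfl⟩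
  have hr0 : 0 < r := by
    rw [hr]
    exact lt_min (by norm_num) (by positivity)
  have hr1 : r ≤ 1 / 32 := by
    rw [hr]
    exact min_le_left _ _
  have hr2 : K * (4 * r) ≤ δ := by
    have h : r ≤ δ / (4 * K) := by
      rw [hr]
      exact min_le_right _ _
    rw [le_div_iff₀ (by positivity)] at h
    linarith
  refine ⟨r, hr0, fun b θ₀ => ?_⟩
  by_cases hc : ∃ u ∈ cube n, ∀ i, ∃ z : ℤ, |(b i + θ₀ i + ∑ j, H i j * u j) - z| < 2 * r
  · obtain ⟨u, hu, hu2⟩ := hc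
    refine ⟨u, hu, fun θ hθ y hy => ?_⟩
    by_cases hd : ∃ i, ∀ z : ℤ, r ≤ |(b i + θ i + ∑ j, H i j * y j) - z|
    · exact Or.inr hd
    left
    push Not at hd
    have hsum : ∀ i, ∑ j, H i j * (y j - u j) = ∑ j, H i j * y j - ∑ j, H i j * u j := by
      intro i
      rw [← Finset.sum_sub_distrib]
      exact Finset.sum_congr rfl fun j _ => by ring
    have key : ∀ i, |∑ j, H i j * (fun a => y a - u a) j| ≤ 4 * r := by
      intro i
      show |∑ j, H i j * (y j - u j)| ≤ 4 * r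
      obtain ⟨z, hz⟩ := hd i
      obtain ⟨z0, hz0⟩ := hu2 i
      have h1 := hθ i
      have h2 : |∑ j, H i j * (y j - u j)| ≤ 1 / 4 := by
        refine (Finset.abs_sum_le_sum_abs _ _).trans (le_trans (Finset.sum_le_sum fun j _ => ?_)
          (hrow i))
        rw [abs_mul]
        have h3 : |y j - u j| ≤ 1 := by
          have := G11a_mem hy j
          have := G11a_mem hu j
          rw [abs_le]
          constructor <;> linarith
        calc |H i j| * |y j - u j| ≤ |H i j| * 1 :=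
              mul_le_mul_of_nonneg_left h3 (abs_nonneg _)
          _ = |H i j| := mul_one _
      have h3 := hsum i
      have hz' : z = z0 := by
        have h4 : |((z - z0 : ℤ) : ℝ)| < 1 := by
          push_cast
          rw [abs_lt] at hz hz0 ⊢
          rw [abs_le] at h1 h2
          constructor <;> linarith [hz.1, hz.2, hz0.1, hz0.2, h1.1, h1.2, h2.1, h2.2]
        have h5 : |z - z0| < 1 := by exact_mod_cast h4
        have h6 : z - z0 = 0 := Int.abs_lt_one_iff.1 h5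
        omega
      rw [hz'] at hz
      rw [abs_lt] at hz hz0
      rw [abs_le] at h1 ⊢
      constructor <;> linarith [hz.1, hz.2, hz0.1, hz0.2, h1.1, h1.2]
    intro a
    have h := G11a_inv hdet (by linarith : (0 : ℝ) ≤ 4 * r) key a
    rw [← hK] at h
    exact h.trans hr2
  · push Not at hc
    refine ⟨0, fun a _ => ⟨le_rfl, zero_le_one⟩, fun θ hθ y hy => Or.inr ?_⟩
    obtain ⟨i, hi⟩ := hc y hy
    refine ⟨i, fun z => ?_⟩
    have h1 := hi z
    have h2 := hθ i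
    have h3 : (b i + θ₀ i + ∑ j, H i j * y j) - z =
        ((b i + θ i + ∑ j, H i j * y j) - z) - (θ i - θ₀ i) := by ring
    rw [h3] at h1
    have h4 := abs_sub ((b i + θ i + ∑ j, H i j * y j) - z) (θ i - θ₀ i)
    linarith

end Vale.Agent.P110U
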