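import Vale.Agent.Lib.P110U.GDefs

/-! P110U: module G3. -/

namespace Vale.Agent.P110U

open MeasureTheory Filter Topology
open scoped ComplexConjugate ENNReal
open Vale.Agent.P110F

private lemma G3_TF_eq_box {n : ℕ} (f : Fin n → ℝ → ℝ) {L : ℕ} (H : Matrix (Fin n) (Fin n) ℝ)
    (b : Fin n → ℝ) (θ : Fin n → ℝ) :
    TF f H b L θ = ∑ v ∈ Fintype.piFinset (fun _ : Fin n => Finset.Ico (0 : ℤ) L),
      ((∏ i, f i (((v i : ℤ) : ℝ) / L) : ℝ) : ℂ) *
      e1 (quad H (fun i => ((v i : ℤ) : ℝ)) / (2 * L) +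
        ∑ i, (b i + θ i) * ((v i : ℤ) : ℝ)) := by
  unfold TF
  refine Finset.sum_bij (fun y _ i => (((y i : Fin L) : ℕ) : ℤ)) ?_ ?_ ?_ ?_
  · intro y _
    rw [Fintype.mem_piFinset]
    intro i
    rw [Finset.mem_Ico]
    have := (y i).2
    constructor <;> omega
  · intro a _ a' _ h
    funext i
    have := congrFun h i
    exact Fin.ext (by exact_mod_cast this)
  · intro v hv
    rw [Fintype.mem_piFinset] at hv
    have hv' : ∀ i, 0 ≤ v i ∧ v i < L := fun i => by
      have := hv i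
      rwa [Finset.mem_Ico] at this
    refine ⟨fun i => ⟨(v i).toNat, by have := hv' i; omega⟩, Finset.mem_univ _, ?_⟩
    funext i
    have := (hv' i).1
    simp only
    omega
  · intro y _
    simp only [Int.cast_natCast]

theorem normSq_TF {n : ℕ} {C : ℝ} (f : Fin n → ℝ → ℝ) (hf : ∀ i, GF C (f i)) {L : ℕ} (hL : 0 < L)
    (H : Matrix (Fin n) (Fin n) ℝ) (b : Fin n → ℝ) (θ : Fin n → ℝ) :
    ((‖TF f H b L θ‖ ^ 2 : ℝ) : ℂ) =
      ∑ d ∈ dbox n L, cF f H b L d * e1 (∑ i, (d i : ℝ) * θ i) := by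
  have hLr : (0 : ℝ) < L := by exact_mod_cast hL
  have h2 : ((‖TF f H b L θ‖ ^ 2 : ℝ) : ℂ) = TF f H b L θ * conj (TF f H b L θ) := by
    rw [Complex.mul_conj, Complex.normSq_eq_norm_sq]
  rw [h2, G3_TF_eq_box, map_sum, Finset.sum_mul_sum, ← Finset.sum_product']
  unfold cF
  simp_rw [Finset.sum_mul]
  rw [Finset.sum_sigma']
  refine Finset.sum_of_injOn (fun p => (⟨p.1 - p.2, p.2⟩ : (_ : Fin n → ℤ) × (Fin n → ℤ)))
    ?_ ?_ ?_ ?_
  · rintro ⟨v, w⟩ _ ⟨v', w'⟩ _ h
    simp only [Sigma.mk.injEq, heq_eq_eq] at h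
    obtain ⟨h1, h3⟩ := h
    subst h3
    rw [sub_left_inj] at h1
    rw [h1]
  · rintro ⟨v, w⟩ hp
    rw [Finset.mem_coe, Finset.mem_product, Fintype.mem_piFinset, Fintype.mem_piFinset] at hp
    have hv : ∀ i, 0 ≤ v i ∧ v i < L := fun i => by
      have := hp.1 i
      rwa [Finset.mem_Ico] at this
    have hw : ∀ i, 0 ≤ w i ∧ w i < L := fun i => by
      have := hp.2 i
      rwa [Finset.mem_Ico] at this
    rw [Finset.mem_coe, Finset.mem_sigma]
    unfold dbox
    rw [Fintype.mem_piFinset, Fintype.mem_piFinset]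
    constructor
    · intro i
      have h1 := hv i
      have h3 := hw i
      simp only [Finset.mem_Ioo, Pi.sub_apply]
      omega
    · intro i
      have h3 := hw i
      simp only [Finset.mem_Ico]
      omega
  · rintro ⟨d, y⟩ hq hn
    rw [Finset.mem_sigma] at hq
    unfold dbox at hq
    rw [Fintype.mem_piFinset, Fintype.mem_piFinset] at hq
    have hex : ∃ i, y i + d i < 0 ∨ (L : ℤ) ≤ y i + d i := by
      by_contra hcon
      push Not at hcon
      apply hn
      refine ⟨(y + d, y), ?_, ?_⟩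
      · rw [Finset.mem_coe, Finset.mem_product, Fintype.mem_piFinset, Fintype.mem_piFinset]
        refine ⟨fun i => ?_, hq.2⟩
        have := hcon i
        simp only [Finset.mem_Ico, Pi.add_apply]
        omega
      · simp
    obtain ⟨i, hi⟩ := hex
    have hz : f i (((y i + d i : ℤ) : ℝ) / L) = 0 := by
      rcases hi with hi | hi
      · refine (hf i).zero _ (Or.inl (div_nonpos_of_nonpos_of_nonneg ?_ hLr.le))
        exact_mod_cast hi.le
      · refine (hf i).zero _ (Or.inr ?_)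
        rw [le_div_iff₀ hLr, one_mul]
        exact_mod_cast hi
    have hprod : (∏ i, (f i ((y i : ℝ) / L) * f i (((y i + d i : ℤ) : ℝ) / L)) : ℝ) = 0 := by
      refine Finset.prod_eq_zero (Finset.mem_univ i) ?_
      rw [hz, mul_zero]
    simp only [hprod]
    simp
  · rintro ⟨v, w⟩ _
    simp only
    rw [map_mul, Complex.conj_ofReal, ← e1_neg]
    have hA : (fun i => ((w i + (v - w) i : ℤ) : ℝ)) = fun i => ((v i : ℤ) : ℝ) := by
      funext i
      simp only [Pi.sub_apply]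
      push_cast
      ring
    have hA' : ∀ i, ((w i + (v - w) i : ℤ) : ℝ) = ((v i : ℤ) : ℝ) := fun i => congrFun hA i
    rw [hA]
    simp_rw [hA']
    rw [Finset.prod_mul_distrib]
    have hB : ∑ i, (b i + θ i) * ((v i : ℤ) : ℝ) -
        ∑ i, (b i + θ i) * ((w i : ℤ) : ℝ) =
        ∑ i, b i * (((v - w) i : ℤ) : ℝ) + ∑ i, (((v - w) i : ℤ) : ℝ) * θ i := by
      rw [← Finset.sum_sub_distrib, ← Finset.sum_add_distrib]
      refine Finset.sum_congr rfl fun i _ => ?_
      simp only [Pi.sub_apply]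
      push_cast
      ring
    have hC : e1 (quad H (fun i => ((v i : ℤ) : ℝ)) / (2 * L) +
          ∑ i, (b i + θ i) * ((v i : ℤ) : ℝ)) *
        e1 (-(quad H (fun i => ((w i : ℤ) : ℝ)) / (2 * L) +
          ∑ i, (b i + θ i) * ((w i : ℤ) : ℝ))) =
        e1 ((quad H (fun i => ((v i : ℤ) : ℝ)) - quad H (fun i => ((w i : ℤ) : ℝ))) / (2 * L) +
          ∑ i, b i * (((v - w) i : ℤ) : ℝ)) * e1 (∑ i, (((v - w) i : ℤ) : ℝ) * θ i) := by
      rw [← e1_add, ← e1_add]
      congr 1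
      linear_combination hB
    push_cast
    linear_combination ((∏ i, (f i (((v i : ℤ) : ℝ) / L) : ℂ)) *
      ∏ i, (f i (((w i : ℤ) : ℝ) / L) : ℂ)) * hC

end Vale.Agent.P110U
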