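import Vale.Agent.Lib.P110U.GDefs
import Vale.Agent.Lib.P110U.G1
import Vale.Agent.Lib.P110U.G3b

/-! P110U: module G4. -/

namespace Vale.Agent.P110U

open MeasureTheory Filter Topology
open scoped ComplexConjugate ENNReal
open Vale.Agent.P110F

theorem norm_cF_le {n : ℕ} {C : ℝ} (f : Fin n → ℝ → ℝ) (hf : ∀ i, GF C (f i))
    (H : Matrix (Fin n) (Fin n) ℝ) (hH : H.IsSymm) (hrow : ∀ i, ∑ j, |H i j| ≤ 1 / 4)
    (b : Fin n → ℝ) {L : ℕ} (hL : 0 < L) (d : Fin n → ℤ) (hd : d ∈ dbox n L) :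
    ‖cF f H b L d‖ ≤ (L : ℝ) ^ n * wF C H d := by
  have hdj : ∀ j, |(d j : ℝ)| ≤ L := by
    intro j
    have h1 := Finset.mem_Ioo.1 (Fintype.mem_piFinset.1 hd j)
    have h2 : -(L : ℝ) < d j := by exact_mod_cast h1.1
    have h3 : (d j : ℝ) < L := by exact_mod_cast h1.2
    exact abs_le.2 ⟨h2.le, h3.le⟩
  have hL0 : (0 : ℝ) < L := by exact_mod_cast hL
  have ht : ∀ i, |∑ j, H i j * (d j : ℝ)| ≤ (L : ℝ) / 2 := by
    intro i
    calc |∑ j, H i j * (d j : ℝ)| ≤ ∑ j, |H i j * (d j : ℝ)| := Finset.abs_sum_le_sum_abs _ _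
      _ ≤ ∑ j, |H i j| * L := by
          refine Finset.sum_le_sum fun j _ => ?_
          rw [abs_mul]
          exact mul_le_mul_of_nonneg_left (hdj j) (abs_nonneg _)
      _ = (∑ j, |H i j|) * L := by rw [Finset.sum_mul]
      _ ≤ 1 / 4 * L := mul_le_mul_of_nonneg_right (hrow i) hL0.le
      _ ≤ (L : ℝ) / 2 := by linarith
  rw [cF_eq_prod f H hH b hL d, norm_mul, norm_e1, one_mul, norm_prod]
  unfold wF
  calc ∏ i, ‖WF (f i) L (d i) (∑ j, H i j * (d j : ℝ))‖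
      ≤ ∏ i : Fin n, (L : ℝ) * (C ^ 2 / max 1 ((∑ j, H i j * (d j : ℝ)) ^ 2)) :=
        Finset.prod_le_prod (fun i _ => norm_nonneg _)
          fun i _ => norm_WF_le (hf i) hL (d i) (ht i)
    _ = (L : ℝ) ^ n * ∏ i, C ^ 2 / max 1 ((∑ j, H i j * (d j : ℝ)) ^ 2) := by
        rw [Finset.prod_mul_distrib, Finset.prod_const, Finset.card_univ, Fintype.card_fin]

end Vale.Agent.P110U
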