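import Vale.Agent.Lib.P110U.GDefs
import Vale.Agent.Lib.P110U.G0
import Vale.Agent.Lib.P110U.G7
import Vale.Agent.Lib.P110U.G10
import Vale.Agent.Lib.P110U.G11a

/-! P110U: module G11. -/

namespace Vale.Agent.P110U

open MeasureTheory Filter Topology
open scoped ComplexConjugate ENNReal
open Vale.Agent.P110F

private theorem G11_det {n : ℕ} {c : ℝ} (hc : 0 < c) (A : Matrix (Fin n) (Fin n) ℤ)
    (hA : A.det ≠ 0) : (scl c A).det ≠ 0 := by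
  have h1 : scl c A = c • A.map (Int.cast : ℤ → ℝ) := by
    ext i j
    simp [scl]
  have h2 : (A.map (Int.cast : ℤ → ℝ)).det = ((A.det : ℤ) : ℝ) := by
    have := (Int.castRingHom ℝ).map_det A
    simpa using this.symm
  rw [h1, Matrix.det_smul, h2]
  have h3 : ((A.det : ℤ) : ℝ) ≠ 0 := by exact_mod_cast hA
  positivity

private theorem G11_prod {n : ℕ} (ρ : ℝ) (a : Fin n) (s : ℝ) (v : Fin n → ℝ) :
    ∏ i, fa ρ a s i (v i) = (s + v a) * ∏ i, tp ρ (v i) := by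
  unfold fa
  rw [Finset.prod_mul_distrib, Finset.prod_ite_eq' Finset.univ a fun i => s + v i,
    if_pos (Finset.mem_univ a)]

private theorem G11_add {n : ℕ} (ρ : ℝ) (a : Fin n) (H : Matrix (Fin n) (Fin n) ℝ)
    (b : Fin n → ℝ) (L : ℕ) (θ : Fin n → ℝ) :
    TF (fa ρ a 1) H b L θ = TF (fa ρ a 0) H b L θ + TT ρ H b L θ := by
  unfold TF TT
  rw [← Finset.sum_add_distrib]
  refine Finset.sum_congr rfl fun y _ => ?_
  rw [← add_mul]
  congr 1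
  have h1 := G11_prod ρ a 1 fun i => ((y i : ℕ) : ℝ) / L
  have h0 := G11_prod ρ a 0 fun i => ((y i : ℕ) : ℝ) / L
  beta_reduce at h1 h0
  rw [h1, h0]
  push_cast
  ring

private theorem G11_norm (X Y : ℂ) (u : ℝ) : ‖X - (u : ℂ) * Y‖ ^ 2 =
    (1 + u) * ‖X‖ ^ 2 - u * ‖X + Y‖ ^ 2 + (u + u ^ 2) * ‖Y‖ ^ 2 := by
  rw [← Complex.normSq_eq_norm_sq, ← Complex.normSq_eq_norm_sq, ← Complex.normSq_eq_norm_sq,
    ← Complex.normSq_eq_norm_sq, Complex.normSq_apply, Complex.normSq_apply,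
    Complex.normSq_apply, Complex.normSq_apply]
  simp only [Complex.sub_re, Complex.sub_im, Complex.add_re, Complex.add_im, Complex.mul_re,
    Complex.mul_im, Complex.ofReal_re, Complex.ofReal_im]
  ring

/-- Local purity of one tapered sum. -/
theorem purity_piece {n : ℕ} {ρ : ℝ} (hρ : 0 < ρ) (hρ2 : ρ ≤ 1 / 2) {c : ℝ} (hc : 0 < c)
    (A : Matrix (Fin n) (Fin n) ℤ) (hA : A.det ≠ 0) (hs : A.IsSymm)
    (hrow : ∀ i, ∑ j, |scl c A i j| ≤ 1 / 4) (b : Fin n → ℝ) {δ : ℝ} (hδ : 0 < δ) :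
    ∃ r : ℝ, 0 < r ∧ ∀ᶠ L : ℕ in atTop, ∀ θ₀ : Fin n → ℝ, ∃ u : Fin n → ℝ,
      (∀ a, 0 ≤ u a ∧ (L : ℝ) * u a ≤ L - 1) ∧
      ∀ θ : Fin n → ℝ, (∀ i, |θ i - θ₀ i| ≤ r) → ∀ a : Fin n,
        ‖TF (fa ρ a 0) (scl c A) b L θ - (u a : ℂ) * TT ρ (scl c A) b L θ‖ ^ 2 ≤
          δ * (L : ℝ) ^ n := by
  have hdet := G11_det hc A hA
  obtain ⟨D, hD⟩ : ∃ D : ℝ, D = |(scl c A).det| := ⟨_, rfl⟩
  have hD0 : 0 < D := by
    rw [hD]
    exact abs_pos.2 hdet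
  obtain ⟨δ1, hδ1⟩ : ∃ δ1 : ℝ, δ1 = Real.sqrt (δ * D / 8) := ⟨_, rfl⟩
  have hδ10 : 0 < δ1 := by
    rw [hδ1]
    exact Real.sqrt_pos.2 (by positivity)
  have hδ1sq : δ1 ^ 2 = δ * D / 8 := by
    rw [hδ1]
    exact Real.sq_sqrt (by positivity)
  obtain ⟨r, hr, hdich⟩ := cube_dichotomy hdet hrow hδ10
  obtain ⟨C, hC1, hC2⟩ := exists_GF_fa hρ hρ2
  have hδ' : 0 < δ / 10 := by positivity
  have hu1 : ∀ᶠ L : ℕ in atTop, ∀ (a : Fin n) (θ : Fin n → ℝ),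
      |‖TF (fa ρ a 0) (scl c A) b L θ‖ ^ 2 / (L : ℝ) ^ n - DF (fa ρ a 0) (scl c A) b θ| ≤
        δ / 10 :=
    eventually_all.2 fun a => uniform_TF _ (hC2 n a).1 hc A hA hs hrow b hδ'
  have hu2 : ∀ᶠ L : ℕ in atTop, ∀ (a : Fin n) (θ : Fin n → ℝ),
      |‖TF (fa ρ a 1) (scl c A) b L θ‖ ^ 2 / (L : ℝ) ^ n - DF (fa ρ a 1) (scl c A) b θ| ≤
        δ / 10 :=
    eventually_all.2 fun a => uniform_TF _ (hC2 n a).2 hc A hA hs hrow b hδ'
  have hu3 := uniform_TF (fun _ : Fin n => tp ρ) (fun _ => hC1) hc A hA hs hrow b hδ'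
  have hL1 : ∀ᶠ L : ℕ in atTop, 1 / (L : ℝ) ≤ δ1 := by
    have h := tendsto_one_div_atTop_nhds_zero_nat (𝕜 := ℝ)
    exact (h.eventually (gt_mem_nhds hδ10)).mono fun L hL => hL.le
  refine ⟨r, hr, ?_⟩
  filter_upwards [hu1, hu2, hu3, hL1, eventually_ge_atTop 1] with L hu1 hu2 hu3 hL1 hL0 θ₀
  obtain ⟨u0, hu0, hy⟩ := hdich b θ₀
  have hLr : (0 : ℝ) < L := by exact_mod_cast hL0
  have hL1' : 1 / (L : ℝ) ≤ 1 := by
    rw [div_le_one hLr]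
    exact_mod_cast hL0
  have hu01 : ∀ a, 0 ≤ u0 a ∧ u0 a ≤ 1 := by
    intro a
    have h := hu0 a (Set.mem_univ a)
    exact ⟨h.1, h.2⟩
  have hua : ∀ a, 0 ≤ min (u0 a) (1 - 1 / (L : ℝ)) := fun a =>
    le_min (hu01 a).1 (by linarith)
  refine ⟨fun a => min (u0 a) (1 - 1 / (L : ℝ)), fun a => ⟨hua a, ?_⟩, fun θ hθ a => ?_⟩
  · have h1 : min (u0 a) (1 - 1 / (L : ℝ)) ≤ 1 - 1 / (L : ℝ) := min_le_right _ _
    calc (L : ℝ) * min (u0 a) (1 - 1 / (L : ℝ)) ≤ L * (1 - 1 / (L : ℝ)) :=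
          mul_le_mul_of_nonneg_left h1 hLr.le
      _ = L - 1 := by
        field_simp
  · obtain ⟨u, hu⟩ : ∃ u : ℝ, u = min (u0 a) (1 - 1 / (L : ℝ)) := ⟨_, rfl⟩
    beta_reduce
    rw [← hu]
    have hu0' : 0 ≤ u := by
      rw [hu]
      exact hua a
    have hu1' : u ≤ 1 := by
      rw [hu]
      exact (min_le_left _ _).trans (hu01 a).2
    have hu2' : |u0 a - u| ≤ δ1 := by
      rw [hu, abs_le]
      have h1 := (hu01 a).2
      rcases min_choice (u0 a) (1 - 1 / (L : ℝ)) with h | h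
      · rw [h]
        constructor <;> linarith
      · have h2 : min (u0 a) (1 - 1 / (L : ℝ)) ≤ u0 a := min_le_left _ _
        rw [h] at h2 ⊢
        constructor <;> linarith
    have hloc := DF_loc hρ hρ2 hc A hA hs hrow b θ a hu0' hu1' hr
      (δ := 4 * δ1 ^ 2) (by positivity) (fun y hyc => by
        rcases hy θ hθ y hyc with h | h
        · left
          have h1 : |y a - u| ≤ 2 * δ1 := by
            calc |y a - u| = |(y a - u0 a) + (u0 a - u)| := by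
                  congr 1
                  ring
              _ ≤ |y a - u0 a| + |u0 a - u| := abs_add_le _ _
              _ ≤ δ1 + δ1 := add_le_add (h a) hu2'
              _ = 2 * δ1 := by ring
          have h2 : (y a - u) ^ 2 ≤ (2 * δ1) ^ 2 := by
            rw [← sq_abs]
            exact pow_le_pow_left₀ (abs_nonneg _) h1 2
          linarith [h2]
        · exact Or.inr h)
    have hloc2 : 4 * δ1 ^ 2 * (1 / |(scl c A).det|) = δ / 2 := by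
      rw [hδ1sq, ← hD]
      field_simp
      ring
    rw [hloc2] at hloc
    have e1' := abs_le.1 (hu1 a θ)
    have e2' := abs_le.1 (hu2 a θ)
    have e3' := abs_le.1 (hu3 θ)
    rw [G11_add] at e2'
    have e4 : TF (fun _ : Fin n => tp ρ) (scl c A) b L θ = TT ρ (scl c A) b L θ := rfl
    rw [e4] at e3'
    rw [G11_norm]
    obtain ⟨X, hX⟩ : ∃ X : ℝ, X = ‖TF (fa ρ a 0) (scl c A) b L θ‖ ^ 2 / (L : ℝ) ^ n := ⟨_, rfl⟩
    obtain ⟨Z, hZ⟩ : ∃ Z : ℝ, Z = ‖TF (fa ρ a 0) (scl c A) b L θ + TT ρ (scl c A) b L θ‖ ^ 2 /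
      (L : ℝ) ^ n := ⟨_, rfl⟩
    obtain ⟨Y, hY⟩ : ∃ Y : ℝ, Y = ‖TT ρ (scl c A) b L θ‖ ^ 2 / (L : ℝ) ^ n := ⟨_, rfl⟩
    have hLn : (0 : ℝ) < (L : ℝ) ^ n := by positivity
    have hX' : ‖TF (fa ρ a 0) (scl c A) b L θ‖ ^ 2 = X * (L : ℝ) ^ n := by
      rw [hX, div_mul_cancel₀ _ hLn.ne']
    have hZ' : ‖TF (fa ρ a 0) (scl c A) b L θ + TT ρ (scl c A) b L θ‖ ^ 2 =
        Z * (L : ℝ) ^ n := by
      rw [hZ, div_mul_cancel₀ _ hLn.ne']
    have hY' : ‖TT ρ (scl c A) b L θ‖ ^ 2 = Y * (L : ℝ) ^ n := by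
      rw [hY, div_mul_cancel₀ _ hLn.ne']
    rw [← hX] at e1'
    rw [← hZ] at e2'
    rw [← hY] at e3'
    rw [hX', hZ', hY']
    have hfin : (1 + u) * X - u * Z + (u + u ^ 2) * Y ≤ δ := by
      obtain ⟨x, hx⟩ : ∃ x : ℝ, x = DF (fa ρ a 0) (scl c A) b θ := ⟨_, rfl⟩
      obtain ⟨z, hz⟩ : ∃ z : ℝ, z = DF (fa ρ a 1) (scl c A) b θ := ⟨_, rfl⟩
      obtain ⟨y, hyy⟩ : ∃ y : ℝ, y = DF (fun _ => tp ρ) (scl c A) b θ := ⟨_, rfl⟩
      rw [← hx] at e1' hloc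
      rw [← hz] at e2' hloc
      rw [← hyy] at e3' hloc
      have g1 : (1 + u) * (X - x) ≤ 2 * (δ / 10) :=
        (mul_le_mul_of_nonneg_left e1'.2 (by linarith)).trans
          (mul_le_mul_of_nonneg_right (by linarith) hδ'.le)
      have g2 : u * (z - Z) ≤ 1 * (δ / 10) :=
        (mul_le_mul_of_nonneg_left (by linarith [e2'.1] : z - Z ≤ δ / 10) hu0').trans
          (mul_le_mul_of_nonneg_right hu1' hδ'.le)
      have hu2'' : u + u ^ 2 ≤ 2 := by nlinarith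
      have g3 : (u + u ^ 2) * (Y - y) ≤ 2 * (δ / 10) :=
        (mul_le_mul_of_nonneg_left e3'.2 (by positivity)).trans
          (mul_le_mul_of_nonneg_right hu2'' hδ'.le)
      nlinarith
    calc (1 + u) * (X * (L : ℝ) ^ n) - u * (Z * (L : ℝ) ^ n) + (u + u ^ 2) * (Y * (L : ℝ) ^ n) =
        ((1 + u) * X - u * Z + (u + u ^ 2) * Y) * (L : ℝ) ^ n := by ring
      _ ≤ δ * (L : ℝ) ^ n := mul_le_mul_of_nonneg_right hfin hLn.le

end Vale.Agent.P110U
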