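import Vale.Agent.Lib.P110U.GDefs

/-! P110U: module G12a. -/

namespace Vale.Agent.P110U

open MeasureTheory Filter Topology
open scoped ComplexConjugate ENNReal
open Vale.Agent.P110F

/-- the constant part of the phase -/
private noncomputable def cyp {n : ℕ} (H : Matrix (Fin n) (Fin n) ℝ) (b : Fin n → ℝ) (L : ℕ)
    (y : Fin n → Fin L) : ℝ :=
  quad H (fun i => ((y i : ℕ) : ℝ)) / (2 * L) + ∑ i, b i * ((y i : ℕ) : ℝ)

/-- the slope of the phase -/
private noncomputable def syp {n : ℕ} (L : ℕ) (y : Fin n → Fin L) : ℝ :=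
  ∑ i : Fin n, ((4 * L : ℕ) : ℝ) ^ (i : ℕ) * ((y i : ℕ) : ℝ)

/-- the window -/
private noncomputable def wyp {n : ℕ} (ρ : ℝ) (L : ℕ) (y : Fin n → Fin L) : ℝ :=
  ∏ i, tp ρ (((y i : ℕ) : ℝ) / L)

private theorem phase_eq {n : ℕ} (H : Matrix (Fin n) (Fin n) ℝ) (b : Fin n → ℝ) (L : ℕ)
    (y : Fin n → Fin L) (x : ℝ) :
    quad H (fun i => ((y i : ℕ) : ℝ)) / (2 * L) + ∑ i, (b i + kr n L x i) * ((y i : ℕ) : ℝ) =
      cyp H b L y + x * syp L y := by
  unfold cyp syp kr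
  rw [Finset.mul_sum, add_assoc, ← Finset.sum_add_distrib]
  congr 1
  refine Finset.sum_congr rfl fun i _ => ?_
  ring

private theorem TT_eq {n : ℕ} (ρ : ℝ) (H : Matrix (Fin n) (Fin n) ℝ) (b : Fin n → ℝ) (L : ℕ)
    (x : ℝ) : TT ρ H b L (kr n L x) =
      ∑ y : Fin n → Fin L, (wyp ρ L y : ℂ) * e1 (cyp H b L y + x * syp L y) := by
  unfold TT
  refine Finset.sum_congr rfl fun y _ => ?_
  rw [phase_eq]
  rfl

private theorem TF_eq {n : ℕ} (ρ : ℝ) (H : Matrix (Fin n) (Fin n) ℝ) (b : Fin n → ℝ) (L : ℕ)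
    (a : Fin n) (x : ℝ) : TF (fa ρ a 0) H b L (kr n L x) =
      ∑ y : Fin n → Fin L, ((((y a : ℕ) : ℝ) / L * wyp ρ L y : ℝ) : ℂ) *
        e1 (cyp H b L y + x * syp L y) := by
  unfold TF
  refine Finset.sum_congr rfl fun y _ => ?_
  rw [phase_eq]
  have h1 : ∏ i, fa ρ a 0 i (((y i : ℕ) : ℝ) / L) = ((y a : ℕ) : ℝ) / L * wyp ρ L y := by
    unfold fa wyp
    rw [Finset.prod_mul_distrib]
    congr 1
    rw [Finset.prod_ite_eq' Finset.univ a, if_pos (Finset.mem_univ a), zero_add]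
  rw [h1]

private theorem hasDerivAt_e1 (α β x : ℝ) : HasDerivAt (fun x : ℝ => e1 (α + x * β))
    (2 * Real.pi * Complex.I * β * e1 (α + x * β)) x := by
  have h0 : HasDerivAt (fun x : ℝ => α + x * β) β x := by
    have h := ((hasDerivAt_id x).mul_const β).const_add α
    rw [one_mul] at h
    exact h
  have h1 : HasDerivAt (fun x : ℝ => ((α + x * β : ℝ) : ℂ)) ((β : ℝ) : ℂ) x := h0.ofReal_comp
  have h2 := (h1.const_mul (2 * Real.pi * Complex.I : ℂ)).cexp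
  unfold e1
  refine h2.congr_deriv ?_
  ring

private theorem syp_sub {n : ℕ} (L : ℕ) (u : Fin n → ℝ) (base : ℝ) (y : Fin n → Fin L) :
    syp L y + base - (base + ∑ a : Fin n, ((4 * L : ℕ) : ℝ) ^ (a : ℕ) * (L * u a)) =
      ∑ a : Fin n, ((4 * L : ℕ) : ℝ) ^ (a : ℕ) * L * (((y a : ℕ) : ℝ) / L - u a) := by
  unfold syp
  have h0 : ∀ A B : ℝ, A + base - (base + B) = A - B := fun A B => by ring
  rw [h0, ← Finset.sum_sub_distrib]
  refine Finset.sum_congr rfl fun a _ => ?_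
  have hL : (L : ℝ) ≠ 0 := by
    have h1 : 0 < L := lt_of_le_of_lt (Nat.zero_le _) (y a).isLt
    exact_mod_cast h1.ne'
  field_simp

/-- Mean value estimate for one tapered sum along the curve. -/
theorem phase_diff {n : ℕ} (ρ : ℝ) (H : Matrix (Fin n) (Fin n) ℝ) (b : Fin n → ℝ) (L : ℕ)
    (base : ℝ) (u : Fin n → ℝ) {M : ℝ} (x₀ x : ℝ)
    (hM : ∀ y ∈ Set.uIcc x₀ x, ∀ a : Fin n,
      ‖TF (fa ρ a 0) H b L (kr n L y) - (u a : ℂ) * TT ρ H b L (kr n L y)‖ ≤ M) :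
    ‖e1 (base * x) * TT ρ H b L (kr n L x) - e1 (base * x₀) * TT ρ H b L (kr n L x₀) *
      e1 ((base + ∑ a : Fin n, ((4 * L : ℕ) : ℝ) ^ (a : ℕ) * (L * u a)) * (x - x₀))‖ ≤
      2 * Real.pi * (∑ a : Fin n, ((4 * L : ℕ) : ℝ) ^ (a : ℕ) * L) * M * |x - x₀| := by
  obtain ⟨κ, hκ⟩ : ∃ κ : ℝ, κ = base + ∑ a : Fin n, ((4 * L : ℕ) : ℝ) ^ (a : ℕ) * (L * u a) :=
    ⟨_, rfl⟩
  rw [← hκ]
  obtain ⟨F, hF⟩ : ∃ F : ℝ → ℂ, ∀ t, F t = ∑ y : Fin n → Fin L, (wyp ρ L y : ℂ) *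
      e1 ((cyp H b L y + κ * x₀) + t * (syp L y + base - κ)) := ⟨_, fun _ => rfl⟩
  have hF1 : ∀ t, F t = e1 (base * t) * TT ρ H b L (kr n L t) * e1 (-(κ * (t - x₀))) := by
    intro t
    rw [hF, TT_eq, Finset.mul_sum, Finset.sum_mul]
    refine Finset.sum_congr rfl fun y _ => ?_
    have h1 : cyp H b L y + κ * x₀ + t * (syp L y + base - κ) =
        base * t + (cyp H b L y + t * syp L y) + -(κ * (t - x₀)) := by ring
    rw [h1, e1_add, e1_add]
    ring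
  obtain ⟨G, hG⟩ : ∃ G : ℝ → ℂ, ∀ t, G t = ∑ y : Fin n → Fin L, (wyp ρ L y : ℂ) *
      (2 * Real.pi * Complex.I * ((syp L y + base - κ : ℝ) : ℂ) *
        e1 ((cyp H b L y + κ * x₀) + t * (syp L y + base - κ))) := ⟨_, fun _ => rfl⟩
  have hder : ∀ t, HasDerivAt F (G t) t := by
    intro t
    have h1 : F = fun t => ∑ y : Fin n → Fin L, (wyp ρ L y : ℂ) *
      e1 ((cyp H b L y + κ * x₀) + t * (syp L y + base - κ)) := funext hF
    rw [h1, hG]
    refine HasDerivAt.fun_sum fun y _ => ?_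
    exact (hasDerivAt_e1 _ _ t).const_mul _
  have hG1 : ∀ t, G t = 2 * Real.pi * Complex.I * (e1 (base * t) * e1 (-(κ * (t - x₀)))) *
      ∑ a : Fin n, ((((4 * L : ℕ) : ℝ) ^ (a : ℕ) * L : ℝ) : ℂ) *
        (TF (fa ρ a 0) H b L (kr n L t) - (u a : ℂ) * TT ρ H b L (kr n L t)) := by
    intro t
    have h1 : ∑ a : Fin n, ((((4 * L : ℕ) : ℝ) ^ (a : ℕ) * L : ℝ) : ℂ) *
        (TF (fa ρ a 0) H b L (kr n L t) - (u a : ℂ) * TT ρ H b L (kr n L t)) =
        ∑ y : Fin n → Fin L, ((syp L y + base - κ : ℝ) : ℂ) * ((wyp ρ L y : ℂ) *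
          e1 (cyp H b L y + t * syp L y)) := by
      have h2 : ∀ a : Fin n, ((((4 * L : ℕ) : ℝ) ^ (a : ℕ) * L : ℝ) : ℂ) *
        (TF (fa ρ a 0) H b L (kr n L t) - (u a : ℂ) * TT ρ H b L (kr n L t)) =
        ∑ y : Fin n → Fin L, ((((4 * L : ℕ) : ℝ) ^ (a : ℕ) * L *
          (((y a : ℕ) : ℝ) / L - u a) : ℝ) : ℂ) * ((wyp ρ L y : ℂ) *
          e1 (cyp H b L y + t * syp L y)) := by
        intro a
        rw [TF_eq, TT_eq, Finset.mul_sum, ← Finset.sum_sub_distrib, Finset.mul_sum]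
        refine Finset.sum_congr rfl fun y _ => ?_
        push_cast
        ring
      rw [Finset.sum_congr rfl fun a _ => h2 a, Finset.sum_comm]
      refine Finset.sum_congr rfl fun y _ => ?_
      rw [← Finset.sum_mul, ← Complex.ofReal_sum, hκ, syp_sub]
    rw [h1, hG, Finset.mul_sum]
    refine Finset.sum_congr rfl fun y _ => ?_
    have h3 : cyp H b L y + κ * x₀ + t * (syp L y + base - κ) =
        base * t + (cyp H b L y + t * syp L y) + -(κ * (t - x₀)) := by ring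
    rw [h3, e1_add, e1_add]
    ring
  have hbound : ∀ t ∈ Set.uIcc x₀ x, ‖G t‖ ≤
      2 * Real.pi * (∑ a : Fin n, ((4 * L : ℕ) : ℝ) ^ (a : ℕ) * L) * M := by
    intro t ht
    rw [hG1, norm_mul, norm_mul, norm_mul (e1 _), norm_e1, norm_e1, mul_one, mul_one]
    have h1 : ‖(2 * Real.pi * Complex.I : ℂ)‖ = 2 * Real.pi := by
      rw [norm_mul, norm_mul, Complex.norm_I, mul_one, Complex.norm_real,
        Real.norm_of_nonneg Real.pi_pos.le]
      norm_num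
    rw [h1, mul_assoc (2 * Real.pi), Finset.sum_mul]
    refine mul_le_mul_of_nonneg_left ?_ (by positivity)
    refine (norm_sum_le _ _).trans (Finset.sum_le_sum fun a _ => ?_)
    rw [norm_mul, Complex.norm_real, Real.norm_of_nonneg (by positivity)]
    exact mul_le_mul_of_nonneg_left (hM t ht a) (by positivity)
  have hmv := Convex.norm_image_sub_le_of_norm_hasDerivWithin_le
    (f := F) (f' := G) (s := Set.uIcc x₀ x) (x := x₀) (y := x)
    (fun t _ => (hder t).hasDerivWithinAt) hbound (convex_uIcc x₀ x) Set.left_mem_uIcc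
    Set.right_mem_uIcc
  rw [Real.norm_eq_abs] at hmv
  have hfin : e1 (base * x) * TT ρ H b L (kr n L x) - e1 (base * x₀) * TT ρ H b L (kr n L x₀) *
      e1 (κ * (x - x₀)) = (F x - F x₀) * e1 (κ * (x - x₀)) := by
    rw [sub_mul, hF1, hF1]
    have h1 : e1 (-(κ * (x - x₀))) * e1 (κ * (x - x₀)) = 1 := by
      rw [← e1_add, neg_add_cancel, e1_zero]
    have h2 : e1 (-(κ * (x₀ - x₀))) = 1 := by
      rw [sub_self, mul_zero, neg_zero, e1_zero]
    rw [h2, mul_one, mul_assoc (e1 (base * x) * TT ρ H b L (kr n L x)), h1, mul_one]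
  rw [hfin, norm_mul, norm_e1, mul_one]
  exact hmv

end Vale.Agent.P110U
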