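import Vale.Agent.Lib.P110U.GDefs
import Vale.Agent.Lib.P110U.G11
import Vale.Agent.Lib.P110U.G12a

/-! P110U: module G12. -/

namespace Vale.Agent.P110U

open MeasureTheory Filter Topology
open scoped ComplexConjugate ENNReal
open Vale.Agent.P110F

private theorem G12_geom (n L : ℕ) (hL : 1 ≤ L) :
    ∑ a : Fin n, ((4 * L : ℕ) : ℝ) ^ (a : ℕ) * L ≤ ((4 * L : ℕ) : ℝ) ^ n := by
  have hL' : (1 : ℝ) ≤ L := by exact_mod_cast hL
  set q : ℝ := ((4 * L : ℕ) : ℝ) with hq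
  have hq4 : q = 4 * L := by
    rw [hq]
    push_cast
    ring
  rw [← Finset.sum_mul, Fin.sum_univ_eq_sum_range (fun i => q ^ i) n]
  have h1 := geom_sum_mul q n
  have h2 : 0 ≤ ∑ i ∈ Finset.range n, q ^ i := by
    apply Finset.sum_nonneg
    intro i _
    apply pow_nonneg
    linarith
  have h3 : (L : ℝ) ≤ q - 1 := by linarith
  have h4 := mul_le_mul_of_nonneg_left h3 h2
  linarith

private theorem G12_step {q a K R r : ℝ} {n i : ℕ} (hi : i < n) (hq : 1 ≤ q) (hR : 1 ≤ R)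
    (hK : 0 ≤ K) (hr : K / q ≤ r) (ha : |a| ≤ K / (R * q ^ n)) : |q ^ i * a| ≤ r := by
  have hq0 : 0 < q := by linarith
  rw [abs_mul, abs_of_nonneg (by positivity : (0 : ℝ) ≤ q ^ i)]
  refine le_trans (mul_le_mul_of_nonneg_left ha (by positivity)) (le_trans ?_ hr)
  rw [← mul_div_assoc, div_le_div_iff₀ (by positivity) hq0]
  have h1 : q ^ i * q ≤ q ^ n := by
    rw [← pow_succ]
    exact pow_le_pow_right₀ hq hi
  have h2 : q ^ n ≤ R * q ^ n := le_mul_of_one_le_left (by positivity) hR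
  calc q ^ i * K * q = K * (q ^ i * q) := by ring
    _ ≤ K * (R * q ^ n) := mul_le_mul_of_nonneg_left (h1.trans h2) hK

/-- Local purity of one piece along the curve. -/
theorem purity_x {n : ℕ} {ρ : ℝ} (hρ : 0 < ρ) (hρ2 : ρ ≤ 1 / 2) {c : ℝ} (hc : 0 < c)
    (A : Matrix (Fin n) (Fin n) ℤ) (hA : A.det ≠ 0) (hs : A.IsSymm)
    (hrow : ∀ i, ∑ j, |scl c A i j| ≤ 1 / 4) (b : Fin n → ℝ) {δ K : ℝ} (hδ : 0 < δ)
    (hK : 0 < K) :
    ∀ᶠ L : ℕ in atTop, ∀ R : ℕ, 0 < R → ∀ base x₀ : ℝ, ∃ κ : ℝ, base ≤ κ ∧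
      κ ≤ base + ∑ i : Fin n, ((L : ℝ) - 1) * ((4 * L : ℕ) : ℝ) ^ (i : ℕ) ∧
      ∀ x : ℝ, |x - x₀| ≤ K / (R * (4 * L) ^ n : ℕ) →
        ‖e1 (base * x) * TT ρ (scl c A) b L (kr n L x) -
          e1 (base * x₀) * TT ρ (scl c A) b L (kr n L x₀) * e1 (κ * (x - x₀))‖ ≤
          δ * Real.sqrt ((L : ℝ) ^ n) := by
  have hpi := Real.pi_pos
  obtain ⟨r, hr, hev⟩ := purity_piece hρ hρ2 hc A hA hs hrow b
    (δ := (δ / (2 * Real.pi * K)) ^ 2) (by positivity)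
  have hlarge : ∀ᶠ L : ℕ in atTop, K / r ≤ (L : ℝ) :=
    tendsto_natCast_atTop_atTop.eventually_ge_atTop (K / r)
  filter_upwards [hev, hlarge, eventually_ge_atTop 1] with L hL hLr hL1 R hR base x₀
  have hL' : (1 : ℝ) ≤ L := by exact_mod_cast hL1
  have hR' : (1 : ℝ) ≤ R := by exact_mod_cast hR
  obtain ⟨u, hu, hθ⟩ := hL (kr n L x₀)
  have hq1 : (1 : ℝ) ≤ ((4 * L : ℕ) : ℝ) := by
    have : 1 ≤ 4 * L := by omega
    exact_mod_cast this
  have hq0 : (0 : ℝ) < ((4 * L : ℕ) : ℝ) := by linarith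
  have hKq : K / ((4 * L : ℕ) : ℝ) ≤ r := by
    rw [div_le_iff₀ hq0]
    rw [div_le_iff₀ hr] at hLr
    push_cast
    nlinarith
  refine ⟨base + ∑ a : Fin n, ((4 * L : ℕ) : ℝ) ^ (a : ℕ) * (L * u a), ?_, ?_, ?_⟩
  · have h1 : 0 ≤ ∑ a : Fin n, ((4 * L : ℕ) : ℝ) ^ (a : ℕ) * (L * u a) := by
      apply Finset.sum_nonneg
      intro a _
      have := (hu a).1
      positivity
    linarith
  · have h1 : ∑ a : Fin n, ((4 * L : ℕ) : ℝ) ^ (a : ℕ) * (L * u a) ≤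
        ∑ i : Fin n, ((L : ℝ) - 1) * ((4 * L : ℕ) : ℝ) ^ (i : ℕ) := by
      apply Finset.sum_le_sum
      intro a _
      rw [mul_comm ((L : ℝ) - 1)]
      exact mul_le_mul_of_nonneg_left (hu a).2 (by positivity)
    linarith
  · intro x hx
    have hcast : ((R * (4 * L) ^ n : ℕ) : ℝ) = (R : ℝ) * ((4 * L : ℕ) : ℝ) ^ n := by
      push_cast
      ring
    rw [hcast] at hx
    have hM : ∀ y ∈ Set.uIcc x₀ x, ∀ a : Fin n,
        ‖TF (fa ρ a 0) (scl c A) b L (kr n L y) - (u a : ℂ) * TT ρ (scl c A) b L (kr n L y)‖ ≤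
          (δ / (2 * Real.pi * K)) * Real.sqrt ((L : ℝ) ^ n) := by
      intro y hy a
      have hy1 : |y - x₀| ≤ |x - x₀| := Set.abs_sub_left_of_mem_uIcc hy
      have h2 := hθ (kr n L y) (fun i => by
        have h3 : kr n L y i - kr n L x₀ i = ((4 * L : ℕ) : ℝ) ^ (i : ℕ) * (y - x₀) := by
          unfold kr
          ring
        rw [h3]
        exact G12_step i.isLt hq1 hR' hK.le hKq (hy1.trans hx)) a
      have h4 : (δ / (2 * Real.pi * K)) * Real.sqrt ((L : ℝ) ^ n) =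
          Real.sqrt ((δ / (2 * Real.pi * K)) ^ 2 * (L : ℝ) ^ n) := by
        rw [Real.sqrt_mul (by positivity), Real.sqrt_sq (by positivity)]
      rw [h4]
      exact Real.le_sqrt_of_sq_le h2
    have h5 := phase_diff ρ (scl c A) b L base u x₀ x hM
    refine h5.trans ?_
    have h6 := G12_geom n L hL1
    have h7 : (∑ a : Fin n, ((4 * L : ℕ) : ℝ) ^ (a : ℕ) * L) * |x - x₀| ≤ K := by
      refine (mul_le_mul h6 hx (abs_nonneg _) (by positivity)).trans ?_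
      rw [← mul_div_assoc, div_le_iff₀ (by positivity)]
      have h8 : ((4 * L : ℕ) : ℝ) ^ n ≤ (R : ℝ) * ((4 * L : ℕ) : ℝ) ^ n :=
        le_mul_of_one_le_left (by positivity) hR'
      nlinarith
    have h9 : ∀ S W X : ℝ, 2 * Real.pi * S * ((δ / (2 * Real.pi * K)) * W) * X =
        (δ / K * W) * (S * X) := by
      intro S W X
      field_simp
    rw [h9]
    refine (mul_le_mul_of_nonneg_left h7 (by positivity)).trans (le_of_eq ?_)
    field_simp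

end Vale.Agent.P110U
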