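import Vale.Agent.Lib.P110U.Defs

/-! P110U: module S3b. -/

namespace Vale.Agent.P110U

open MeasureTheory Filter Topology
open scoped ComplexConjugate ENNReal
open Vale.Agent.P110F

private theorem S3b_e1_sum {ι : Type} (s : Finset ι) (f : ι → ℝ) :
    e1 (∑ i ∈ s, f i) = ∏ i ∈ s, e1 (f i) := by
  classical
  induction s using Finset.induction_on with
  | empty => simp [e1_zero]
  | insert a s ha ih => rw [Finset.sum_insert ha, Finset.prod_insert ha, e1_add, ih]

private theorem S3b_quad {n : ℕ} (H : Matrix (Fin n) (Fin n) ℝ) (hH : H.IsSymm)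
    (y d : Fin n → ℝ) :
    quad H (fun i => y i + d i) - quad H y = quad H d + 2 * ∑ i, y i * ∑ j, H i j * d j := by
  unfold quad
  have h1 : ∑ i, ∑ j, (y i + d i) * H i j * (y j + d j)
      = (∑ i, ∑ j, y i * H i j * y j) + (∑ i, ∑ j, d i * H i j * d j)
        + (∑ i, ∑ j, y i * H i j * d j) + (∑ i, ∑ j, d i * H i j * y j) := by
    simp only [← Finset.sum_add_distrib]
    refine Finset.sum_congr rfl fun i _ => Finset.sum_congr rfl fun j _ => ?_
    ring
  have h2 : ∑ i, ∑ j, d i * H i j * y j = ∑ i, ∑ j, y i * H i j * d j := by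
    rw [Finset.sum_comm]
    refine Finset.sum_congr rfl fun i _ => Finset.sum_congr rfl fun j _ => ?_
    rw [← hH.apply i j]
    ring
  have h3 : ∑ i, y i * ∑ j, H i j * d j = ∑ i, ∑ j, y i * H i j * d j := by
    refine Finset.sum_congr rfl fun i _ => ?_
    rw [Finset.mul_sum]
    refine Finset.sum_congr rfl fun j _ => ?_
    ring
  rw [h1, h2, h3]
  ring

/-- Product formula. -/
theorem cT_eq_prod {n : ℕ} (ρ : ℝ) (H : Matrix (Fin n) (Fin n) ℝ) (hH : H.IsSymm)
    (b : Fin n → ℝ) {L : ℕ} (hL : 0 < L) (d : Fin n → ℤ) :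
    cT ρ H b L d = e1 (quad H (fun i => (d i : ℝ)) / (2 * L) + ∑ i, b i * (d i : ℝ)) *
      ∏ i, W1 ρ L (d i) (∑ j, H i j * (d j : ℝ)) := by
  have hL' : (L : ℝ) ≠ 0 := by positivity
  unfold W1 cT
  rw [Finset.prod_univ_sum, Finset.mul_sum]
  refine Finset.sum_congr rfl fun y _ => ?_
  rw [Complex.ofReal_prod, Finset.prod_mul_distrib, ← S3b_e1_sum, mul_left_comm, ← e1_add]
  congr 2
  have h := S3b_quad H hH (fun i => (y i : ℝ)) (fun i => (d i : ℝ))
  have h' : quad H (fun i => ((y i + d i : ℤ) : ℝ)) = quad H (fun i => (y i : ℝ) + (d i : ℝ)) := by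
    congr 1
    funext i
    push_cast
    rfl
  rw [h', h]
  have h3 : ∑ i, (∑ j, H i j * (d j : ℝ)) * ((y i : ℝ) / L)
      = (∑ i, (y i : ℝ) * ∑ j, H i j * (d j : ℝ)) / L := by
    rw [Finset.sum_div]
    refine Finset.sum_congr rfl fun i _ => ?_
    ring
  rw [h3]
  field_simp
  ring

end Vale.Agent.P110U
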