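import Vale.Agent.Lib.P110U.Defs
import Vale.Agent.Lib.P110U.S1
import Vale.Agent.Lib.P110U.S3b

/-! P110U: module S4. -/

namespace Vale.Agent.P110U

open MeasureTheory Filter Topology
open scoped ComplexConjugate ENNReal
open Vale.Agent.P110F

private theorem S4_norm_e1 (x : ℝ) : ‖e1 x‖ = 1 := by
  unfold e1
  have h : (2 * Real.pi * Complex.I * x : ℂ) = ((2 * Real.pi * x : ℝ) : ℂ) * Complex.I := by
    push_cast
    ring
  rw [h, Complex.norm_exp_ofReal_mul_I]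

/-- Domination. -/
theorem norm_cT_le {n : ℕ} {ρ : ℝ} (hρ : 0 < ρ) (hρ2 : ρ ≤ 1 / 2) (H : Matrix (Fin n) (Fin n) ℝ)
    (hH : H.IsSymm) (hrow : ∀ i, ∑ j, |H i j| ≤ 1 / 4) (b : Fin n → ℝ) {L : ℕ} (hL : 0 < L)
    (d : Fin n → ℤ) (hd : d ∈ dbox n L) :
    ‖cT ρ H b L d‖ ≤ (L : ℝ) ^ n * wT ρ H d := by
  have hdj : ∀ j, |(d j : ℝ)| ≤ L := by
    intro j
    have h1 := Finset.mem_Ioo.1 (Fintype.mem_piFinset.1 hd j)
    have h2 : -(L : ℝ) < d j := by exact_mod_cast h1.1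
    have h3 : (d j : ℝ) < L := by exact_mod_cast h1.2
    exact abs_le.2 ⟨h2.le, h3.le⟩
  have hL0 : (0 : ℝ) < L := by exact_mod_cast hL
  have ht : ∀ i, |∑ j, H i j * (d j : ℝ)| ≤ (L : ℝ) / 2 := by
    intro i
    calc |∑ j, H i j * (d j : ℝ)| ≤ ∑ j, |H i j * (d j : ℝ)| := Finset.abs_sum_le_sum_abs _ _
      _ ≤ ∑ j, |H i j| * L := by
          refine Finset.sum_le_sum fun j _ => ?_
          rw [abs_mul]
          exact mul_le_mul_of_nonneg_left (hdj j) (abs_nonneg _)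
      _ = (∑ j, |H i j|) * L := by rw [Finset.sum_mul]
      _ ≤ 1 / 4 * L := mul_le_mul_of_nonneg_right (hrow i) hL0.le
      _ ≤ (L : ℝ) / 2 := by linarith
  rw [cT_eq_prod ρ H hH b hL d, norm_mul, S4_norm_e1, one_mul, norm_prod]
  unfold wT
  calc ∏ i, ‖W1 ρ L (d i) (∑ j, H i j * (d j : ℝ))‖
      ≤ ∏ i : Fin n, (L : ℝ) * ((1 / ρ ^ 2) / max 1 ((∑ j, H i j * (d j : ℝ)) ^ 2)) :=
        Finset.prod_le_prod (fun i _ => norm_nonneg _)
          fun i _ => norm_W1_le hρ hρ2 hL (d i) (ht i)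
    _ = (L : ℝ) ^ n * ∏ i, (1 / ρ ^ 2) / max 1 ((∑ j, H i j * (d j : ℝ)) ^ 2) := by
        rw [Finset.prod_mul_distrib, Finset.prod_const, Finset.card_univ, Fintype.card_fin]

end Vale.Agent.P110U
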