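import Vale.Agent.Lib.P110U.Defs
import Vale.Agent.Lib.P110U.S2
import Vale.Agent.Lib.P110U.S3b

/-! P110U: module S6. -/

namespace Vale.Agent.P110U

open MeasureTheory Filter Topology
open scoped ComplexConjugate ENNReal
open Vale.Agent.P110F

theorem tendsto_cT {n : ℕ} {ρ : ℝ} (hρ : 0 < ρ) (hρ2 : ρ ≤ 1 / 2) (H : Matrix (Fin n) (Fin n) ℝ)
    (hH : H.IsSymm) (b : Fin n → ℝ) (d : Fin n → ℤ) :
    Tendsto (fun L : ℕ => cT ρ H b L d / (L : ℂ) ^ n) atTop (𝓝 (gT ρ H b d)) := by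
  have h1 : Tendsto (fun L : ℕ => quad H (fun i => (d i : ℝ)) / (2 * (L : ℝ)) +
      ∑ i, b i * (d i : ℝ)) atTop (𝓝 (0 + ∑ i, b i * (d i : ℝ))) := by
    refine Tendsto.add ?_ tendsto_const_nhds
    have h2 : Tendsto (fun L : ℕ => 2 * (L : ℝ)) atTop atTop :=
      (tendsto_natCast_atTop_atTop).const_mul_atTop (by norm_num)
    exact tendsto_const_nhds.div_atTop h2
  rw [zero_add] at h1
  have h3 := (continuous_e1.tendsto _).comp h1
  have h4 : Tendsto (fun L : ℕ => ∏ i, (W1 ρ L (d i) (∑ j, H i j * (d j : ℝ)) / (L : ℂ))) atTop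
      (𝓝 (∏ i, sT ρ (∑ j, H i j * (d j : ℝ)))) :=
    tendsto_finsetProd _ fun i _ => tendsto_W1 hρ hρ2 _ _
  refine (h3.mul h4).congr' ?_
  filter_upwards [eventually_gt_atTop 0] with L hL
  rw [cT_eq_prod ρ H hH b hL d, Function.comp_apply, Finset.prod_div_distrib]
  simp only [Finset.prod_const, Finset.card_univ, Fintype.card_fin]
  rw [mul_div_assoc]

end Vale.Agent.P110U
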