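import Vale.Agent.Lib.P110U.Defs
import Vale.Agent.Lib.P110U.S3
import Vale.Agent.Lib.P110U.S4
import Vale.Agent.Lib.P110U.S5
import Vale.Agent.Lib.P110U.S6

/-! P110U: module S7. -/

namespace Vale.Agent.P110U

open MeasureTheory Filter Topology
open scoped ComplexConjugate ENNReal
open Vale.Agent.P110F

private lemma S7_wT_nonneg {n : ℕ} (ρ : ℝ) (H : Matrix (Fin n) (Fin n) ℝ) (d : Fin n → ℤ) :
    0 ≤ wT ρ H d := by
  unfold wT
  exact Finset.prod_nonneg fun i _ => by positivity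

private lemma S7_mem_dbox {n : ℕ} (d : Fin n → ℤ) : ∀ᶠ L : ℕ in atTop, d ∈ dbox n L := by
  filter_upwards [eventually_gt_atTop (∑ i, (d i).natAbs)] with L hL
  unfold dbox
  rw [Fintype.mem_piFinset]
  intro i
  have h1 : (d i).natAbs ≤ ∑ i, (d i).natAbs :=
    Finset.single_le_sum (f := fun i => (d i).natAbs) (fun _ _ => Nat.zero_le _)
      (Finset.mem_univ i)
  rw [Finset.mem_Ioo]
  omega

open Classical in
/-- Uniform convergence of the normalised squared modulus. -/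
private lemma S7_main {n : ℕ} {ρ : ℝ} (hρ : 0 < ρ) (hρ2 : ρ ≤ 1 / 2) (H : Matrix (Fin n) (Fin n) ℝ)
    (hH : H.IsSymm) (hsw : Summable fun d : Fin n → ℤ => wT ρ H d)
    (hrow : ∀ i, ∑ j, |H i j| ≤ 1 / 4) (b : Fin n → ℝ) {δ : ℝ} (hδ : 0 < δ) :
    ∀ᶠ L : ℕ in atTop, ∀ θ : Fin n → ℝ,
      |‖TT ρ H b L θ‖ ^ 2 / (L : ℝ) ^ n -
        (∑' d : Fin n → ℤ, gT ρ H b d * e1 (∑ i, (d i : ℝ) * θ i)).re| ≤ δ := by
  set D : ℕ → (Fin n → ℤ) → ℂ := fun L d =>
    if d ∈ dbox n L then cT ρ H b L d / (L : ℂ) ^ n else 0 with hD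
  have hDle : ∀ L : ℕ, 0 < L → ∀ d, ‖D L d‖ ≤ wT ρ H d := by
    intro L hL d
    simp only [hD]
    split_ifs with hd
    · have h1 := norm_cT_le hρ hρ2 H hH hrow b hL d hd
      have hL0 : (0 : ℝ) < (L : ℝ) ^ n := pow_pos (by exact_mod_cast hL) n
      rw [norm_div, norm_pow, Complex.norm_natCast, div_le_iff₀ hL0, mul_comm]
      exact h1
    · rw [norm_zero]
      exact S7_wT_nonneg ρ H d
  have hgle : ∀ d, ‖gT ρ H b d‖ ≤ wT ρ H d := fun d => norm_gT_le hρ hρ2 H b d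
  have hdiff : ∀ L : ℕ, 0 < L → ∀ d, ‖D L d - gT ρ H b d‖ ≤ 2 * wT ρ H d := by
    intro L hL d
    refine (norm_sub_le _ _).trans ?_
    have h1 := hDle L hL d
    have h2 := hgle d
    linarith
  have hlim : Tendsto (fun L : ℕ => ∑' d, ‖D L d - gT ρ H b d‖) atTop (𝓝 (∑' _ : Fin n → ℤ, (0 : ℝ))) := by
    refine tendsto_tsum_of_dominated_convergence (bound := fun d => 2 * wT ρ H d)
      (hsw.mul_left 2) ?_ ?_
    · intro d
      have h1 : Tendsto (fun L : ℕ => D L d) atTop (𝓝 (gT ρ H b d)) := by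
        refine (tendsto_cT hρ hρ2 H hH b d).congr' ?_
        filter_upwards [S7_mem_dbox d] with L hL
        simp only [hD]
        rw [if_pos hL]
      have h2 := (h1.sub_const (gT ρ H b d)).norm
      rwa [sub_self, norm_zero] at h2
    · filter_upwards [eventually_gt_atTop 0] with L hL d
      rw [norm_norm]
      exact hdiff L hL d
  rw [tsum_zero] at hlim
  filter_upwards [hlim.eventually (ge_mem_nhds hδ), eventually_gt_atTop 0] with L hL1 hL0 θ
  have hLpos : (0 : ℝ) < (L : ℝ) ^ n := pow_pos (by exact_mod_cast hL0) n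
  set e : (Fin n → ℤ) → ℂ := fun d => e1 (∑ i, (d i : ℝ) * θ i) with he
  have hen : ∀ d, ‖e d‖ = 1 := fun d => norm_e1 _
  have s1 : Summable fun d => gT ρ H b d * e d := by
    refine Summable.of_norm_bounded hsw fun d => ?_
    rw [norm_mul, hen, mul_one]
    exact hgle d
  have s2 : Summable fun d => D L d * e d := by
    refine Summable.of_norm_bounded hsw fun d => ?_
    rw [norm_mul, hen, mul_one]
    exact hDle L hL0 d
  have s3 : Summable fun d => ‖D L d - gT ρ H b d‖ := by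
    refine Summable.of_nonneg_of_le (fun d => norm_nonneg _) (hdiff L hL0) (hsw.mul_left 2)
  have h1 : ((‖TT ρ H b L θ‖ ^ 2 / (L : ℝ) ^ n : ℝ) : ℂ) = ∑' d, D L d * e d := by
    rw [tsum_eq_sum (s := dbox n L) (fun d hd => by simp only [hD]; rw [if_neg hd, zero_mul])]
    push_cast
    have h2 := normSq_TT ρ hρ hL0 H b θ
    push_cast at h2
    rw [h2, Finset.sum_div]
    refine Finset.sum_congr rfl fun d hd => ?_
    simp only [hD]
    rw [if_pos hd]
    ring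
  have h3 : (‖TT ρ H b L θ‖ ^ 2 / (L : ℝ) ^ n -
        (∑' d : Fin n → ℤ, gT ρ H b d * e d).re) =
      (∑' d, (D L d - gT ρ H b d) * e d).re := by
    have h4 : ∑' d, (D L d - gT ρ H b d) * e d = ∑' d, D L d * e d - ∑' d, gT ρ H b d * e d := by
      rw [← s2.tsum_sub s1]
      refine tsum_congr fun d => ?_
      ring
    rw [h4, ← h1, Complex.sub_re, Complex.ofReal_re]
  rw [h3]
  refine (Complex.abs_re_le_norm _).trans ?_
  have h5 : ‖∑' d, (D L d - gT ρ H b d) * e d‖ ≤ ∑' d, ‖D L d - gT ρ H b d‖ := by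
    refine tsum_of_norm_bounded s3.hasSum fun d => ?_
    rw [norm_mul, hen, mul_one]
  exact h5.trans hL1

/-- Uniform convergence of the normalised squared modulus. -/
theorem uniform_TT {n : ℕ} {ρ : ℝ} (hρ : 0 < ρ) (hρ2 : ρ ≤ 1 / 2) {c : ℝ} (hc : 0 < c)
    (A : Matrix (Fin n) (Fin n) ℤ) (hA : A.det ≠ 0) (hs : A.IsSymm)
    (hrow : ∀ i, ∑ j, |scl c A i j| ≤ 1 / 4) (b : Fin n → ℝ) {δ : ℝ} (hδ : 0 < δ) :
    ∀ᶠ L : ℕ in atTop, ∀ θ : Fin n → ℝ,
      |‖TT ρ (scl c A) b L θ‖ ^ 2 / (L : ℝ) ^ n -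
        (∑' d : Fin n → ℤ, gT ρ (scl c A) b d * e1 (∑ i, (d i : ℝ) * θ i)).re| ≤ δ := by
  have hH : (scl c A).IsSymm := by
    ext i j
    rw [Matrix.transpose_apply]
    unfold scl
    rw [hs.apply]
  exact S7_main hρ hρ2 (scl c A) hH (summable_wT hρ hc A hA) hrow b hδ

end Vale.Agent.P110U
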