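import Vale.Agent.Lib.P110U.Defs
import Vale.Agent.Lib.P110U.S7
import Vale.Agent.Lib.P110U.S8

/-! P110U: module S9. -/

namespace Vale.Agent.P110U

open MeasureTheory Filter Topology
open scoped ComplexConjugate ENNReal
open Vale.Agent.P110F

private theorem S9_eta {n : ℕ} {P : Type} [Fintype P] (H : P → Matrix (Fin n) (Fin n) ℝ)
    (b : P → Fin n → ℝ) (hsep : ∀ p q, p ≠ q → Sep (H p) (b p) (H q) (b q)) :
    ∃ η : ℝ, 0 < η ∧ ∀ p q, p ≠ q → ∀ u ∈ cube n, ∀ u' ∈ cube n, ∃ i, ∀ z : ℤ,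
      η ≤ |(b p i + ∑ j, H p i j * u j) - (b q i + ∑ j, H q i j * u' j) - z| := by
  have h1 : ∀ p q : P, ∀ᶠ η in 𝓝[>] (0 : ℝ), p ≠ q → ∀ u ∈ cube n, ∀ u' ∈ cube n, ∃ i, ∀ z : ℤ,
      η ≤ |(b p i + ∑ j, H p i j * u j) - (b q i + ∑ j, H q i j * u' j) - z| := by
    intro p q
    by_cases hpq : p = q
    · exact Eventually.of_forall fun η h => absurd hpq h
    · obtain ⟨η0, hη0, h⟩ := hsep p q hpq
      filter_upwards [Ioo_mem_nhdsGT hη0] with η hη _ u hu u' hu'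
      obtain ⟨i, hi⟩ := h u hu u' hu'
      exact ⟨i, fun z => hη.2.le.trans (hi z)⟩
  have h2 : ∀ᶠ η in 𝓝[>] (0 : ℝ), ∀ p q : P, p ≠ q → ∀ u ∈ cube n, ∀ u' ∈ cube n, ∃ i, ∀ z : ℤ,
      η ≤ |(b p i + ∑ j, H p i j * u j) - (b q i + ∑ j, H q i j * u' j) - z| := by
    rw [eventually_all]
    intro p
    rw [eventually_all]
    exact fun q => h1 p q
  obtain ⟨η, h3, h4⟩ := (h2.and self_mem_nhdsWithin).exists
  exact ⟨η, h4, h3⟩

private theorem S9_delta {P : Type} [Fintype P] (w : P → ℝ) {K : ℝ} (hK0 : 0 ≤ K)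
    {ε : ℝ} (hε : 0 < ε) :
    ∃ δ : ℝ, 0 < δ ∧ (√(K + (∑ q, |w q|) * δ) + ∑ q, √(w q * δ)) ^ 2 ≤ K + ε := by
  have hcont : Continuous fun δ : ℝ => (√(K + (∑ q, |w q|) * δ) + ∑ q, √(w q * δ)) ^ 2 := by
    fun_prop
  have h0 : (√(K + (∑ q, |w q|) * 0) + ∑ q, √(w q * 0)) ^ 2 < K + ε := by
    simp only [mul_zero, add_zero, Real.sqrt_zero, Finset.sum_const_zero]
    rw [Real.sq_sqrt hK0]
    linarith
  have h1 : ∀ᶠ δ in 𝓝 (0 : ℝ), (√(K + (∑ q, |w q|) * δ) + ∑ q, √(w q * δ)) ^ 2 < K + ε :=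
    hcont.continuousAt.eventually_lt continuousAt_const h0
  obtain ⟨δ, h2, h3⟩ := ((h1.filter_mono nhdsWithin_le_nhds).and
    (self_mem_nhdsWithin : Set.Ioi (0 : ℝ) ∈ 𝓝[>] (0 : ℝ))).exists
  exact ⟨δ, h3, h2.le⟩

/-- The maximum of the sum over all pieces. -/
theorem sup_bound {n : ℕ} {P : Type} [Fintype P] [DecidableEq P] {ρ : ℝ} (hρ : 0 < ρ)
    (hρ2 : ρ ≤ 1 / 2) {c : ℝ} (hc : 0 < c) (A : P → Matrix (Fin n) (Fin n) ℤ)
    (hA : ∀ p, (A p).det ≠ 0) (hs : ∀ p, (A p).IsSymm)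
    (hrow : ∀ p, ∀ i, ∑ j, |scl c (A p) i j| ≤ 1 / 4) (b : P → Fin n → ℝ)
    (hsep : ∀ p q, p ≠ q → Sep (scl c (A p)) (b p) (scl c (A q)) (b q))
    (w : P → ℝ) {K : ℝ} (hK0 : 0 ≤ K) (hK : ∀ p, w p ≤ K * (c ^ n * |((A p).det : ℝ)|))
    {ε : ℝ} (hε : 0 < ε) :
    ∀ᶠ L : ℕ in atTop, ∀ (θ : Fin n → ℝ) (γ : P → ℂ), (∀ p, ‖γ p‖ ^ 2 = w p) →
      ‖∑ p, γ p * TT ρ (scl c (A p)) (b p) L θ‖ ^ 2 ≤ (K + ε) * (L : ℝ) ^ n := by
  classical
  obtain ⟨η, hη0, hη⟩ := S9_eta (fun p => scl c (A p)) b hsep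
  obtain ⟨δ, hδ0, hδ⟩ := S9_delta w hK0 hε
  have hall : ∀ᶠ L : ℕ in atTop, ∀ p : P, ∀ θ : Fin n → ℝ,
      |‖TT ρ (scl c (A p)) (b p) L θ‖ ^ 2 / (L : ℝ) ^ n -
        (∑' d : Fin n → ℤ, gT ρ (scl c (A p)) (b p) d * e1 (∑ i, (d i : ℝ) * θ i)).re| ≤ δ := by
    rw [eventually_all]
    exact fun p => uniform_TT hρ hρ2 hc (A p) (hA p) (hs p) (hrow p) (b p) hδ0
  filter_upwards [hall, eventually_gt_atTop 0] with L hL hL0 θ γ hγ
  have hLn : (0 : ℝ) < (L : ℝ) ^ n := by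
    have : (0 : ℝ) < L := by exact_mod_cast hL0
    positivity
  let special : P → Prop := fun p => ∃ u ∈ cube n, ∀ i, ∃ z : ℤ,
    |b p i + ∑ j, scl c (A p) i j * u j + θ i - z| < η / 2
  have huniq : ∀ p q, special p → special q → p = q := by
    intro p q hp hq
    by_contra hpq
    obtain ⟨u, hu, h1⟩ := hp
    obtain ⟨u', hu', h2⟩ := hq
    obtain ⟨i, hi⟩ := hη p q hpq u hu u' hu'
    obtain ⟨z1, hz1⟩ := h1 i
    obtain ⟨z2, hz2⟩ := h2 i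
    have h3 := hi (z1 - z2)
    push_cast at h3
    have h4 : (b p i + ∑ j, scl c (A p) i j * u j) - (b q i + ∑ j, scl c (A q) i j * u' j) -
        ((z1 : ℝ) - z2) = (b p i + ∑ j, scl c (A p) i j * u j + θ i - z1) -
        (b q i + ∑ j, scl c (A q) i j * u' j + θ i - z2) := by ring
    rw [h4] at h3
    have h5 := abs_sub (b p i + ∑ j, scl c (A p) i j * u j + θ i - z1)
      (b q i + ∑ j, scl c (A q) i j * u' j + θ i - z2)
    linarith
  have hw0 : ∀ p, 0 ≤ w p := fun p => by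
    rw [← hγ p]
    positivity
  have hTT : ∀ p, ‖TT ρ (scl c (A p)) (b p) L θ‖ ^ 2 ≤
      ((∑' d : Fin n → ℤ, gT ρ (scl c (A p)) (b p) d * e1 (∑ i, (d i : ℝ) * θ i)).re + δ) *
        (L : ℝ) ^ n := by
    intro p
    have h1 := (abs_le.1 (hL p θ)).2
    rw [← div_le_iff₀ hLn]
    linarith
  have hnon : ∀ p, ¬ special p → ‖γ p * TT ρ (scl c (A p)) (b p) L θ‖ ≤
      √((L : ℝ) ^ n) * √(w p * δ) := by
    intro p hp
    have h1 : (∑' d : Fin n → ℤ, gT ρ (scl c (A p)) (b p) d *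
        e1 (∑ i, (d i : ℝ) * θ i)).re ≤ 0 := by
      refine gT_sep hρ hρ2 hc (A p) (hA p) (hs p) (hrow p) (b p) θ (half_pos hη0) fun u hu => ?_
      by_contra hcon
      push Not at hcon
      exact hp ⟨u, hu, hcon⟩
    have h2 := hTT p
    rw [← Real.sqrt_mul hLn.le]
    refine Real.le_sqrt_of_sq_le ?_
    rw [norm_mul, mul_pow, hγ p]
    have h3 : ‖TT ρ (scl c (A p)) (b p) L θ‖ ^ 2 ≤ δ * (L : ℝ) ^ n :=
      h2.trans (mul_le_mul_of_nonneg_right (by linarith) hLn.le)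
    calc w p * ‖TT ρ (scl c (A p)) (b p) L θ‖ ^ 2 ≤ w p * (δ * (L : ℝ) ^ n) :=
          mul_le_mul_of_nonneg_left h3 (hw0 p)
      _ = (L : ℝ) ^ n * (w p * δ) := by ring
  have hgen : ∀ p, ‖γ p * TT ρ (scl c (A p)) (b p) L θ‖ ≤
      √((L : ℝ) ^ n) * √(K + (∑ q, |w q|) * δ) := by
    intro p
    have h1 := gT_le hρ hρ2 hc (A p) (hA p) (hs p) (hrow p) (b p) θ
    have h2 := hTT p
    have hdet : 0 < |((A p).det : ℝ)| := abs_pos.2 (by exact_mod_cast hA p)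
    have hcd : 0 < c ^ n * |((A p).det : ℝ)| := by positivity
    have hwK : w p * (1 / (c ^ n * |((A p).det : ℝ)|)) ≤ K := by
      rw [mul_one_div, div_le_iff₀ hcd]
      exact hK p
    have hwW : w p ≤ ∑ q, |w q| := (le_abs_self _).trans
      (Finset.single_le_sum (f := fun q => |w q|) (fun _ _ => abs_nonneg _) (Finset.mem_univ p))
    rw [← Real.sqrt_mul hLn.le]
    refine Real.le_sqrt_of_sq_le ?_
    rw [norm_mul, mul_pow, hγ p]
    calc w p * ‖TT ρ (scl c (A p)) (b p) L θ‖ ^ 2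
        ≤ w p * ((1 / (c ^ n * |((A p).det : ℝ)|) + δ) * (L : ℝ) ^ n) := by
          refine mul_le_mul_of_nonneg_left (h2.trans ?_) (hw0 p)
          exact mul_le_mul_of_nonneg_right (by linarith) hLn.le
      _ = (L : ℝ) ^ n * (w p * (1 / (c ^ n * |((A p).det : ℝ)|)) + w p * δ) := by ring
      _ ≤ (L : ℝ) ^ n * (K + (∑ q, |w q|) * δ) := by
          refine mul_le_mul_of_nonneg_left (add_le_add hwK ?_) hLn.le
          exact mul_le_mul_of_nonneg_right hwW hδ0.le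
  have hterm : ∀ p, ‖γ p * TT ρ (scl c (A p)) (b p) L θ‖ ≤
      √((L : ℝ) ^ n) * √(w p * δ) +
        (if special p then √((L : ℝ) ^ n) * √(K + (∑ q, |w q|) * δ) else 0) := by
    intro p
    by_cases hp : special p
    · rw [if_pos hp]
      have h1 : 0 ≤ √((L : ℝ) ^ n) * √(w p * δ) := by positivity
      linarith [hgen p]
    · rw [if_neg hp, add_zero]
      exact hnon p hp
  have hsum : ‖∑ p, γ p * TT ρ (scl c (A p)) (b p) L θ‖ ≤
      √((L : ℝ) ^ n) * (√(K + (∑ q, |w q|) * δ) + ∑ q, √(w q * δ)) := by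
    have hX : 0 ≤ √((L : ℝ) ^ n) * √(K + (∑ q, |w q|) * δ) := by positivity
    calc ‖∑ p, γ p * TT ρ (scl c (A p)) (b p) L θ‖
        ≤ ∑ p, ‖γ p * TT ρ (scl c (A p)) (b p) L θ‖ := norm_sum_le _ _
      _ ≤ ∑ p, (√((L : ℝ) ^ n) * √(w p * δ) +
          (if special p then √((L : ℝ) ^ n) * √(K + (∑ q, |w q|) * δ) else 0)) :=
          Finset.sum_le_sum fun p _ => hterm p
      _ = √((L : ℝ) ^ n) * ∑ p, √(w p * δ) +
          ∑ p, (if special p then √((L : ℝ) ^ n) * √(K + (∑ q, |w q|) * δ) else 0) := by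
          rw [Finset.sum_add_distrib, Finset.mul_sum]
      _ ≤ √((L : ℝ) ^ n) * ∑ p, √(w p * δ) + √((L : ℝ) ^ n) * √(K + (∑ q, |w q|) * δ) := by
          refine add_le_add le_rfl ?_
          rw [← Finset.sum_filter, Finset.sum_const, nsmul_eq_mul]
          have hcard : (Finset.univ.filter special).card ≤ 1 := by
            rw [Finset.card_le_one]
            intro p hp q hq
            exact huniq p q (Finset.mem_filter.1 hp).2 (Finset.mem_filter.1 hq).2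
          have hcard' : ((Finset.univ.filter special).card : ℝ) ≤ 1 := by exact_mod_cast hcard
          calc _ ≤ 1 * (√((L : ℝ) ^ n) * √(K + (∑ q, |w q|) * δ)) :=
                mul_le_mul_of_nonneg_right hcard' hX
            _ = _ := one_mul _
      _ = √((L : ℝ) ^ n) * (√(K + (∑ q, |w q|) * δ) + ∑ q, √(w q * δ)) := by ring
  calc ‖∑ p, γ p * TT ρ (scl c (A p)) (b p) L θ‖ ^ 2
      ≤ (√((L : ℝ) ^ n) * (√(K + (∑ q, |w q|) * δ) + ∑ q, √(w q * δ))) ^ 2 :=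
        pow_le_pow_left₀ (norm_nonneg _) hsum 2
    _ = (√(K + (∑ q, |w q|) * δ) + ∑ q, √(w q * δ)) ^ 2 * (L : ℝ) ^ n := by
        rw [mul_pow, Real.sq_sqrt hLn.le, mul_comm]
    _ ≤ (K + ε) * (L : ℝ) ^ n := mul_le_mul_of_nonneg_right hδ hLn.le

end Vale.Agent.P110U
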