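import Vale.Agent.Lib.P110U.GDefs
import Vale.Agent.Lib.P110U.G12
import Vale.Agent.Lib.P110U.S7
import Vale.Agent.Lib.P110U.S8
import Vale.Agent.Lib.P110U.S9

/-! P110U: module G13. -/

namespace Vale.Agent.P110U

open MeasureTheory Filter Topology
open scoped ComplexConjugate ENNReal
open Vale.Agent.P110F

private theorem G13_eta {n : ℕ} {P : Type} [Fintype P] (H : P → Matrix (Fin n) (Fin n) ℝ)
    (b : P → Fin n → ℝ) (hsep : ∀ p q, p ≠ q → Sep (H p) (b p) (H q) (b q)) :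
    ∃ η : ℝ, 0 < η ∧ ∀ p q, p ≠ q → ∀ u ∈ cube n, ∀ u' ∈ cube n, ∃ i, ∀ z : ℤ,
      η ≤ |(b p i + ∑ j, H p i j * u j) - (b q i + ∑ j, H q i j * u' j) - z| := by
  have h1 : ∀ p q : P, ∀ᶠ η in 𝓝[>] (0 : ℝ), p ≠ q → ∀ u ∈ cube n, ∀ u' ∈ cube n, ∃ i, ∀ z : ℤ,
      η ≤ |(b p i + ∑ j, H p i j * u j) - (b q i + ∑ j, H q i j * u' j) - z| := by
    intro p q
    by_cases hpq : p = q
    · exact Eventually.of_forall fun η h => absurd hpq h
    · obtain ⟨η0, hη0, h⟩ := hsep p q hpq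
      filter_upwards [Ioo_mem_nhdsGT hη0] with η hη _ u hu u' hu'
      obtain ⟨i, hi⟩ := h u hu u' hu'
      exact ⟨i, fun z => hη.2.le.trans (hi z)⟩
  have h2 : ∀ᶠ η in 𝓝[>] (0 : ℝ), ∀ p q : P, p ≠ q → ∀ u ∈ cube n, ∀ u' ∈ cube n, ∃ i, ∀ z : ℤ,
      η ≤ |(b p i + ∑ j, H p i j * u j) - (b q i + ∑ j, H q i j * u' j) - z| := by
    rw [eventually_all]
    intro p
    rw [eventually_all]
    exact fun q => h1 p q
  obtain ⟨η, h3, h4⟩ := (h2.and self_mem_nhdsWithin).exists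
  exact ⟨η, h4, h3⟩

private theorem G13_kr {n L R : ℕ} (hL : 0 < L) (hR : 0 < R) {K x x₀ : ℝ} (hK : 0 ≤ K)
    (hx : |x - x₀| ≤ K / (R * (4 * L) ^ n : ℕ)) (i : Fin n) :
    |kr n L x i - kr n L x₀ i| ≤ K / ((4 * L : ℕ) : ℝ) := by
  have h4L : (1 : ℝ) ≤ ((4 * L : ℕ) : ℝ) := by exact_mod_cast (by omega : 1 ≤ 4 * L)
  have h4L0 : (0 : ℝ) < ((4 * L : ℕ) : ℝ) := by linarith
  have hR1 : (1 : ℝ) ≤ (R : ℝ) := by exact_mod_cast hR
  have hpow : ((4 * L : ℕ) : ℝ) ^ (i : ℕ) * ((4 * L : ℕ) : ℝ) ≤ ((4 * L : ℕ) : ℝ) ^ n := by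
    rw [← pow_succ]
    exact pow_le_pow_right₀ h4L i.2
  have hDe : ((R * (4 * L) ^ n : ℕ) : ℝ) = R * ((4 * L : ℕ) : ℝ) ^ n := by push_cast; ring
  have hD : (0 : ℝ) < ((R * (4 * L) ^ n : ℕ) : ℝ) := by
    rw [hDe]
    positivity
  have h1 : kr n L x i - kr n L x₀ i = ((4 * L : ℕ) : ℝ) ^ (i : ℕ) * (x - x₀) := by
    unfold kr
    ring
  rw [h1, abs_mul, abs_of_nonneg (by positivity : (0 : ℝ) ≤ ((4 * L : ℕ) : ℝ) ^ (i : ℕ))]
  refine (mul_le_mul_of_nonneg_left hx (by positivity)).trans ?_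
  rw [← mul_div_assoc, div_le_div_iff₀ hD h4L0, hDe]
  calc ((4 * L : ℕ) : ℝ) ^ (i : ℕ) * K * ((4 * L : ℕ) : ℝ)
      = K * (((4 * L : ℕ) : ℝ) ^ (i : ℕ) * ((4 * L : ℕ) : ℝ)) := by ring
    _ ≤ K * ((4 * L : ℕ) : ℝ) ^ n := mul_le_mul_of_nonneg_left hpow hK
    _ ≤ K * (R * ((4 * L : ℕ) : ℝ) ^ n) := by
        refine mul_le_mul_of_nonneg_left ?_ hK
        exact le_mul_of_one_le_left (by positivity) hR1

/-- Local purity of a separated family. -/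
theorem family_pure {n : ℕ} {P : Type} [Fintype P] [DecidableEq P] {ρ : ℝ} (hρ : 0 < ρ)
    (hρ2 : ρ ≤ 1 / 2) {c : ℝ} (hc : 0 < c) (A : P → Matrix (Fin n) (Fin n) ℤ)
    (hA : ∀ p, (A p).det ≠ 0) (hs : ∀ p, (A p).IsSymm)
    (hrow : ∀ p, ∀ i, ∑ j, |scl c (A p) i j| ≤ 1 / 4) (b : P → Fin n → ℝ)
    (hsep : ∀ p q, p ≠ q → Sep (scl c (A p)) (b p) (scl c (A q)) (b q))
    (w : P → ℝ) {δ K : ℝ} (hδ : 0 < δ) (hK : 0 < K) :
    ∀ᶠ L : ℕ in atTop, ∀ γ : P → ℂ, (∀ p, ‖γ p‖ ≤ w p) → ∀ R : ℕ, 0 < R → ∀ base : P → ℝ,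
      (∀ p, 0 ≤ base p ∧ base p + ∑ i : Fin n, ((L : ℝ) - 1) * ((4 * L : ℕ) : ℝ) ^ (i : ℕ) ≤
        (R * (4 * L) ^ n : ℕ)) →
      ∀ x₀ : ℝ, ∃ κ : ℝ, 0 ≤ κ ∧ κ ≤ (R * (4 * L) ^ n : ℕ) ∧
      ∀ x : ℝ, |x - x₀| ≤ K / (R * (4 * L) ^ n : ℕ) →
        ‖(∑ p, γ p * e1 (base p * x) * TT ρ (scl c (A p)) (b p) L (kr n L x)) -
          (∑ p, γ p * e1 (base p * x₀) * TT ρ (scl c (A p)) (b p) L (kr n L x₀)) *
            e1 (κ * (x - x₀))‖ ≤ δ * Real.sqrt ((L : ℝ) ^ n) := by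
  classical
  obtain ⟨η, hη0, hη⟩ := G13_eta (fun p => scl c (A p)) b hsep
  set G : ℝ := 1 + ∑ p, |w p| with hG
  have hG0 : 0 < G := by
    have : 0 ≤ ∑ p, |w p| := Finset.sum_nonneg fun p _ => abs_nonneg _
    linarith
  set δ1 : ℝ := δ / (2 * G) with hδ1
  have hδ10 : 0 < δ1 := by positivity
  have hunif : ∀ᶠ L : ℕ in atTop, ∀ p : P, ∀ θ : Fin n → ℝ,
      |‖TT ρ (scl c (A p)) (b p) L θ‖ ^ 2 / (L : ℝ) ^ n -
        (∑' d : Fin n → ℤ, gT ρ (scl c (A p)) (b p) d * e1 (∑ i, (d i : ℝ) * θ i)).re| ≤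
          δ1 ^ 2 := by
    rw [eventually_all]
    exact fun p => uniform_TT hρ hρ2 hc (A p) (hA p) (hs p) (hrow p) (b p) (by positivity)
  have hpure : ∀ᶠ L : ℕ in atTop, ∀ p : P, ∀ R : ℕ, 0 < R → ∀ base x₀ : ℝ, ∃ κ : ℝ, base ≤ κ ∧
      κ ≤ base + ∑ i : Fin n, ((L : ℝ) - 1) * ((4 * L : ℕ) : ℝ) ^ (i : ℕ) ∧
      ∀ x : ℝ, |x - x₀| ≤ K / (R * (4 * L) ^ n : ℕ) →
        ‖e1 (base * x) * TT ρ (scl c (A p)) (b p) L (kr n L x) -
          e1 (base * x₀) * TT ρ (scl c (A p)) (b p) L (kr n L x₀) * e1 (κ * (x - x₀))‖ ≤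
          δ1 * Real.sqrt ((L : ℝ) ^ n) := by
    rw [eventually_all]
    exact fun p => purity_x hρ hρ2 hc (A p) (hA p) (hs p) (hrow p) (b p) hδ10 hK
  filter_upwards [hunif, hpure, eventually_gt_atTop 0,
    eventually_ge_atTop (Nat.ceil (3 * K / η))] with L hL hP hL0 hLK γ hγ R hR base hbase x₀
  have hLr : (0 : ℝ) < L := by exact_mod_cast hL0
  have hLn : (0 : ℝ) < (L : ℝ) ^ n := by positivity
  have hKL : K / ((4 * L : ℕ) : ℝ) ≤ η / 12 := by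
    have h1 : 3 * K / η ≤ L := (Nat.le_ceil _).trans (by exact_mod_cast hLK)
    rw [div_le_iff₀ hη0] at h1
    rw [div_le_iff₀ (by push_cast; positivity)]
    push_cast
    linarith
  let special : P → Prop := fun p => ∃ u ∈ cube n, ∀ i, ∃ z : ℤ,
    |b p i + ∑ j, scl c (A p) i j * u j + kr n L x₀ i - z| < η / 3
  have huniq : ∀ p q, special p → special q → p = q := by
    intro p q hp hq
    by_contra hpq
    obtain ⟨u, hu, h1⟩ := hp
    obtain ⟨u', hu', h2⟩ := hq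
    obtain ⟨i, hi⟩ := hη p q hpq u hu u' hu'
    obtain ⟨z1, hz1⟩ := h1 i
    obtain ⟨z2, hz2⟩ := h2 i
    have h3 := hi (z1 - z2)
    push_cast at h3
    have h4 : (b p i + ∑ j, scl c (A p) i j * u j) - (b q i + ∑ j, scl c (A q) i j * u' j) -
        ((z1 : ℝ) - z2) = (b p i + ∑ j, scl c (A p) i j * u j + kr n L x₀ i - z1) -
        (b q i + ∑ j, scl c (A q) i j * u' j + kr n L x₀ i - z2) := by ring
    rw [h4] at h3
    have h5 := abs_sub (b p i + ∑ j, scl c (A p) i j * u j + kr n L x₀ i - z1)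
      (b q i + ∑ j, scl c (A q) i j * u' j + kr n L x₀ i - z2)
    linarith
  have hsmall : ∀ p, ¬ special p → ∀ x, |x - x₀| ≤ K / (R * (4 * L) ^ n : ℕ) →
      ‖TT ρ (scl c (A p)) (b p) L (kr n L x)‖ ≤ δ1 * Real.sqrt ((L : ℝ) ^ n) := by
    intro p hp x hx
    have h1 : (∑' d : Fin n → ℤ, gT ρ (scl c (A p)) (b p) d *
        e1 (∑ i, (d i : ℝ) * kr n L x i)).re ≤ 0 := by
      refine gT_sep hρ hρ2 hc (A p) (hA p) (hs p) (hrow p) (b p) (kr n L x)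
        (show 0 < η / 4 by positivity) fun u hu => ?_
      by_contra hcon
      push Not at hcon
      refine hp ⟨u, hu, fun i => ?_⟩
      obtain ⟨z, hz⟩ := hcon i
      refine ⟨z, ?_⟩
      have h2 := (G13_kr hL0 hR hK.le hx i).trans hKL
      have h3 : b p i + ∑ j, scl c (A p) i j * u j + kr n L x₀ i - z =
          (b p i + ∑ j, scl c (A p) i j * u j + kr n L x i - z) -
          (kr n L x i - kr n L x₀ i) := by ring
      rw [h3]
      have h5 := abs_sub (b p i + ∑ j, scl c (A p) i j * u j + kr n L x i - z)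
        (kr n L x i - kr n L x₀ i)
      linarith
    have h2 := (abs_le.1 (hL p (kr n L x))).2
    have h3 : ‖TT ρ (scl c (A p)) (b p) L (kr n L x)‖ ^ 2 / (L : ℝ) ^ n ≤ δ1 ^ 2 := by linarith
    rw [div_le_iff₀ hLn] at h3
    have h4 : (δ1 * Real.sqrt ((L : ℝ) ^ n)) ^ 2 = δ1 ^ 2 * (L : ℝ) ^ n := by
      rw [mul_pow, Real.sq_sqrt hLn.le]
    refine le_of_sq_le_sq ?_ (by positivity)
    rw [h4]
    exact h3
  have hx0 : |x₀ - x₀| ≤ K / (R * (4 * L) ^ n : ℕ) := by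
    rw [sub_self, abs_zero]
    positivity
  have hsq0 : 0 ≤ Real.sqrt ((L : ℝ) ^ n) := Real.sqrt_nonneg _
  -- the bound for one piece implies the bound for the sum
  have hfin : ∀ κ : ℝ, (∀ p, ∀ x, |x - x₀| ≤ K / (R * (4 * L) ^ n : ℕ) →
      ‖e1 (base p * x) * TT ρ (scl c (A p)) (b p) L (kr n L x) -
        e1 (base p * x₀) * TT ρ (scl c (A p)) (b p) L (kr n L x₀) * e1 (κ * (x - x₀))‖ ≤
        2 * δ1 * Real.sqrt ((L : ℝ) ^ n)) →
      ∀ x : ℝ, |x - x₀| ≤ K / (R * (4 * L) ^ n : ℕ) →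
        ‖(∑ p, γ p * e1 (base p * x) * TT ρ (scl c (A p)) (b p) L (kr n L x)) -
          (∑ p, γ p * e1 (base p * x₀) * TT ρ (scl c (A p)) (b p) L (kr n L x₀)) *
            e1 (κ * (x - x₀))‖ ≤ δ * Real.sqrt ((L : ℝ) ^ n) := by
    intro κ hκ x hx
    rw [Finset.sum_mul, ← Finset.sum_sub_distrib]
    calc ‖∑ p, (γ p * e1 (base p * x) * TT ρ (scl c (A p)) (b p) L (kr n L x) -
          γ p * e1 (base p * x₀) * TT ρ (scl c (A p)) (b p) L (kr n L x₀) *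
            e1 (κ * (x - x₀)))‖
        ≤ ∑ p, ‖γ p * e1 (base p * x) * TT ρ (scl c (A p)) (b p) L (kr n L x) -
          γ p * e1 (base p * x₀) * TT ρ (scl c (A p)) (b p) L (kr n L x₀) *
            e1 (κ * (x - x₀))‖ := norm_sum_le _ _
      _ ≤ ∑ p, ‖γ p‖ * (2 * δ1 * Real.sqrt ((L : ℝ) ^ n)) := by
          refine Finset.sum_le_sum fun p _ => ?_
          have h1 : γ p * e1 (base p * x) * TT ρ (scl c (A p)) (b p) L (kr n L x) -
              γ p * e1 (base p * x₀) * TT ρ (scl c (A p)) (b p) L (kr n L x₀) *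
                e1 (κ * (x - x₀)) =
              γ p * (e1 (base p * x) * TT ρ (scl c (A p)) (b p) L (kr n L x) -
                e1 (base p * x₀) * TT ρ (scl c (A p)) (b p) L (kr n L x₀) *
                  e1 (κ * (x - x₀))) := by ring
          rw [h1, norm_mul]
          exact mul_le_mul_of_nonneg_left (hκ p x hx) (norm_nonneg _)
      _ = (∑ p, ‖γ p‖) * (2 * δ1) * Real.sqrt ((L : ℝ) ^ n) := by
          rw [← Finset.sum_mul]
          ring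
      _ ≤ G * (2 * δ1) * Real.sqrt ((L : ℝ) ^ n) := by
          refine mul_le_mul_of_nonneg_right (mul_le_mul_of_nonneg_right ?_ (by positivity)) hsq0
          rw [hG]
          have h9 : ∑ p, ‖γ p‖ ≤ ∑ p, |w p| := Finset.sum_le_sum fun p _ =>
            (hγ p).trans (le_abs_self _)
          linarith
      _ = δ * Real.sqrt ((L : ℝ) ^ n) := by
          rw [hδ1]
          field_simp
  have hnons : ∀ p, ¬ special p → ∀ κ x : ℝ, |x - x₀| ≤ K / (R * (4 * L) ^ n : ℕ) →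
      ‖e1 (base p * x) * TT ρ (scl c (A p)) (b p) L (kr n L x) -
        e1 (base p * x₀) * TT ρ (scl c (A p)) (b p) L (kr n L x₀) * e1 (κ * (x - x₀))‖ ≤
        2 * δ1 * Real.sqrt ((L : ℝ) ^ n) := by
    intro p hp κ x hx
    refine (norm_sub_le _ _).trans ?_
    rw [norm_mul, norm_mul, norm_mul, norm_e1, norm_e1, norm_e1, one_mul, one_mul, mul_one]
    have h1 := hsmall p hp x hx
    have h2 := hsmall p hp x₀ hx0
    linarith
  by_cases hex : ∃ p, special p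
  · obtain ⟨p0, hp0⟩ := hex
    obtain ⟨κ, hκ1, hκ2, hκ3⟩ := hP p0 R hR (base p0) x₀
    refine ⟨κ, (hbase p0).1.trans hκ1, hκ2.trans (hbase p0).2, hfin κ fun p x hx => ?_⟩
    by_cases hp : special p
    · rw [huniq p p0 hp hp0]
      refine (hκ3 x hx).trans ?_
      have : 0 ≤ δ1 * Real.sqrt ((L : ℝ) ^ n) := by positivity
      linarith
    · exact hnons p hp κ x hx
  · refine ⟨0, le_rfl, Nat.cast_nonneg _, hfin 0 fun p x hx => ?_⟩
    exact hnons p (fun hp => hex ⟨p, hp⟩) 0 x hx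

end Vale.Agent.P110U
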