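import Vale.Agent.Lib.P110U.Defs

/-!
P110U: definitions for tapered sums with general windows (local purity).
-/

namespace Vale.Agent.P110U

open MeasureTheory
open scoped ComplexConjugate
open Vale.Agent.P110F

/-- Admissible one dimensional windows. -/
structure GF (C : ℝ) (f : ℝ → ℝ) : Prop where
  pos : 0 < C
  zero : ∀ u, (u ≤ 0 ∨ 1 ≤ u) → f u = 0
  bd : ∀ u, |f u| ≤ C
  lip : ∀ u v, |f u - f v| ≤ C * |u - v|
  sd : ∀ L : ℕ, 0 < L → ∀ A B : ℤ, ∑ y ∈ Finset.Ico A B, |f (((y : ℝ) + 1) / L) -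
    2 * f ((y : ℝ) / L) + f (((y : ℝ) - 1) / L)| ≤ C / L

/-- The one dimensional correlation sum of a window. -/
noncomputable def WF (f : ℝ → ℝ) (L : ℕ) (d : ℤ) (t : ℝ) : ℂ :=
  ∑ y ∈ Finset.Ico (0 : ℤ) L, ((f ((y : ℝ) / L) * f (((y + d : ℤ) : ℝ) / L) : ℝ) : ℂ) *
    e1 (t * ((y : ℝ) / L))

/-- Its limit. -/
noncomputable def sF (f : ℝ → ℝ) (t : ℝ) : ℂ := ∫ u in (0 : ℝ)..1, ((f u ^ 2 : ℝ) : ℂ) * e1 (t * u)

/-- The quadratic exponential sum with a product window. -/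
noncomputable def TF {n : ℕ} (f : Fin n → ℝ → ℝ) (H : Matrix (Fin n) (Fin n) ℝ) (b : Fin n → ℝ)
    (L : ℕ) (θ : Fin n → ℝ) : ℂ :=
  ∑ y : Fin n → Fin L, ((∏ i, f i (((y i : ℕ) : ℝ) / L) : ℝ) : ℂ) *
    e1 (quad H (fun i => ((y i : ℕ) : ℝ)) / (2 * L) + ∑ i, (b i + θ i) * ((y i : ℕ) : ℝ))

/-- The coefficient of its squared modulus. -/
noncomputable def cF {n : ℕ} (f : Fin n → ℝ → ℝ) (H : Matrix (Fin n) (Fin n) ℝ) (b : Fin n → ℝ)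
    (L : ℕ) (d : Fin n → ℤ) : ℂ :=
  ∑ y ∈ Fintype.piFinset (fun _ : Fin n => Finset.Ico (0 : ℤ) L),
    ((∏ i, (f i ((y i : ℝ) / L) * f i (((y i + d i : ℤ) : ℝ) / L)) : ℝ) : ℂ) *
    e1 ((quad H (fun i => ((y i + d i : ℤ) : ℝ)) -
      quad H (fun i => ((y i : ℤ) : ℝ))) / (2 * L) + ∑ i, b i * (d i : ℝ))

/-- The limit coefficient. -/
noncomputable def gF {n : ℕ} (f : Fin n → ℝ → ℝ) (H : Matrix (Fin n) (Fin n) ℝ) (b : Fin n → ℝ)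
    (d : Fin n → ℤ) : ℂ :=
  e1 (∑ i, b i * (d i : ℝ)) * ∏ i, sF (f i) (∑ j, H i j * (d j : ℝ))

/-- The domination weight. -/
noncomputable def wF {n : ℕ} (C : ℝ) (H : Matrix (Fin n) (Fin n) ℝ) (d : Fin n → ℤ) : ℝ :=
  ∏ i, C ^ 2 / max 1 ((∑ j, H i j * (d j : ℝ)) ^ 2)

/-- The limit density. -/
noncomputable def DF {n : ℕ} (f : Fin n → ℝ → ℝ) (H : Matrix (Fin n) (Fin n) ℝ) (b : Fin n → ℝ)
    (θ : Fin n → ℝ) : ℝ :=
  (∑' d : Fin n → ℤ, gF f H b d * e1 (∑ i, (d i : ℝ) * θ i)).re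

/-- The taper with an extra factor `s + u` in the coordinate `a`. -/
noncomputable def fa {n : ℕ} (ρ : ℝ) (a : Fin n) (s : ℝ) : Fin n → ℝ → ℝ :=
  fun i u => (if i = a then s + u else 1) * tp ρ u

end Vale.Agent.P110U
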