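import Vale.Agent.Lib.P110U.Defs

/-! P110U: module X1. -/

namespace Vale.Agent.P110U

open MeasureTheory Filter Topology
open scoped ComplexConjugate ENNReal
open Vale.Agent.P110F

theorem continuous_XT (k : ℕ) : Continuous (XT k) := by
  induction k with
  | zero => exact continuous_const
  | succ k ih =>
    have h1 : Continuous (fun x : UnitAddTorus (Fin (k + 1)) => (fun i : Fin k => x i.castSucc :
        UnitAddTorus (Fin k))) := continuous_pi fun i => continuous_apply i.castSucc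
    have h2 : Continuous (fun x : UnitAddTorus (Fin (k + 1)) => XT k (fun i => x i.castSucc)) :=
      ih.comp h1
    have h3 : Continuous (fun x : UnitAddTorus (Fin (k + 1)) =>
        (fourier 1 (x (Fin.last k)) : ℂ).re) :=
      Complex.continuous_re.comp ((fourier 1).continuous.comp (continuous_apply (Fin.last k)))
    exact h2.add ((continuous_const.mul (continuous_const.sub (h2.pow 2))).mul h3)

private theorem X1_real {X c : ℝ} (hX : |X| ≤ 1) (hc : |c| ≤ 1) :
    |X + (1 / 2) * (1 - X ^ 2) * c| ≤ 1 := by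
  obtain ⟨a1, a2⟩ := abs_le.1 hX
  obtain ⟨b1, b2⟩ := abs_le.1 hc
  have h1 : 0 ≤ (1 / 2) * (1 - X ^ 2) := by nlinarith
  have h2 := mul_le_mul_of_nonneg_left b1 h1
  have h3 := mul_le_mul_of_nonneg_left b2 h1
  rw [abs_le]
  constructor
  · nlinarith [sq_nonneg (1 + X)]
  · nlinarith [sq_nonneg (1 - X)]

theorem abs_XT_le (k : ℕ) (x : UnitAddTorus (Fin k)) : |XT k x| ≤ 1 := by
  induction k with
  | zero =>
    show |(0 : ℝ)| ≤ 1
    rw [abs_zero]
    exact zero_le_one
  | succ k ih =>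
    refine X1_real (ih _) ?_
    refine (Complex.abs_re_le_norm _).trans ?_
    rw [fourier_apply, Circle.norm_coe]

private theorem X1_mF {k : ℕ} (m : Fin k → ℤ) (z : ℤ) (x : UnitAddTorus (Fin (k + 1))) :
    UnitAddTorus.mFourier (Fin.snoc m z : Fin (k + 1) → ℤ) x =
      UnitAddTorus.mFourier m (fun i => x i.castSucc) * fourier z (x (Fin.last k)) := by
  change ∏ i, fourier ((Fin.snoc m z : Fin (k + 1) → ℤ) i) (x i) =
    (∏ i, fourier (m i) (x i.castSucc)) * fourier z (x (Fin.last k))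
  rw [Fin.prod_univ_castSucc]
  simp only [Fin.snoc_castSucc, Fin.snoc_last]

private theorem X1_poly {k : ℕ} (h : TP k (XT k)) : ∃ c : (Fin k → ℤ) →₀ ℂ, ∀ y,
    ∑ m ∈ c.support, c m * UnitAddTorus.mFourier m y =
      (((1 / 2) * (1 - XT k y ^ 2) : ℝ) : ℂ) := by
  obtain ⟨Sp, a, -, -, h3⟩ := h
  let X : C(UnitAddTorus (Fin k), ℂ) :=
    ⟨fun x => (XT k x : ℂ), Complex.continuous_ofReal.comp (continuous_XT k)⟩
  have hX : X ∈ Algebra.adjoin ℂ (Set.range (UnitAddTorus.mFourier (d := Fin k))) := by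
    have e : X = ∑ m ∈ Sp, (a m • UnitAddTorus.mFourier m +
        conj (a m) • UnitAddTorus.mFourier (-m)) := by
      ext x
      rw [ContinuousMap.sum_apply]
      exact h3 x
    rw [e]
    exact Subalgebra.sum_mem _ fun m _ => Subalgebra.add_mem _
      (Subalgebra.smul_mem _ (Algebra.subset_adjoin (Set.mem_range_self m)) _)
      (Subalgebra.smul_mem _ (Algebra.subset_adjoin (Set.mem_range_self (-m))) _)
  have hG : (1 / 2 : ℂ) • (1 - X ^ 2) ∈
      Algebra.adjoin ℂ (Set.range (UnitAddTorus.mFourier (d := Fin k))) :=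
    Subalgebra.smul_mem _ (Subalgebra.sub_mem _ (Subalgebra.one_mem _)
      (Subalgebra.pow_mem _ hX 2)) _
  have hG2 : (1 / 2 : ℂ) • (1 - X ^ 2) ∈
      Submodule.span ℂ (Set.range (UnitAddTorus.mFourier (d := Fin k))) := by
    rw [← UnitAddTorus.mFourierSubalgebra_coe]
    exact hG
  obtain ⟨c, hc⟩ := (Finsupp.mem_span_range_iff_exists_finsupp).1 hG2
  refine ⟨c, fun y => ?_⟩
  have h4 := congrArg (fun f : C(UnitAddTorus (Fin k), ℂ) => f y) hc
  have h5 : (c.sum fun i b => b • (UnitAddTorus.mFourier i : C(UnitAddTorus (Fin k), ℂ))) y =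
      ∑ m ∈ c.support, c m * UnitAddTorus.mFourier m y := by
    rw [Finsupp.sum, ContinuousMap.sum_apply]
    rfl
  rw [← h5]
  refine h4.trans ?_
  show (1 / 2 : ℂ) * (1 - (XT k y : ℂ) ^ 2) = _
  push_cast
  ring

private theorem X1_snoc {k : ℕ} (m : Fin k → ℤ) (z : ℤ) :
    (fun i : Fin k => (Fin.snoc m z : Fin (k + 1) → ℤ) i.castSucc) = m := by
  funext i
  exact Fin.snoc_castSucc (α := fun _ => ℤ) z m i

private theorem X1_last {k : ℕ} (m : Fin k → ℤ) (z : ℤ) :
    (Fin.snoc m z : Fin (k + 1) → ℤ) (Fin.last k) = z :=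
  Fin.snoc_last (α := fun _ => ℤ) z m

private theorem X1_inj {k : ℕ} (z : ℤ) :
    Function.Injective (fun m : Fin k → ℤ => (Fin.snoc m z : Fin (k + 1) → ℤ)) := by
  intro m m' h
  rw [← X1_snoc m z, ← X1_snoc m' z]
  have h' : (Fin.snoc m z : Fin (k + 1) → ℤ) = Fin.snoc m' z := h
  rw [h']

private theorem X1_LNO0 {k : ℕ} {m : Fin k → ℤ} (h : LNO m) :
    LNO (Fin.snoc m 0 : Fin (k + 1) → ℤ) := by
  obtain ⟨i, h1, h2⟩ := h
  refine ⟨i.castSucc, ?_, fun j hj => ?_⟩
  · exact (Fin.snoc_castSucc (α := fun _ => ℤ) 0 m i).trans h1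
  · induction j using Fin.lastCases with
    | last => exact X1_last m 0
    | cast j =>
      exact (Fin.snoc_castSucc (α := fun _ => ℤ) 0 m j).trans (h2 j (Fin.castSucc_lt_castSucc_iff.1 hj))

private theorem X1_LNO1 {k : ℕ} (m : Fin k → ℤ) : LNO (Fin.snoc m 1 : Fin (k + 1) → ℤ) :=
  ⟨Fin.last k, X1_last m 1, fun j hj => absurd hj (not_lt.2 (Fin.le_last j))⟩

/-- The martingale is a trigonometric polynomial with good frequencies. -/
theorem XT_TP (k : ℕ) : TP k (XT k) := by
  classical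
  induction k with
  | zero =>
    refine ⟨∅, fun _ => 0, fun m hm => absurd hm (Finset.notMem_empty m),
      fun m hm => absurd hm (Finset.notMem_empty m), fun x => ?_⟩
    rw [Finset.sum_empty]
    show ((0 : ℝ) : ℂ) = 0
    exact Complex.ofReal_zero
  | succ k ih =>
    obtain ⟨c, hc⟩ := X1_poly ih
    obtain ⟨Sp, a, h1, h2, h3⟩ := ih
    obtain ⟨A, hA⟩ : ∃ A : (Fin (k + 1) → ℤ) → ℂ, A = fun M => if M (Fin.last k) = 0 then
        a (fun i => M i.castSucc) else c (fun i => M i.castSucc) / 2 := ⟨_, rfl⟩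
    have hA0 : ∀ m, A (Fin.snoc m 0) = a m := fun m => by
      rw [hA]
      simp only
      rw [if_pos (X1_last m 0), X1_snoc]
    have hA1 : ∀ m, A (Fin.snoc m 1) = c m / 2 := fun m => by
      rw [hA]
      simp only
      rw [if_neg (by rw [X1_last m 1]; exact one_ne_zero), X1_snoc]
    refine ⟨Sp.image (fun m => (Fin.snoc m 0 : Fin (k + 1) → ℤ)) ∪
      c.support.image (fun m => (Fin.snoc m 1 : Fin (k + 1) → ℤ)), A, ?_, ?_, fun x => ?_⟩
    · intro M hM
      rcases Finset.mem_union.1 hM with hM | hM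
      · obtain ⟨m, hm, rfl⟩ := Finset.mem_image.1 hM
        exact X1_LNO0 (h1 m hm)
      · obtain ⟨m, hm, rfl⟩ := Finset.mem_image.1 hM
        exact X1_LNO1 m
    · intro M hM
      rcases Finset.mem_union.1 hM with hM | hM
      · obtain ⟨m, hm, rfl⟩ := Finset.mem_image.1 hM
        rw [hA0]
        exact h2 m hm
      · obtain ⟨m, hm, rfl⟩ := Finset.mem_image.1 hM
        rw [hA1]
        exact div_ne_zero (Finsupp.mem_support_iff.1 hm) two_ne_zero
    · have hdis : Disjoint (Sp.image (fun m => (Fin.snoc m 0 : Fin (k + 1) → ℤ)))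
          (c.support.image (fun m => (Fin.snoc m 1 : Fin (k + 1) → ℤ))) := by
        rw [Finset.disjoint_left]
        intro M hM hM'
        obtain ⟨m, -, rfl⟩ := Finset.mem_image.1 hM
        obtain ⟨m', -, hm'⟩ := Finset.mem_image.1 hM'
        have h4 := congrFun hm' (Fin.last k)
        simp only [Fin.snoc_last] at h4
        exact one_ne_zero h4
      rw [Finset.sum_union hdis, Finset.sum_image (fun m _ m' _ h => X1_inj 0 h),
        Finset.sum_image (fun m _ m' _ h => X1_inj 1 h)]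
      obtain ⟨y, hy⟩ : ∃ y : UnitAddTorus (Fin k), y = fun i => x i.castSucc := ⟨_, rfl⟩
      obtain ⟨t, ht⟩ : ∃ t, t = x (Fin.last k) := ⟨_, rfl⟩
      have e1 : ∑ m ∈ Sp, (A (Fin.snoc m 0) * UnitAddTorus.mFourier (Fin.snoc m 0) x +
          conj (A (Fin.snoc m 0)) * UnitAddTorus.mFourier (-(Fin.snoc m 0)) x) =
          (XT k y : ℂ) := by
        rw [h3 y]
        refine Finset.sum_congr rfl fun m _ => ?_
        rw [UnitAddTorus.mFourier_neg, UnitAddTorus.mFourier_neg, X1_mF, hA0, fourier_zero, mul_one,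
          ← hy]
      have e2 : ∑ m ∈ c.support, (A (Fin.snoc m 1) * UnitAddTorus.mFourier (Fin.snoc m 1) x +
          conj (A (Fin.snoc m 1)) * UnitAddTorus.mFourier (-(Fin.snoc m 1)) x) =
          (((1 / 2) * (1 - XT k y ^ 2) * (fourier 1 t : ℂ).re : ℝ) : ℂ) := by
        have e3 : ∀ m ∈ c.support, A (Fin.snoc m 1) * UnitAddTorus.mFourier (Fin.snoc m 1) x +
            conj (A (Fin.snoc m 1)) * UnitAddTorus.mFourier (-(Fin.snoc m 1)) x =
            (c m * UnitAddTorus.mFourier m y) * (fourier 1 t / 2) +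
              conj (c m * UnitAddTorus.mFourier m y) * conj (fourier 1 t / 2) := by
          intro m _
          rw [UnitAddTorus.mFourier_neg, X1_mF, hA1, ← hy, ← ht]
          simp only [map_mul, map_div₀]
          ring
        rw [Finset.sum_congr rfl e3, Finset.sum_add_distrib, ← Finset.sum_mul, ← Finset.sum_mul,
          ← map_sum, hc y, Complex.conj_ofReal, ← mul_add, Complex.add_conj]
        push_cast
        have e4 : ((fourier 1 t / 2 : ℂ).re : ℂ) = ((fourier 1 t : ℂ).re : ℂ) / 2 := by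
          have : (fourier 1 t / 2 : ℂ).re = (fourier 1 t : ℂ).re / 2 := by
            rw [show (2 : ℂ) = ((2 : ℝ) : ℂ) by norm_num, Complex.div_ofReal_re]
          rw [this]
          push_cast
          rfl
        rw [e4]
        ring
      refine Eq.trans ?_ (congrArg₂ (· + ·) e1 e2).symm
      show ((XT k (fun i => x i.castSucc) + (1 / 2) * (1 - XT k (fun i => x i.castSucc) ^ 2) *
        (fourier 1 (x (Fin.last k)) : ℂ).re : ℝ) : ℂ) = _
      rw [← hy, ← ht, Complex.ofReal_add]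

end Vale.Agent.P110U
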