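import Vale.Agent.Lib.P110U.Defs
import Vale.Agent.Lib.P110U.X1

/-! P110U: module X3. -/

namespace Vale.Agent.P110U

open MeasureTheory Filter Topology
open scoped ComplexConjugate ENNReal
open Vale.Agent.P110F

private lemma x3_prob : IsProbabilityMeasure (volume : Measure UnitAddCircle) :=
  ⟨by simp⟩

private lemma x3_int_fourier {n : ℤ} (hn : n ≠ 0) :
    ∫ c : UnitAddCircle, ((fourier n c : ℂ)).re = 0 := by
  refine integral_eq_zero_of_add_right_eq_neg (μ := (volume : Measure UnitAddCircle))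
    (g := (((1 : ℝ) / 2 / n : ℝ) : UnitAddCircle)) ?_
  intro x
  rw [fourier_add_half_inv_index hn one_pos x]
  simp

private lemma x3_integrable (n : ℤ) :
    Integrable (fun c : UnitAddCircle => ((fourier n c : ℂ)).re) := by
  have : Continuous fun c : UnitAddCircle => ((fourier n c : ℂ)).re := by fun_prop
  exact this.integrable_of_hasCompactSupport (HasCompactSupport.of_compactSpace _)

private lemma x3_integrable_sq (n : ℤ) :
    Integrable (fun c : UnitAddCircle => ((fourier n c : ℂ)).re ^ 2) := by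
  have : Continuous fun c : UnitAddCircle => ((fourier n c : ℂ)).re ^ 2 := by fun_prop
  exact this.integrable_of_hasCompactSupport (HasCompactSupport.of_compactSpace _)

private lemma x3_int_sq : ∫ c : UnitAddCircle, ((fourier 1 c : ℂ)).re ^ 2 = 1 / 2 := by
  have h : ∀ c : UnitAddCircle, ((fourier 1 c : ℂ)).re ^ 2 =
      1 / 2 + (1 / 2) * ((fourier 2 c : ℂ)).re := by
    intro c
    have h1 : (fourier 2 c : ℂ) = fourier 1 c * fourier 1 c := by
      rw [← fourier_add]
      norm_num
    have h2 : Complex.normSq (fourier 1 c : ℂ) = 1 := by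
      rw [Complex.normSq_eq_norm_sq, fourier_apply, Circle.norm_coe]
      norm_num
    rw [h1, Complex.mul_re]
    rw [Complex.normSq_apply] at h2
    nlinarith
  simp_rw [h]
  have := x3_prob
  rw [integral_add (integrable_const _) ((x3_integrable 2).const_mul _), integral_const_mul,
    x3_int_fourier (by norm_num)]
  simp

/-- The inner integral. -/
private lemma x3_inner (X s : ℝ) :
    ∫ c : UnitAddCircle, (X + s * ((fourier 1 c : ℂ)).re) ^ 2 = X ^ 2 + s ^ 2 / 2 := by
  have := x3_prob
  have h : ∀ c : UnitAddCircle, (X + s * ((fourier 1 c : ℂ)).re) ^ 2 =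
      X ^ 2 + ((2 * X * s) * ((fourier 1 c : ℂ)).re + (s ^ 2) * ((fourier 1 c : ℂ)).re ^ 2) := by
    intro c
    ring
  simp_rw [h]
  have hi : Integrable (fun c : UnitAddCircle =>
      (2 * X * s) * ((fourier 1 c : ℂ)).re + (s ^ 2) * ((fourier 1 c : ℂ)).re ^ 2) :=
    ((x3_integrable 1).const_mul _).add ((x3_integrable_sq 1).const_mul _)
  rw [integral_add (integrable_const _) hi,
    integral_add ((x3_integrable 1).const_mul _) ((x3_integrable_sq 1).const_mul _),
    integral_const_mul, integral_const_mul, x3_int_fourier one_ne_zero, x3_int_sq]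
  simp
  ring

private lemma x3_cont_int {k : ℕ} {f : UnitAddTorus (Fin k) → ℝ} (hf : Continuous f) :
    Integrable f := by
  have := x3_prob
  exact hf.integrable_of_hasCompactSupport (HasCompactSupport.of_compactSpace _)

/-- One step of the energy. -/
private lemma x3_step (k : ℕ) :
    ∫ x : UnitAddTorus (Fin (k + 1)), (XT (k + 1) x) ^ 2 =
      (∫ x : UnitAddTorus (Fin k), (XT k x) ^ 2) +
        (1 / 8) * ∫ x : UnitAddTorus (Fin k), (1 - XT k x ^ 2) ^ 2 := by
  have := x3_prob
  have hmp := volume_preserving_piFinSuccAbove (fun _ : Fin (k + 1) => UnitAddCircle) (Fin.last k)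
  set g : UnitAddCircle × (Fin k → UnitAddCircle) → ℝ := fun q =>
    (XT k q.2 + ((1 / 2) * (1 - XT k q.2 ^ 2)) * ((fourier 1 q.1 : ℂ)).re) ^ 2 with hg
  have e0 : ∀ x : UnitAddTorus (Fin (k + 1)), (XT (k + 1) x) ^ 2 =
      g (MeasurableEquiv.piFinSuccAbove (fun _ : Fin (k + 1) => UnitAddCircle) (Fin.last k) x) := by
    intro x
    have e : (fun i : Fin k => x i.castSucc) = (Fin.last k).removeNth x := by
      ext i
      simp [Fin.removeNth]
    simp only [hg, XT, MeasurableEquiv.piFinSuccAbove_apply, Fin.insertNthEquiv_symm_apply, e]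
  have h1 : ∫ x : UnitAddTorus (Fin (k + 1)), (XT (k + 1) x) ^ 2 = ∫ q, g q := by
    rw [← hmp.integral_comp']
    exact integral_congr_ae (Eventually.of_forall e0)
  have hgi : Integrable g := by
    have h2 : Integrable (fun x : UnitAddTorus (Fin (k + 1)) => (XT (k + 1) x) ^ 2) :=
      x3_cont_int ((continuous_XT (k + 1)).pow 2)
    have h3 : (fun x : UnitAddTorus (Fin (k + 1)) => (XT (k + 1) x) ^ 2) =
        g ∘ (MeasurableEquiv.piFinSuccAbove (fun _ : Fin (k + 1) => UnitAddCircle)
          (Fin.last k)) := by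
      ext x
      exact e0 x
    rw [h3] at h2
    exact (hmp.integrable_comp_emb (MeasurableEquiv.measurableEmbedding _)).1 h2
  rw [h1]
  have h4 : ∫ q, g q = ∫ y : Fin k → UnitAddCircle, ∫ c : UnitAddCircle, g (c, y) :=
    integral_prod_symm g hgi
  rw [h4]
  have h5 : ∀ y : Fin k → UnitAddCircle, ∫ c : UnitAddCircle, g (c, y) =
      (XT k y) ^ 2 + (1 / 8) * (1 - XT k y ^ 2) ^ 2 := by
    intro y
    refine (x3_inner (XT k y) ((1 / 2) * (1 - XT k y ^ 2))).trans ?_
    ring
  simp_rw [h5]
  have h6 : Integrable (fun y : UnitAddTorus (Fin k) => (1 / 8) * (1 - XT k y ^ 2) ^ 2) :=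
    x3_cont_int (continuous_const.mul ((continuous_const.sub ((continuous_XT k).pow 2)).pow 2))
  refine (integral_add (x3_cont_int ((continuous_XT k).pow 2)) h6).trans ?_
  rw [integral_const_mul]
  rfl

private lemma x3_energy_le (k : ℕ) : ∫ x : UnitAddTorus (Fin k), (XT k x) ^ 2 ≤ 1 := by
  have := x3_prob
  have h : ∫ x : UnitAddTorus (Fin k), (XT k x) ^ 2 ≤ ∫ _x : UnitAddTorus (Fin k), (1 : ℝ) := by
    refine integral_mono (x3_cont_int ((continuous_XT k).pow 2)) (integrable_const _) fun x => ?_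
    have := abs_XT_le k x
    show XT k x ^ 2 ≤ 1
    rw [← sq_abs]
    nlinarith [abs_nonneg (XT k x)]
  refine h.trans ?_
  rw [integral_const]
  simp

theorem XT_energy {δ : ℝ} (hδ : 0 < δ) : ∃ k : ℕ, 0 < k ∧
    ∫ x : UnitAddTorus (Fin k), (1 - |XT k x|) ≤ δ := by
  have := x3_prob
  -- some energy increment is small
  have key : ∃ k : ℕ, 0 < k ∧ ∫ x : UnitAddTorus (Fin k), (1 - XT k x ^ 2) ^ 2 ≤ δ ^ 2 := by
    by_contra hcon
    push Not at hcon
    have hlow : ∀ n : ℕ, (n : ℝ) * (δ ^ 2 / 8) ≤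
        ∫ x : UnitAddTorus (Fin (n + 1)), (XT (n + 1) x) ^ 2 := by
      intro n
      induction n with
      | zero =>
        rw [Nat.cast_zero, zero_mul]
        exact integral_nonneg fun x => sq_nonneg _
      | succ n ih =>
        rw [x3_step (n + 1)]
        have := hcon (n + 1) (Nat.succ_pos n)
        push_cast
        nlinarith
    obtain ⟨n, hn⟩ := exists_nat_gt (8 / δ ^ 2)
    have h1 := hlow n
    have h2 := x3_energy_le (n + 1)
    have h3 : 1 < (n : ℝ) * (δ ^ 2 / 8) := by
      rw [div_lt_iff₀ (by positivity)] at hn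
      linarith
    linarith
  obtain ⟨k, hk, hle⟩ := key
  refine ⟨k, hk, ?_⟩
  have hint2 : Integrable (fun x : UnitAddTorus (Fin k) => (1 - XT k x ^ 2) ^ 2) :=
    x3_cont_int ((continuous_const.sub ((continuous_XT k).pow 2)).pow 2)
  have h : ∫ x : UnitAddTorus (Fin k), (1 - |XT k x|) ≤
      ∫ x : UnitAddTorus (Fin k), (δ / 2 + (1 / (2 * δ)) * (1 - XT k x ^ 2) ^ 2) := by
    refine integral_mono (x3_cont_int (continuous_const.sub (continuous_XT k).abs))
      ((integrable_const _).add (hint2.const_mul _)) fun x => ?_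
    have h0 := abs_XT_le k x
    have h0' := abs_nonneg (XT k x)
    have h1 : 1 - |XT k x| ≤ 1 - XT k x ^ 2 := by
      rw [← sq_abs]
      nlinarith
    have h2 : 1 - XT k x ^ 2 ≤ δ / 2 + (1 / (2 * δ)) * (1 - XT k x ^ 2) ^ 2 := by
      have h3 : δ / 2 + (1 / (2 * δ)) * (1 - XT k x ^ 2) ^ 2 - (1 - XT k x ^ 2) =
          (1 / (2 * δ)) * (δ - (1 - XT k x ^ 2)) ^ 2 := by
        field_simp
        ring
      have h4 : 0 ≤ (1 / (2 * δ)) * (δ - (1 - XT k x ^ 2)) ^ 2 := by positivity
      linarith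
    exact h1.trans h2
  refine h.trans ?_
  rw [integral_add (integrable_const _) (hint2.const_mul _), integral_const_mul, integral_const]
  have h5 : (1 / (2 * δ)) * ∫ x : UnitAddTorus (Fin k), (1 - XT k x ^ 2) ^ 2 ≤
      (1 / (2 * δ)) * δ ^ 2 := mul_le_mul_of_nonneg_left hle (by positivity)
  have h6 : (1 / (2 * δ)) * δ ^ 2 = δ / 2 := by
    field_simp
  have h7 : (volume : Measure (UnitAddTorus (Fin k))).real Set.univ = 1 := by
    simp
  rw [h7, one_smul]
  linarith

end Vale.Agent.P110U
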