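import Vale.Agent.Lib.P110U.Defs

/-! P110U: module X4. -/

namespace Vale.Agent.P110U

open MeasureTheory Filter Topology
open scoped ComplexConjugate ENNReal
open Vale.Agent.P110F

/-- the product Haar measure -/
private noncomputable abbrev X4mu (k : ℕ) : Measure (UnitAddTorus (Fin k)) :=
  Measure.pi fun _ => (AddCircle.haarAddCircle : Measure UnitAddCircle)

private lemma X4_int_fourier (n : ℤ) :
    ∫ x : UnitAddCircle, fourier n x ∂AddCircle.haarAddCircle = if n = 0 then 1 else 0 := by
  have h := congrFun (fourierCoeff_fourier (T := 1) n) 0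
  unfold fourierCoeff at h
  simp only [neg_zero, fourier_zero, one_smul] at h
  rw [h]
  by_cases hn : n = 0
  · subst hn
    simp
  · rw [if_neg hn, Pi.single_eq_of_ne (Ne.symm hn)]

private lemma X4_orth (k : ℕ) (n m : Fin k → ℤ) :
    ∫ x, conj (UnitAddTorus.mFourier m x) * UnitAddTorus.mFourier n x ∂(X4mu k) =
      if n = m then 1 else 0 := by
  have h1 : ∀ x : UnitAddTorus (Fin k),
      conj (UnitAddTorus.mFourier m x) * UnitAddTorus.mFourier n x =
        ∏ i, fourier (n i - m i) (x i) := by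
    intro x
    rw [← UnitAddTorus.mFourier_neg, ← UnitAddTorus.mFourier_add]
    unfold UnitAddTorus.mFourier
    simp only [ContinuousMap.coe_mk]
    refine Finset.prod_congr rfl fun i _ => ?_
    congr 1
    rw [Pi.add_apply, Pi.neg_apply]
    congr 1
    ring
  simp_rw [h1]
  have h2 := integral_fintype_prod_eq_prod (𝕜 := ℂ)
    (μ := fun _ : Fin k => (AddCircle.haarAddCircle : Measure UnitAddCircle))
    (fun i (y : UnitAddCircle) => fourier (n i - m i) y)
  rw [h2]
  simp_rw [X4_int_fourier]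
  by_cases h : n = m
  · subst h
    simp
  · rw [if_neg h]
    obtain ⟨i, hi⟩ := Function.ne_iff.1 h
    exact Finset.prod_eq_zero (Finset.mem_univ i) (if_neg (sub_ne_zero.2 hi))

private lemma X4_norm_mF (k : ℕ) (m : Fin k → ℤ) (x : UnitAddTorus (Fin k)) :
    ‖UnitAddTorus.mFourier m x‖ = 1 := by
  unfold UnitAddTorus.mFourier
  simp only [ContinuousMap.coe_mk, norm_prod]
  refine Finset.prod_eq_one fun i _ => ?_
  rw [fourier_apply]
  exact Circle.norm_coe _

private lemma X4_sum (k : ℕ) (X : UnitAddTorus (Fin k) → ℝ) (hX : ∀ x, |X x| ≤ 1)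
    (T : Finset (Fin k → ℤ)) (b : (Fin k → ℤ) → ℂ)
    (h : ∀ x, (X x : ℂ) = ∑ m ∈ T, b m * UnitAddTorus.mFourier m x) :
    ∑ m ∈ T, ‖b m‖ ^ 2 ≤ 1 := by
  have hint : ∀ m n : Fin k → ℤ, Integrable (fun x => conj (b m) * b n *
      (conj (UnitAddTorus.mFourier m x) * UnitAddTorus.mFourier n x)) (X4mu k) := by
    intro m n
    have hm : Measurable fun x => conj (UnitAddTorus.mFourier m x) :=
      (Complex.continuous_conj.comp (ContinuousMap.continuous _)).measurable
    have hn : Measurable fun x => UnitAddTorus.mFourier n x :=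
      (ContinuousMap.continuous _).measurable
    refine Integrable.const_mul (Integrable.of_bound (hm.mul hn).aestronglyMeasurable 1
      (Eventually.of_forall fun x => ?_)) _
    rw [Pi.mul_apply, norm_mul, RCLike.norm_conj, X4_norm_mF, X4_norm_mF, one_mul]
  have key : ∫ x, conj (X x : ℂ) * (X x : ℂ) ∂(X4mu k) = ((∑ m ∈ T, ‖b m‖ ^ 2 : ℝ) : ℂ) := by
    have h1 : ∀ x, conj (X x : ℂ) * (X x : ℂ) = ∑ m ∈ T, ∑ n ∈ T, conj (b m) * b n *
        (conj (UnitAddTorus.mFourier m x) * UnitAddTorus.mFourier n x) := by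
      intro x
      rw [h x, map_sum, Finset.sum_mul_sum]
      refine Finset.sum_congr rfl fun m _ => Finset.sum_congr rfl fun n _ => ?_
      rw [map_mul]
      ring
    simp_rw [h1]
    rw [integral_finsetSum _ fun m _ => integrable_finsetSum _ fun n _ => hint m n]
    push_cast
    refine Finset.sum_congr rfl fun m hm => ?_
    rw [integral_finsetSum _ fun n _ => hint m n]
    simp_rw [integral_const_mul, X4_orth]
    rw [Finset.sum_eq_single m]
    · rw [if_pos rfl, mul_one, mul_comm, Complex.mul_conj, Complex.normSq_eq_norm_sq]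
      push_cast
      rfl
    · intro n _ hn
      rw [if_neg hn, mul_zero]
    · intro hn
      exact absurd hm hn
  have hle : ‖∫ x, conj (X x : ℂ) * (X x : ℂ) ∂(X4mu k)‖ ≤ 1 := by
    have h2 := norm_integral_le_of_norm_le_const (μ := X4mu k) (C := 1)
      (f := fun x => conj (X x : ℂ) * (X x : ℂ)) (Eventually.of_forall fun x => by
        rw [norm_mul, RCLike.norm_conj, Complex.norm_real, Real.norm_eq_abs]
        have := hX x
        have h0 := abs_nonneg (X x)
        nlinarith)
    simpa using h2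
  rw [key, Complex.norm_real, Real.norm_eq_abs] at hle
  exact (le_abs_self _).trans hle

/-- Parseval. -/
theorem TP_parseval (k : ℕ) (X : UnitAddTorus (Fin k) → ℝ) (hX : ∀ x, |X x| ≤ 1)
    (Sp : Finset (Fin k → ℤ)) (a : (Fin k → ℤ) → ℂ) (hS : ∀ m ∈ Sp, LNO m)
    (h : ∀ x, (X x : ℂ) = ∑ m ∈ Sp, (a m * UnitAddTorus.mFourier m x +
      conj (a m) * UnitAddTorus.mFourier (-m) x)) :
    2 * ∑ m ∈ Sp, ‖a m‖ ^ 2 ≤ 1 := by
  classical
  have hdisj : Disjoint Sp (Sp.image fun m => -m) := by
    rw [Finset.disjoint_left]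
    intro m hm hm2
    obtain ⟨m', hm', he⟩ := Finset.mem_image.1 hm2
    obtain ⟨i, hi, hi2⟩ := hS m hm
    obtain ⟨j, hj, hj2⟩ := hS m' hm'
    have he2 : ∀ l, m l = - m' l := fun l => by rw [← he]; rfl
    rcases lt_trichotomy i j with h | h | h
    · have h1 := hi2 j h
      have h2 := he2 j
      omega
    · subst h
      have h2 := he2 i
      omega
    · have h1 := hj2 i h
      have h2 := he2 i
      omega
  have hinj : Set.InjOn (fun m : Fin k → ℤ => -m) (Sp : Set (Fin k → ℤ)) :=
    fun a _ b _ h => neg_injective h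
  have hneg : ∀ m ∈ Sp, -m ∉ Sp := by
    intro m hm hm2
    exact Finset.disjoint_left.1 hdisj hm2 (Finset.mem_image_of_mem _ hm)
  set b : (Fin k → ℤ) → ℂ := fun m => if m ∈ Sp then a m else conj (a (-m)) with hb
  have hb1 : ∀ m ∈ Sp, b m = a m := fun m hm => if_pos hm
  have hb2 : ∀ m ∈ Sp, b (-m) = conj (a m) := fun m hm => by
    simp only [hb, if_neg (hneg m hm), neg_neg]
  have hX2 : ∀ x, (X x : ℂ) = ∑ m ∈ Sp ∪ Sp.image (fun m => -m),
      b m * UnitAddTorus.mFourier m x := by
    intro x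
    rw [Finset.sum_union hdisj, Finset.sum_image hinj, h x, Finset.sum_add_distrib]
    congr 1
    · exact Finset.sum_congr rfl fun m hm => by rw [hb1 m hm]
    · exact Finset.sum_congr rfl fun m hm => by rw [hb2 m hm]
  have hfin := X4_sum k X hX _ b hX2
  rw [Finset.sum_union hdisj, Finset.sum_image hinj,
    Finset.sum_congr rfl (fun m hm => by rw [hb1 m hm]),
    Finset.sum_congr (s₁ := Sp) (f := fun m => ‖b (-m)‖ ^ 2) rfl
      (fun m hm => by rw [hb2 m hm, RCLike.norm_conj])] at hfin
  linarith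

end Vale.Agent.P110U
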