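import Vale.Agent.Lib.P110U.Defs

/-! P110U: module D1a. -/

namespace Vale.Agent.P110U

open MeasureTheory Filter Topology
open scoped ComplexConjugate ENNReal
open Vale.Agent.P110F

private theorem D1a_mgf (n : ℕ) (a : Fin n → ℝ) (ha : ∀ j, |a j| ≤ 1) (lam : ℝ) :
    ∑ ε : Fin n → Bool, Real.exp (lam * ∑ j, a j * (if ε j then (1 : ℝ) else -1)) ≤
      2 ^ n * Real.exp (n * lam ^ 2 / 2) := by
  have h1 : ∀ ε : Fin n → Bool, Real.exp (lam * ∑ j, a j * (if ε j then (1 : ℝ) else -1)) =
      ∏ j, Real.exp (lam * (a j * (if ε j then (1 : ℝ) else -1))) := by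
    intro ε
    rw [Finset.mul_sum, Real.exp_sum]
  simp_rw [h1]
  have h2 := Finset.prod_univ_sum (t := fun _ : Fin n => (Finset.univ : Finset Bool))
    (f := fun (j : Fin n) (b : Bool) => Real.exp (lam * (a j * (if b then (1 : ℝ) else -1))))
  rw [Fintype.piFinset_univ] at h2
  rw [← h2]
  have h3 : ∀ j : Fin n, ∑ b : Bool, Real.exp (lam * (a j * (if b then (1 : ℝ) else -1))) ≤
      2 * Real.exp (lam ^ 2 / 2) := by
    intro j
    have h4 := Real.cosh_le_exp_half_sq (lam * a j)
    rw [Real.cosh_eq] at h4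
    have h5 : (lam * a j) ^ 2 ≤ lam ^ 2 := by
      rw [mul_pow]
      have h6 : a j ^ 2 ≤ 1 := by
        rw [← sq_abs]
        exact pow_le_one₀ (abs_nonneg _) (ha j)
      nlinarith [sq_nonneg lam]
    have h7 : Real.exp ((lam * a j) ^ 2 / 2) ≤ Real.exp (lam ^ 2 / 2) :=
      Real.exp_le_exp.2 (by linarith)
    rw [Fintype.sum_bool]
    simp only [if_true, Bool.false_eq_true, if_false, mul_one, mul_neg]
    linarith
  refine (Finset.prod_le_prod (fun j _ => Finset.sum_nonneg fun b _ => (Real.exp_pos _).le)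
    fun j _ => h3 j).trans (le_of_eq ?_)
  rw [Finset.prod_const, Finset.card_univ, Fintype.card_fin, mul_pow, ← Real.exp_nat_mul]
  congr 2
  ring

private theorem D1a_one (n : ℕ) (hn : 0 < n) (a : Fin n → ℝ) (ha : ∀ j, |a j| ≤ 1) {t : ℝ}
    (ht : 0 ≤ t) :
    ((Finset.univ.filter fun ε : Fin n → Bool =>
      t ≤ ∑ j, a j * (if ε j then (1 : ℝ) else -1)).card : ℝ) ≤
      2 ^ n * Real.exp (-(t ^ 2 / (2 * n))) := by
  have hn0 : (0 : ℝ) < n := by exact_mod_cast hn
  have h1 := D1a_mgf n a ha (t / n)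
  have h2 : ((Finset.univ.filter fun ε : Fin n → Bool =>
      t ≤ ∑ j, a j * (if ε j then (1 : ℝ) else -1)).card : ℝ) * Real.exp (t / n * t) ≤
      ∑ ε : Fin n → Bool, Real.exp (t / n * ∑ j, a j * (if ε j then (1 : ℝ) else -1)) := by
    rw [← nsmul_eq_mul, ← Finset.sum_const]
    refine (Finset.sum_le_sum fun ε hε => ?_).trans
      (Finset.sum_le_sum_of_subset_of_nonneg (Finset.filter_subset _ _)
        fun ε _ _ => (Real.exp_pos _).le)
    exact Real.exp_le_exp.2 (mul_le_mul_of_nonneg_left (Finset.mem_filter.1 hε).2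
      (div_nonneg ht hn0.le))
  have h3 := h2.trans h1
  rw [← le_div_iff₀ (Real.exp_pos _)] at h3
  refine h3.trans (le_of_eq ?_)
  rw [mul_div_assoc, ← Real.exp_sub]
  congr 2
  field_simp
  ring

/-- Hoeffding's inequality for signs, counting form. -/
theorem hoeffding_count (n : ℕ) (a : Fin n → ℝ) (ha : ∀ j, |a j| ≤ 1) {t : ℝ} (ht : 0 ≤ t) :
    ((Finset.univ.filter fun ε : Fin n → Bool =>
      t ≤ |∑ j, a j * (if ε j then (1 : ℝ) else -1)|).card : ℝ) ≤
      2 * 2 ^ n * Real.exp (-(t ^ 2 / (2 * n))) := by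
  classical
  rcases Nat.eq_zero_or_pos n with hn | hn
  · subst hn
    refine (Nat.cast_le.2 (Finset.card_filter_le _ _)).trans ?_
    simp
  · have h1 := D1a_one n hn a ha ht
    have h2 := D1a_one n hn (fun j => -a j) (fun j => by rw [abs_neg]; exact ha j) ht
    have h3 : (Finset.univ.filter fun ε : Fin n → Bool =>
        t ≤ |∑ j, a j * (if ε j then (1 : ℝ) else -1)|) ⊆
        (Finset.univ.filter fun ε : Fin n → Bool =>
          t ≤ ∑ j, a j * (if ε j then (1 : ℝ) else -1)) ∪
        (Finset.univ.filter fun ε : Fin n → Bool =>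
          t ≤ ∑ j, (-a j) * (if ε j then (1 : ℝ) else -1)) := by
      intro ε hε
      rw [Finset.mem_union, Finset.mem_filter, Finset.mem_filter]
      rcases le_abs.1 (Finset.mem_filter.1 hε).2 with h | h
      · exact Or.inl ⟨Finset.mem_univ _, h⟩
      · refine Or.inr ⟨Finset.mem_univ _, ?_⟩
        rw [← Finset.sum_neg_distrib] at h
        refine h.trans (le_of_eq (Finset.sum_congr rfl fun j _ => ?_))
        rw [neg_mul]
    have h4 : ((Finset.univ.filter fun ε : Fin n → Bool =>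
        t ≤ |∑ j, a j * (if ε j then (1 : ℝ) else -1)|).card : ℝ) ≤
        ((Finset.univ.filter fun ε : Fin n → Bool =>
          t ≤ ∑ j, a j * (if ε j then (1 : ℝ) else -1)).card : ℝ) +
        ((Finset.univ.filter fun ε : Fin n → Bool =>
          t ≤ ∑ j, (-a j) * (if ε j then (1 : ℝ) else -1)).card : ℝ) := by
      exact_mod_cast (Finset.card_le_card h3).trans (Finset.card_union_le _ _)
    linarith

end Vale.Agent.P110U
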