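import Vale.Agent.Lib.P110U.Defs

/-! P110U: module D1b. -/

namespace Vale.Agent.P110U

open MeasureTheory Filter Topology
open scoped ComplexConjugate ENNReal
open Vale.Agent.P110F

private theorem D1b_icc (B : ℕ) : Finset.Icc (-((B + 1 : ℕ) : ℤ)) ((B + 1 : ℕ) : ℤ) =
    insert (-((B + 1 : ℕ) : ℤ)) (insert ((B + 1 : ℕ) : ℤ) (Finset.Icc (-(B : ℤ)) (B : ℤ))) := by
  ext k
  simp only [Finset.mem_Icc, Finset.mem_insert]
  push_cast
  omega

private theorem D1b_one (T : ℝ) (B : ℕ) :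
    ∑ k ∈ Finset.Icc (-(B : ℤ)) (B : ℤ), Real.exp (-(if k = 0 then (0 : ℝ) else T + |(k : ℝ)|)) ≤
      1 + 2 * Real.exp (-T) * (1 - (1 / 2) ^ B) := by
  induction B with
  | zero => simp
  | succ B ih =>
    have h1 : ((B + 1 : ℕ) : ℤ) ∉ Finset.Icc (-(B : ℤ)) (B : ℤ) := by
      simp only [Finset.mem_Icc]
      push_cast
      omega
    have h2 : (-((B + 1 : ℕ) : ℤ)) ∉ insert ((B + 1 : ℕ) : ℤ) (Finset.Icc (-(B : ℤ)) (B : ℤ)) := by
      simp only [Finset.mem_Icc, Finset.mem_insert]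
      push_cast
      omega
    rw [D1b_icc, Finset.sum_insert h2, Finset.sum_insert h1]
    have h3 : ((B + 1 : ℕ) : ℤ) ≠ 0 := by
      push_cast
      omega
    have h4 : (-((B + 1 : ℕ) : ℤ)) ≠ 0 := by
      push_cast
      omega
    rw [if_neg h3, if_neg h4]
    have h5 : |(((B + 1 : ℕ) : ℤ) : ℝ)| = (B : ℝ) + 1 := by
      push_cast
      exact abs_of_nonneg (by positivity)
    have h6 : |((-((B + 1 : ℕ) : ℤ) : ℤ) : ℝ)| = (B : ℝ) + 1 := by
      rw [Int.cast_neg, abs_neg, h5]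
    rw [h5, h6]
    have h7 : Real.exp (-(T + ((B : ℝ) + 1))) ≤ Real.exp (-T) * (1 / 2) ^ (B + 1) := by
      rw [neg_add, Real.exp_add]
      refine mul_le_mul_of_nonneg_left ?_ (Real.exp_pos _).le
      have h8 : Real.exp (-((B : ℝ) + 1)) = Real.exp (-1) ^ (B + 1) := by
        rw [← Real.exp_nat_mul]
        congr 1
        push_cast
        ring
      rw [h8]
      refine pow_le_pow_left₀ (Real.exp_pos _).le ?_ _
      have := Real.exp_neg_one_lt_d9
      linarith
    have h9 : 1 + 2 * Real.exp (-T) * (1 - (1 / 2) ^ (B + 1)) =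
        1 + 2 * Real.exp (-T) * (1 - (1 / 2) ^ B) + 2 * (Real.exp (-T) * (1 / 2) ^ (B + 1)) := by
      rw [pow_succ]
      ring
    rw [h9]
    linarith

/-- Counting integer vectors of small cost. -/
theorem count_cost (m : ℕ) (T M : ℝ) (S : Finset (Fin m → ℤ))
    (hS : ∀ b ∈ S, ∑ i, (if b i = 0 then (0 : ℝ) else T + |(b i : ℝ)|) ≤ M) :
    (S.card : ℝ) ≤ Real.exp (M + 2 * m * Real.exp (-T)) := by
  obtain ⟨B, hB⟩ : ∃ B : ℕ, S ⊆ Fintype.piFinset fun _ => Finset.Icc (-(B : ℤ)) (B : ℤ) := by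
    refine ⟨S.sup fun b => Finset.univ.sup fun i => (b i).natAbs, ?_⟩
    intro b hb
    rw [Fintype.mem_piFinset]
    intro i
    have h1 : (b i).natAbs ≤ Finset.univ.sup fun i => (b i).natAbs :=
      Finset.le_sup (f := fun i => (b i).natAbs) (Finset.mem_univ i)
    have h2 : (Finset.univ.sup fun i => (b i).natAbs) ≤
        S.sup fun b => Finset.univ.sup fun i => (b i).natAbs :=
      Finset.le_sup (f := fun b : Fin m → ℤ => Finset.univ.sup fun i => (b i).natAbs) hb
    rw [Finset.mem_Icc]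
    have h3 := h1.trans h2
    omega
  have e1 : ∀ b : Fin m → ℤ, Real.exp (M - ∑ i, (if b i = 0 then (0 : ℝ) else T + |(b i : ℝ)|)) =
      Real.exp M * ∏ i, Real.exp (-(if b i = 0 then (0 : ℝ) else T + |(b i : ℝ)|)) := by
    intro b
    rw [sub_eq_add_neg, Real.exp_add, ← Finset.sum_neg_distrib, Real.exp_sum]
  calc (S.card : ℝ) = ∑ b ∈ S, (1 : ℝ) := by rw [Finset.sum_const, nsmul_eq_mul, mul_one]
    _ ≤ ∑ b ∈ S, Real.exp (M - ∑ i, (if b i = 0 then (0 : ℝ) else T + |(b i : ℝ)|)) := by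
        refine Finset.sum_le_sum fun b hb => ?_
        have := Real.one_le_exp (x := M - ∑ i, (if b i = 0 then (0 : ℝ) else T + |(b i : ℝ)|))
          (by linarith [hS b hb])
        exact this
    _ ≤ ∑ b ∈ Fintype.piFinset fun _ : Fin m => Finset.Icc (-(B : ℤ)) (B : ℤ),
          Real.exp (M - ∑ i, (if b i = 0 then (0 : ℝ) else T + |(b i : ℝ)|)) :=
        Finset.sum_le_sum_of_subset_of_nonneg hB fun _ _ _ => (Real.exp_pos _).le
    _ = Real.exp M * (∑ k ∈ Finset.Icc (-(B : ℤ)) (B : ℤ),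
          Real.exp (-(if k = 0 then (0 : ℝ) else T + |(k : ℝ)|))) ^ m := by
        simp only [e1]
        rw [← Finset.mul_sum]
        congr 1
        have h := Finset.prod_univ_sum (fun _ : Fin m => Finset.Icc (-(B : ℤ)) (B : ℤ))
          (fun _ k => Real.exp (-(if k = 0 then (0 : ℝ) else T + |(k : ℝ)|)))
        rw [← h, Finset.prod_const, Finset.card_univ, Fintype.card_fin]
    _ ≤ Real.exp M * Real.exp (2 * Real.exp (-T)) ^ m := by
        refine mul_le_mul_of_nonneg_left (pow_le_pow_left₀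
          (Finset.sum_nonneg fun _ _ => (Real.exp_pos _).le) ?_ m) (Real.exp_pos _).le
        refine (D1b_one T B).trans ?_
        have h1 : 0 ≤ (1 / 2 : ℝ) ^ B := by positivity
        have h2 : 0 < Real.exp (-T) := Real.exp_pos _
        have h3 := Real.add_one_le_exp (2 * Real.exp (-T))
        nlinarith
    _ = Real.exp (M + 2 * m * Real.exp (-T)) := by
        rw [← Real.exp_nat_mul, ← Real.exp_add]
        congr 1
        ring

end Vale.Agent.P110U
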