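import Vale.Agent.Lib.P110U.Defs

/-! P110U: module D1c. -/

namespace Vale.Agent.P110U

open MeasureTheory Filter Topology
open scoped ComplexConjugate ENNReal
open Vale.Agent.P110F

private lemma D1c_sum (n : ℕ) (e0 : Fin n → Bool) :
    ∑ e : Fin n → Bool, ∏ j, (if e j ≠ e0 j then (1 / 4 : ℝ) else 1) = (5 / 4 : ℝ) ^ n := by
  have h := Finset.prod_univ_sum (ι := Fin n) (κ := fun _ => Bool) (R := ℝ)
    (fun _ => Finset.univ) (fun j b => if b ≠ e0 j then (1 / 4 : ℝ) else 1)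
  rw [Fintype.piFinset_univ] at h
  rw [← h]
  have h2 : ∀ j : Fin n, ∑ b : Bool, (if b ≠ e0 j then (1 / 4 : ℝ) else 1) = 5 / 4 := by
    intro j
    rw [Fintype.sum_bool]
    cases e0 j <;> simp <;> norm_num
  rw [Finset.prod_congr rfl fun j _ => h2 j, Finset.prod_const, Finset.card_univ, Fintype.card_fin]

private lemma D1c_prod (n : ℕ) (e e0 : Fin n → Bool) :
    ∏ j, (if e j ≠ e0 j then (1 / 4 : ℝ) else 1) =
      (1 / 4 : ℝ) ^ (Finset.univ.filter fun j => e j ≠ e0 j).card := by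
  rw [Finset.prod_ite, Finset.prod_const, Finset.prod_const_one, mul_one]

/-- A large set of sign vectors contains two vectors at distance at least `n / 5`. -/
theorem exists_far (n : ℕ) (S : Finset (Fin n → Bool)) (h : (1.65 : ℝ) ^ n < S.card) :
    ∃ ε ∈ S, ∃ ε' ∈ S, n ≤ 5 * (Finset.univ.filter fun j => ε j ≠ ε' j).card := by
  by_contra hcon
  push Not at hcon
  have hpos : (0 : ℝ) < S.card := lt_trans (by positivity) h
  have hne : S.Nonempty := by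
    rw [← Finset.card_pos]
    exact_mod_cast hpos
  obtain ⟨e0, he0⟩ := hne
  set c : ℝ := (1 / 4 : ℝ) ^ ((n : ℝ) / 5) with hc
  have hc0 : 0 < c := Real.rpow_pos_of_pos (by norm_num) _
  have hc5 : c ^ 5 = (1 / 4 : ℝ) ^ n := by
    rw [hc, ← Real.rpow_natCast, ← Real.rpow_mul (by norm_num), ← Real.rpow_natCast (1 / 4 : ℝ) n]
    congr 1
    push_cast
    ring
  have h1 : ∀ e ∈ S, c ≤ ∏ j, (if e j ≠ e0 j then (1 / 4 : ℝ) else 1) := by
    intro e he
    rw [D1c_prod, ← Real.rpow_natCast, hc]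
    refine Real.rpow_le_rpow_of_exponent_ge (by norm_num) (by norm_num) ?_
    have h2 := hcon e he e0 he0
    have h3 : (5 : ℝ) * ((Finset.univ.filter fun j => e j ≠ e0 j).card : ℝ) ≤ n := by
      exact_mod_cast h2.le
    linarith
  have h2 : (S.card : ℝ) * c ≤ (5 / 4 : ℝ) ^ n := by
    calc (S.card : ℝ) * c = ∑ _e ∈ S, c := by rw [Finset.sum_const, nsmul_eq_mul]
      _ ≤ ∑ e ∈ S, ∏ j, (if e j ≠ e0 j then (1 / 4 : ℝ) else 1) := Finset.sum_le_sum h1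
      _ ≤ ∑ e : Fin n → Bool, ∏ j, (if e j ≠ e0 j then (1 / 4 : ℝ) else 1) := by
          refine Finset.sum_le_sum_of_subset_of_nonneg (Finset.subset_univ _) fun e _ _ => ?_
          exact Finset.prod_nonneg fun j _ => by split_ifs <;> norm_num
      _ = (5 / 4 : ℝ) ^ n := D1c_sum n e0
  have h3 : (1.65 : ℝ) ^ n * c < (5 / 4 : ℝ) ^ n :=
    lt_of_lt_of_le (mul_lt_mul_of_pos_right h hc0) h2
  have h4 : ((1.65 : ℝ) ^ n * c) ^ 5 < ((5 / 4 : ℝ) ^ n) ^ 5 :=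
    pow_lt_pow_left₀ h3 (by positivity) (by norm_num)
  have h5 : ((1.65 : ℝ) ^ n * c) ^ 5 = ((1.65 : ℝ) ^ 5 * (1 / 4)) ^ n := by
    rw [mul_pow, hc5, ← pow_mul, mul_comm n 5, pow_mul, mul_pow]
  have h6 : ((5 / 4 : ℝ) ^ n) ^ 5 = ((5 / 4 : ℝ) ^ 5) ^ n := by
    rw [← pow_mul, mul_comm n 5, pow_mul]
  rw [h5, h6] at h4
  have h7 : ((5 / 4 : ℝ) ^ 5) ^ n ≤ ((1.65 : ℝ) ^ 5 * (1 / 4)) ^ n :=
    pow_le_pow_left₀ (by positivity) (by norm_num) n
  linarith

end Vale.Agent.P110U
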