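import Vale.Agent.Lib.P110U.Defs
import Vale.Agent.Lib.P110U.D1a
import Vale.Agent.Lib.P110U.D1b
import Vale.Agent.Lib.P110U.D1c

/-! P110U: module D1. -/

namespace Vale.Agent.P110U

open MeasureTheory Filter Topology
open scoped ComplexConjugate ENNReal
open Vale.Agent.P110F

private theorem D1_num1 {u : ℝ} (hu : 1 ≤ u) : 9765625 * u ^ 4 ≤ Real.exp (50 * u) := by
  have h1 : 5 * u ≤ Real.exp (5 * u) := by
    have := Real.add_one_le_exp (5 * u)
    linarith
  have h2 : Real.exp (50 * u) = Real.exp (5 * u) ^ 10 := by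
    rw [← Real.exp_nat_mul]
    congr 1
    push_cast
    ring
  have h3 : (5 * u) ^ 10 ≤ Real.exp (5 * u) ^ 10 := pow_le_pow_left₀ (by linarith) h1 10
  have h4 : u ^ 4 ≤ u ^ 10 := pow_le_pow_right₀ hu (by norm_num)
  have h5 : (5 * u) ^ 10 = 9765625 * u ^ 10 := by ring
  rw [h2]
  linarith

private theorem D1_num2 {u : ℝ} (hu : 1 ≤ u) :
    u ^ 2 * Real.exp (-(50 * u)) * (2 * Real.log (400 * u ^ 2) + 4) ≤ 1 / 200 := by
  have h1 := D1_num1 hu
  have hx : Real.exp (-(50 * u)) * Real.exp (50 * u) = 1 := by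
    rw [← Real.exp_add]
    simp
  have h2 : Real.log (400 * u ^ 2) ≤ 400 * u ^ 2 - 1 :=
    Real.log_le_sub_one_of_pos (by positivity)
  have hx0 := Real.exp_pos (-(50 * u))
  have h3 : u ^ 4 * Real.exp (-(50 * u)) ≤ 1 / 9765625 := by
    have h := mul_le_mul_of_nonneg_left h1 hx0.le
    rw [hx] at h
    linarith
  have h4 : 1 ≤ u ^ 2 := one_le_pow₀ hu
  have h5 : u ^ 2 * Real.exp (-(50 * u)) * (2 * Real.log (400 * u ^ 2) + 4) ≤
      u ^ 2 * Real.exp (-(50 * u)) * (804 * u ^ 2) := by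
    refine mul_le_mul_of_nonneg_left ?_ (by positivity)
    linarith
  have h6 : u ^ 2 * Real.exp (-(50 * u)) * (804 * u ^ 2) =
      804 * (u ^ 4 * Real.exp (-(50 * u))) := by ring
  rw [h6] at h5
  linarith

private theorem D1_num3 {n : ℕ} (hn : 6 ≤ n) :
    2 * (Real.exp (3 / 200 * n) * (1.65 : ℝ) ^ n) < 2 ^ n := by
  have h0 : Real.exp (3 / 200 : ℝ) ≤ 102 / 100 := by
    have h1 := Real.add_one_le_exp (-(3 / 200) : ℝ)
    have h2 : Real.exp (-(3 / 200) : ℝ) * Real.exp (3 / 200 : ℝ) = 1 := by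
      rw [← Real.exp_add]
      simp
    have h3 := Real.exp_pos (3 / 200 : ℝ)
    nlinarith
  have h2 : Real.exp (3 / 200 * n) = Real.exp (3 / 200 : ℝ) ^ n := by
    rw [← Real.exp_nat_mul]
    congr 1
    ring
  have h3 : Real.exp (3 / 200 * n) * (1.65 : ℝ) ^ n ≤ (1683 / 1000 : ℝ) ^ n := by
    rw [h2, ← mul_pow]
    refine pow_le_pow_left₀ (by positivity) ?_ n
    have h4 := mul_le_mul_of_nonneg_right h0 (by norm_num : (0 : ℝ) ≤ 1.65)
    refine h4.trans ?_
    norm_num
  have h4 : ∀ k : ℕ, 6 ≤ k → 2 * (1683 / 1000 : ℝ) ^ k < 2 ^ k := by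
    intro k hk
    induction k, hk using Nat.le_induction with
    | base => norm_num
    | succ k _ ih =>
      rw [pow_succ, pow_succ]
      have : (0 : ℝ) < (1683 / 1000) ^ k := by positivity
      nlinarith
  have h5 := h4 n hn
  linarith

private theorem D1_count {n : ℕ} (hn : 0 < n) (a : Fin n → ℝ) (ha : ∀ j, |a j| ≤ 1) {D : ℝ}
    (hD : 0 < D) (s : ℕ) :
    ((Finset.univ.filter fun ε : Fin n → Bool => s + 1 ≤
      (round ((∑ j, a j * (if ε j then (1 : ℝ) else -1)) / (2 * D))).natAbs).card : ℝ) ≤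
      2 * 2 ^ n * Real.exp (-(D ^ 2 / (2 * n))) ^ (s + 1) := by
  have hn' : (0 : ℝ) < n := by exact_mod_cast hn
  have h1 := hoeffding_count n a ha (t := (2 * s + 1) * D) (by positivity)
  have h2 : (Finset.univ.filter fun ε : Fin n → Bool => s + 1 ≤
      (round ((∑ j, a j * (if ε j then (1 : ℝ) else -1)) / (2 * D))).natAbs) ⊆
      (Finset.univ.filter fun ε : Fin n → Bool =>
      (2 * s + 1) * D ≤ |∑ j, a j * (if ε j then (1 : ℝ) else -1)|) := by
    intro ε hε
    rw [Finset.mem_filter] at hε ⊢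
    refine ⟨hε.1, ?_⟩
    have h3 := hε.2
    set y : ℝ := ∑ j, a j * (if ε j then (1 : ℝ) else -1) with hy
    have h4 := abs_sub_round (y / (2 * D))
    have h5 : ((s : ℝ) + 1) ≤ |((round (y / (2 * D)) : ℤ) : ℝ)| := by
      rw [← Int.cast_abs, Int.abs_eq_natAbs]
      exact_mod_cast h3
    have h6 : |((round (y / (2 * D)) : ℤ) : ℝ)| ≤ |y / (2 * D)| + 1 / 2 := by
      have h7 := abs_sub_abs_le_abs_sub (((round (y / (2 * D)) : ℤ) : ℝ)) (y / (2 * D))
      rw [abs_sub_comm] at h7
      linarith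
    rw [abs_div, abs_of_pos (by positivity : (0 : ℝ) < 2 * D)] at h6
    have h8 : (s : ℝ) + 1 / 2 ≤ |y| / (2 * D) := by linarith
    rw [le_div_iff₀ (by positivity)] at h8
    linarith
  have h3 : ((Finset.univ.filter fun ε : Fin n → Bool => s + 1 ≤
      (round ((∑ j, a j * (if ε j then (1 : ℝ) else -1)) / (2 * D))).natAbs).card : ℝ) ≤
      ((Finset.univ.filter fun ε : Fin n → Bool =>
      (2 * s + 1) * D ≤ |∑ j, a j * (if ε j then (1 : ℝ) else -1)|).card : ℝ) := by
    exact_mod_cast Finset.card_le_card h2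
  refine h3.trans (h1.trans ?_)
  refine mul_le_mul_of_nonneg_left ?_ (by positivity)
  rw [← Real.exp_nat_mul, Real.exp_le_exp]
  have h4 : ((2 * s + 1) * D) ^ 2 / (2 * n) = (2 * s + 1) ^ 2 * (D ^ 2 / (2 * n)) := by ring
  rw [h4]
  push_cast
  have h5 : 0 ≤ D ^ 2 / (2 * n) := by positivity
  have h6 : ((s : ℝ) + 1) ≤ (2 * s + 1) ^ 2 := by
    have : (0 : ℝ) ≤ s := by positivity
    nlinarith
  have h7 := mul_le_mul_of_nonneg_right h6 h5
  linarith

private theorem D1_cost {n : ℕ} (hn : 0 < n) (a : Fin n → ℝ) (ha : ∀ j, |a j| ≤ 1) {D T : ℝ}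
    (hD : 0 < D) (hT : 0 ≤ T) (hx : Real.exp (-(D ^ 2 / (2 * n))) ≤ 1 / 2) :
    ∑ ε : Fin n → Bool, (if round ((∑ j, a j * (if ε j then (1 : ℝ) else -1)) / (2 * D)) = 0
      then (0 : ℝ) else T +
        |((round ((∑ j, a j * (if ε j then (1 : ℝ) else -1)) / (2 * D)) : ℤ) : ℝ)|) ≤
    2 ^ n * (Real.exp (-(D ^ 2 / (2 * n))) * (2 * T + 4)) := by
  set β : (Fin n → Bool) → ℤ := fun ε =>
    round ((∑ j, a j * (if ε j then (1 : ℝ) else -1)) / (2 * D)) with hβ
  set x : ℝ := Real.exp (-(D ^ 2 / (2 * n))) with hxd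
  have hx0 : 0 < x := Real.exp_pos _
  have hcount : ∀ s : ℕ, ((Finset.univ.filter fun ε : Fin n → Bool =>
      s + 1 ≤ (β ε).natAbs).card : ℝ) ≤ 2 * 2 ^ n * x ^ (s + 1) := fun s => D1_count hn a ha hD s
  have hpt : ∀ ε, (if β ε = 0 then (0 : ℝ) else T + |((β ε : ℤ) : ℝ)|) ≤
      T * (if 0 + 1 ≤ (β ε).natAbs then 1 else 0) + ((β ε).natAbs : ℝ) := by
    intro ε
    by_cases h : β ε = 0
    · rw [if_pos h]
      have : (0 : ℝ) ≤ (if 0 + 1 ≤ (β ε).natAbs then 1 else 0) := by split_ifs <;> norm_num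
      positivity
    · rw [if_neg h, if_pos (by have := Int.natAbs_pos.2 h; omega), mul_one, Nat.cast_natAbs,
        Int.cast_abs]
  set K : ℕ := ∑ ε, (β ε).natAbs with hK
  have hle : ∀ ε, (β ε).natAbs ≤ K := fun ε =>
    Finset.single_le_sum (f := fun ε => (β ε).natAbs) (fun _ _ => Nat.zero_le _)
      (Finset.mem_univ ε)
  have hlayer : ∀ ε, ((β ε).natAbs : ℝ) =
      ∑ s ∈ Finset.range K, (if s + 1 ≤ (β ε).natAbs then (1 : ℝ) else 0) := by
    intro ε
    rw [Finset.sum_boole]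
    have : (Finset.range K).filter (fun s => s + 1 ≤ (β ε).natAbs) =
        Finset.range (β ε).natAbs := by
      ext s
      rw [Finset.mem_filter, Finset.mem_range, Finset.mem_range]
      have := hle ε
      omega
    rw [this, Finset.card_range]
  have hgeom : ∑ s ∈ Finset.range K, x ^ (s + 1) ≤ 2 * x := by
    have h1 : ∑ s ∈ Finset.range K, x ^ (s + 1) = (∑ s ∈ Finset.range K, x ^ s) * x := by
      rw [Finset.sum_mul]
      exact Finset.sum_congr rfl fun s _ => pow_succ x s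
    have h2 := mul_neg_geom_sum x K
    have h3 : 0 < x ^ K := by positivity
    have h4 : 0 ≤ ∑ s ∈ Finset.range K, x ^ s := Finset.sum_nonneg fun s _ => by positivity
    have h5 : ∑ s ∈ Finset.range K, x ^ s ≤ 2 := by nlinarith
    rw [h1]
    exact mul_le_mul_of_nonneg_right h5 hx0.le
  have hsum : ∑ ε, ((β ε).natAbs : ℝ) ≤ 2 * 2 ^ n * (2 * x) := by
    rw [Finset.sum_congr rfl fun ε _ => hlayer ε, Finset.sum_comm]
    have h1 : ∀ s ∈ Finset.range K, ∑ ε, (if s + 1 ≤ (β ε).natAbs then (1 : ℝ) else 0) ≤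
        2 * 2 ^ n * x ^ (s + 1) := by
      intro s _
      rw [Finset.sum_boole]
      exact hcount s
    refine (Finset.sum_le_sum h1).trans ?_
    rw [← Finset.mul_sum]
    exact mul_le_mul_of_nonneg_left hgeom (by positivity)
  refine (Finset.sum_le_sum fun ε _ => hpt ε).trans ?_
  rw [Finset.sum_add_distrib, ← Finset.mul_sum, Finset.sum_boole]
  have h1 := mul_le_mul_of_nonneg_left (hcount 0) hT
  have h2 : T * (2 * 2 ^ n * x ^ (0 + 1)) + 2 * 2 ^ n * (2 * x) =
      2 ^ n * (x * (2 * T + 4)) := by ring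
  linarith

/-- Partial colouring lemma. -/
theorem partial_colouring : ∃ C : ℝ, 0 < C ∧ ∀ (n m : ℕ), 0 < n → n ≤ m →
    ∀ a : Fin m → Fin n → ℝ, (∀ i j, |a i j| ≤ 1) →
    ∃ χ : Fin n → ℝ, (∀ j, χ j = 0 ∨ χ j = 1 ∨ χ j = -1) ∧
      n ≤ 5 * (Finset.univ.filter fun j => χ j ≠ 0).card ∧
      ∀ i, |∑ j, a i j * χ j| ≤ C * Real.sqrt (Real.sqrt ((n : ℝ) * m)) := by
  refine ⟨10, by norm_num, fun n m hn hnm a ha => ?_⟩
  have hn' : (1 : ℝ) ≤ n := by exact_mod_cast hn
  have hnm' : (n : ℝ) ≤ m := by exact_mod_cast hnm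
  have hm' : (1 : ℝ) ≤ m := hn'.trans hnm'
  rcases Nat.lt_or_ge n 6 with h6 | h6
  · -- one coordinate
    refine ⟨fun j => if j = ⟨0, hn⟩ then 1 else 0, fun j => ?_, ?_, fun i => ?_⟩
    · by_cases h : j = ⟨0, hn⟩
      · right
        left
        exact if_pos h
      · left
        exact if_neg h
    · have h1 : (⟨0, hn⟩ : Fin n) ∈ Finset.univ.filter
          fun j => (fun j : Fin n => if j = ⟨0, hn⟩ then (1 : ℝ) else 0) j ≠ 0 := by
        rw [Finset.mem_filter]
        refine ⟨Finset.mem_univ _, ?_⟩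
        simp
      have h2 := Finset.card_pos.2 ⟨_, h1⟩
      omega
    · have h1 : ∑ j, a i j * (if j = ⟨0, hn⟩ then (1 : ℝ) else 0) = a i ⟨0, hn⟩ := by
        simp
      rw [h1]
      have h2 : (1 : ℝ) ≤ Real.sqrt (Real.sqrt ((n : ℝ) * m)) := by
        rw [Real.one_le_sqrt, Real.one_le_sqrt]
        nlinarith
      have h3 := ha i ⟨0, hn⟩
      linarith
  · set u : ℝ := Real.sqrt (m / n) with hu
    have hn0 : (0 : ℝ) < n := by linarith
    have hu1 : 1 ≤ u := by
      rw [hu, Real.one_le_sqrt, le_div_iff₀ hn0]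
      linarith
    have hu2 : u ^ 2 = m / n := Real.sq_sqrt (by positivity)
    have hm2 : (m : ℝ) = n * u ^ 2 := by
      rw [hu2]
      field_simp
    have hnm2 : Real.sqrt ((n : ℝ) * m) = n * u := by
      have h1 : (n : ℝ) * m = (n * u) ^ 2 := by
        rw [hm2]
        ring
      rw [h1, Real.sqrt_sq (by positivity)]
    rw [hnm2]
    set D : ℝ := 10 * Real.sqrt (n * u) with hD
    have hD0 : 0 < D := by
      have : 0 < Real.sqrt (n * u) := Real.sqrt_pos.2 (by positivity)
      positivity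
    have hD2 : D ^ 2 / (2 * n) = 50 * u := by
      rw [hD, mul_pow, Real.sq_sqrt (by positivity)]
      field_simp
      ring
    set T : ℝ := Real.log (400 * u ^ 2) with hT
    have hu2' : 1 ≤ u ^ 2 := one_le_pow₀ hu1
    have hT0 : 0 ≤ T := Real.log_nonneg (by linarith)
    have hTe : Real.exp (-T) = (400 * u ^ 2)⁻¹ := by
      rw [Real.exp_neg, hT, Real.exp_log (by positivity)]
    have hx : Real.exp (-(D ^ 2 / (2 * n))) ≤ 1 / 2 := by
      rw [hD2]
      have h1 := D1_num1 hu1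
      have hx2 : Real.exp (-(50 * u)) * Real.exp (50 * u) = 1 := by
        rw [← Real.exp_add]
        simp
      have hx0 := Real.exp_pos (-(50 * u))
      have h4 : 1 ≤ u ^ 4 := one_le_pow₀ hu1
      have h5 : 2 ≤ Real.exp (50 * u) := by linarith
      nlinarith
    set L : Fin m → (Fin n → Bool) → ℝ := fun i ε =>
      ∑ j, a i j * (if ε j then (1 : ℝ) else -1) with hL
    set b : (Fin n → Bool) → Fin m → ℤ := fun ε i => round (L i ε / (2 * D)) with hb
    set cost : (Fin n → Bool) → ℝ := fun ε =>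
      ∑ i, (if b ε i = 0 then (0 : ℝ) else T + |((b ε i : ℤ) : ℝ)|) with hcost
    have hcost0 : ∀ ε, 0 ≤ cost ε := fun ε => Finset.sum_nonneg fun i _ => by
      split_ifs
      · exact le_refl _
      · positivity
    have htot : ∑ ε, cost ε ≤ 2 ^ n * (n / 200) := by
      rw [hcost, Finset.sum_comm]
      have h1 : ∀ i ∈ (Finset.univ : Finset (Fin m)),
          ∑ ε, (if b ε i = 0 then (0 : ℝ) else T + |((b ε i : ℤ) : ℝ)|) ≤
          2 ^ n * (Real.exp (-(50 * u)) * (2 * T + 4)) := by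
        intro i _
        have h2 := D1_cost hn (a i) (ha i) hD0 hT0 hx
        rw [hD2] at h2
        exact h2
      refine (Finset.sum_le_sum h1).trans ?_
      rw [Finset.sum_const, Finset.card_univ, Fintype.card_fin, nsmul_eq_mul, hm2]
      have h2 := D1_num2 hu1
      rw [← hT] at h2
      have h3 : (0 : ℝ) < 2 ^ n := by positivity
      have h4 := mul_le_mul_of_nonneg_left h2 (by positivity : (0 : ℝ) ≤ 2 ^ n * n)
      have h5 : (n : ℝ) * u ^ 2 * (2 ^ n * (Real.exp (-(50 * u)) * (2 * T + 4))) =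
          2 ^ n * n * (u ^ 2 * Real.exp (-(50 * u)) * (2 * T + 4)) := by ring
      rw [h5]
      refine h4.trans (le_of_eq ?_)
      ring
    classical
    set G : Finset (Fin n → Bool) := Finset.univ.filter fun ε => cost ε ≤ n / 100 with hG
    have hGcard : (2 : ℝ) ^ n / 2 ≤ G.card := by
      have h1 : ∑ ε ∈ Finset.univ.filter (fun ε => ¬ cost ε ≤ n / 100), (n / 100 : ℝ) ≤
          ∑ ε, cost ε := by
        refine (Finset.sum_le_sum fun ε hε => ?_).trans
          (Finset.sum_le_sum_of_subset_of_nonneg (Finset.filter_subset _ _)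
            fun ε _ _ => hcost0 ε)
        exact (not_le.1 (Finset.mem_filter.1 hε).2).le
      rw [Finset.sum_const, nsmul_eq_mul] at h1
      have h2 : (G.card : ℝ) +
          ((Finset.univ.filter (fun ε : Fin n → Bool => ¬ cost ε ≤ n / 100)).card : ℝ) =
          2 ^ n := by
        have h3 := Finset.card_filter_add_card_filter_not (s := Finset.univ)
          (fun ε : Fin n → Bool => cost ε ≤ n / 100)
        have h4 : (Finset.univ : Finset (Fin n → Bool)).card = 2 ^ n := by
          rw [Finset.card_univ, Fintype.card_fun, Fintype.card_bool, Fintype.card_fin]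
        rw [h4] at h3
        exact_mod_cast h3
      have h5 := h1.trans htot
      have h6 : ((Finset.univ.filter
          (fun ε : Fin n → Bool => ¬ cost ε ≤ n / 100)).card : ℝ) ≤ 2 ^ n / 2 := by
        by_contra hcon
        have h7 := mul_lt_mul_of_pos_right (not_le.1 hcon) (by positivity : (0 : ℝ) < n / 100)
        have h8 : (2 : ℝ) ^ n / 2 * (n / 100) = 2 ^ n * (n / 200) := by ring
        linarith
      linarith
    have hScard : ((G.image b).card : ℝ) ≤ Real.exp (3 / 200 * n) := by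
      have h1 := count_cost m T (n / 100) (G.image b) (by
        intro β hβ
        obtain ⟨ε, hε, rfl⟩ := Finset.mem_image.1 hβ
        exact (Finset.mem_filter.1 hε).2)
      refine h1.trans (le_of_eq ?_)
      congr 1
      rw [hTe, hm2]
      have : u ≠ 0 := by linarith
      field_simp
      ring
    obtain ⟨y, -, hy⟩ := Finset.exists_lt_card_fiber_of_nsmul_lt_card_of_maps_to
      (s := G) (t := G.image b) (f := b) (b := (1.65 : ℝ) ^ n)
      (fun ε hε => Finset.mem_image_of_mem b hε) (by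
        rw [nsmul_eq_mul]
        have h1 := D1_num3 h6
        have h2 := mul_le_mul_of_nonneg_right hScard (by positivity : (0 : ℝ) ≤ (1.65 : ℝ) ^ n)
        linarith)
    obtain ⟨ε, hε, ε', hε', hfar⟩ := exists_far n (G.filter fun x => b x = y) hy
    have hbe : b ε = b ε' := by
      rw [(Finset.mem_filter.1 hε).2, (Finset.mem_filter.1 hε').2]
    refine ⟨fun j => ((if ε j then (1 : ℝ) else -1) - (if ε' j then (1 : ℝ) else -1)) / 2,
      fun j => ?_, ?_, fun i => ?_⟩
    · cases h1 : ε j <;> cases h2 : ε' j <;> simp [h1, h2] <;> norm_num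
    · refine hfar.trans (le_of_eq ?_)
      congr 2
      ext j
      rw [Finset.mem_filter, Finset.mem_filter]
      cases h1 : ε j <;> cases h2 : ε' j <;> simp [h1, h2] <;> norm_num
    · have h1 : ∑ j, a i j * (((if ε j then (1 : ℝ) else -1) -
          (if ε' j then (1 : ℝ) else -1)) / 2) = (L i ε - L i ε') / 2 := by
        rw [hL]
        simp only
        rw [← Finset.sum_sub_distrib, Finset.sum_div]
        exact Finset.sum_congr rfl fun j _ => by ring
      rw [h1]
      have h2 : round (L i ε / (2 * D)) = round (L i ε' / (2 * D)) := congrFun hbe i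
      have h3 := abs_sub_round (L i ε / (2 * D))
      have h4 := abs_sub_round (L i ε' / (2 * D))
      rw [← h2] at h4
      have h5 : |L i ε / (2 * D) - L i ε' / (2 * D)| ≤ 1 := by
        have h6 := abs_sub_le (L i ε / (2 * D)) ((round (L i ε / (2 * D)) : ℤ) : ℝ)
          (L i ε' / (2 * D))
        rw [abs_sub_comm ((round (L i ε / (2 * D)) : ℤ) : ℝ)] at h6
        linarith
      have h6 : L i ε / (2 * D) - L i ε' / (2 * D) = ((L i ε - L i ε') / 2) / D := by
        field_simp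
      rw [h6, abs_div, abs_of_pos hD0, div_le_one hD0] at h5
      exact h5

end Vale.Agent.P110U
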