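import Vale.Agent.Lib.P110U.Defs
import Vale.Agent.Lib.P110U.D1

/-! P110U: module D2. -/

namespace Vale.Agent.P110U

open MeasureTheory Filter Topology
open scoped ComplexConjugate ENNReal
open Vale.Agent.P110F

private theorem sqrt_sqrt_le {c n m : ℝ} (hn : 0 ≤ n) (hm : 0 ≤ m) (h : 5 * c ≤ 4 * n) :
    Real.sqrt (Real.sqrt (c * m)) ≤ 95 / 100 * Real.sqrt (Real.sqrt (n * m)) := by
  have hnm : 0 ≤ n * m := mul_nonneg hn hm
  have h1 : Real.sqrt (c * m) ≤ (95 / 100) ^ 2 * Real.sqrt (n * m) := by
    rw [Real.sqrt_le_left (by positivity), mul_pow, Real.sq_sqrt hnm]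
    nlinarith
  rw [Real.sqrt_le_left (by positivity), mul_pow, Real.sq_sqrt (Real.sqrt_nonneg _)]
  exact h1

private theorem spencer_step {C₁ : ℝ} (hC : 0 < C₁) (hpc : ∀ (n m : ℕ), 0 < n → n ≤ m →
    ∀ a : Fin m → Fin n → ℝ, (∀ i j, |a i j| ≤ 1) →
    ∃ χ : Fin n → ℝ, (∀ j, χ j = 0 ∨ χ j = 1 ∨ χ j = -1) ∧
      n ≤ 5 * (Finset.univ.filter fun j => χ j ≠ 0).card ∧
      ∀ i, |∑ j, a i j * χ j| ≤ C₁ * Real.sqrt (Real.sqrt ((n : ℝ) * m)))
    (N m : ℕ) (a : Fin m → Fin N → ℝ) (ha : ∀ i j, |a i j| ≤ 1) (k : ℕ) :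
    ∀ A : Finset (Fin N), A.card = k → A.card ≤ m →
    ∃ ε : Fin N → ℝ, (∀ j, ε j = 1 ∨ ε j = -1) ∧
      ∀ i, |∑ j ∈ A, a i j * ε j| ≤ 20 * C₁ * Real.sqrt (Real.sqrt ((A.card : ℝ) * m)) := by
  classical
  induction k using Nat.strong_induction_on with
  | _ k ih =>
    intro A hAk hAm
    rcases Nat.eq_zero_or_pos A.card with h0 | hpos
    · refine ⟨fun _ => 1, fun _ => Or.inl rfl, fun i => ?_⟩
      have : A = ∅ := Finset.card_eq_zero.1 h0
      subst this
      simp
    · obtain ⟨χ, hχ, hcard, hbd⟩ := hpc A.card m hpos hAm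
        (fun i j => a i (A.equivFin.symm j)) (fun i j => ha _ _)
      set χ' : Fin N → ℝ := fun x => if hx : x ∈ A then χ (A.equivFin ⟨x, hx⟩) else 0 with hχ'
      have hval : ∀ j : Fin A.card, χ' (A.equivFin.symm j) = χ j := by
        intro j
        simp only [hχ']
        rw [dif_pos (A.equivFin.symm j).2]
        congr 1
        exact A.equivFin.apply_symm_apply j
      have hsumR : ∀ g : Fin N → ℝ, ∑ x ∈ A, g x = ∑ j : Fin A.card, g (A.equivFin.symm j) := by
        intro g
        rw [← Finset.sum_coe_sort A g]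
        exact (Equiv.sum_comp A.equivFin.symm (fun x : A => g x)).symm
      have hsumN : ∀ g : Fin N → ℕ, ∑ x ∈ A, g x = ∑ j : Fin A.card, g (A.equivFin.symm j) := by
        intro g
        rw [← Finset.sum_coe_sort A g]
        exact (Equiv.sum_comp A.equivFin.symm (fun x : A => g x)).symm
      have hc1 : (A.filter fun x => χ' x ≠ 0).card =
          (Finset.univ.filter fun j : Fin A.card => χ j ≠ 0).card := by
        rw [Finset.card_filter, Finset.card_filter, hsumN]
        refine Finset.sum_congr rfl fun j _ => ?_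
        rw [hval]
      have hc2 : (A.filter fun x => χ' x = 0).card + (A.filter fun x => χ' x ≠ 0).card = A.card :=
        Finset.card_filter_add_card_filter_not _
      set A' := A.filter fun x => χ' x = 0 with hA'
      have hlt : A'.card < k := by omega
      obtain ⟨ε', hε', hb'⟩ := ih A'.card hlt A' rfl (by omega)
      refine ⟨fun x => if χ' x = 0 then ε' x else χ' x, fun x => ?_, fun i => ?_⟩
      · by_cases h : χ' x = 0
        · simp only [h, if_true]
          exact hε' x
        · simp only [h, if_false]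
          have hx : x ∈ A := by
            by_contra hx
            exact h (by simp only [hχ']; rw [dif_neg hx])
          have h2 : χ' x = χ (A.equivFin ⟨x, hx⟩) := by simp only [hχ']; rw [dif_pos hx]
          rw [h2] at h ⊢
          rcases hχ (A.equivFin ⟨x, hx⟩) with h3 | h3 | h3
          · exact absurd h3 h
          · exact Or.inl h3
          · exact Or.inr h3
      · have hsplit : ∑ x ∈ A, a i x * (if χ' x = 0 then ε' x else χ' x) =
            ∑ x ∈ A', a i x * ε' x + ∑ x ∈ A, a i x * χ' x := by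
          rw [hA', Finset.sum_filter, ← Finset.sum_add_distrib]
          refine Finset.sum_congr rfl fun x _ => ?_
          by_cases h : χ' x = 0
          · simp [h]
          · simp [h]
        have h2 : |∑ x ∈ A, a i x * χ' x| ≤ C₁ * Real.sqrt (Real.sqrt ((A.card : ℝ) * m)) := by
          rw [hsumR]
          have h3 := hbd i
          refine le_trans (le_of_eq ?_) h3
          congr 1
          refine Finset.sum_congr rfl fun j _ => ?_
          rw [hval]
        have h4 : (5 : ℝ) * (A'.card : ℝ) ≤ 4 * (A.card : ℝ) := by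
          have : 5 * A'.card ≤ 4 * A.card := by omega
          exact_mod_cast this
        have h5 := sqrt_sqrt_le (c := (A'.card : ℝ)) (n := (A.card : ℝ)) (m := (m : ℝ))
          (by positivity) (by positivity) h4
        have h6 := hb' i
        rw [hsplit]
        refine (abs_add_le _ _).trans ?_
        have hX : 0 ≤ Real.sqrt (Real.sqrt ((A.card : ℝ) * m)) := Real.sqrt_nonneg _
        have h7 : 20 * C₁ * Real.sqrt (Real.sqrt ((A'.card : ℝ) * m)) ≤
            20 * C₁ * (95 / 100 * Real.sqrt (Real.sqrt ((A.card : ℝ) * m))) :=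
          mul_le_mul_of_nonneg_left h5 (by positivity)
        linarith

/-- Spencer's theorem (weak form, for subsets of the variables). -/
theorem spencer : ∃ C : ℝ, 0 < C ∧ ∀ (N m : ℕ) (A : Finset (Fin N)), A.card ≤ m →
    ∀ a : Fin m → Fin N → ℝ, (∀ i j, |a i j| ≤ 1) →
    ∃ ε : Fin N → ℝ, (∀ j, ε j = 1 ∨ ε j = -1) ∧
      ∀ i, |∑ j ∈ A, a i j * ε j| ≤ C * Real.sqrt (Real.sqrt ((A.card : ℝ) * m)) := by
  obtain ⟨C₁, hC, hpc⟩ := partial_colouring
  exact ⟨20 * C₁, by positivity, fun N m A hA a ha =>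
    spencer_step hC hpc N m a ha A.card A rfl hA⟩

end Vale.Agent.P110U
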