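import Vale.Agent.Lib.P110U.Defs
import Vale.Agent.Lib.P110U.D2

/-! P110U: module D3a. -/

namespace Vale.Agent.P110U

open MeasureTheory Filter Topology
open scoped ComplexConjugate ENNReal
open Vale.Agent.P110F

private lemma D3a_odd {t : ℕ} {x : ℝ} (hx : ∃ z : ℤ, x = z / 2 ^ (t + 1))
    (hn : ¬ ∃ z : ℤ, x = z / 2 ^ t) : ∃ z : ℤ, x = (2 * z + 1 : ℤ) / 2 ^ (t + 1) := by
  obtain ⟨w, hw⟩ := hx
  rcases Int.even_or_odd' w with ⟨k, hk | hk⟩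
  · exfalso
    apply hn
    refine ⟨k, ?_⟩
    rw [hw, hk, pow_succ]
    push_cast
    have h2 : (2 : ℝ) ^ t ≠ 0 := by positivity
    field_simp
  · exact ⟨k, by rw [hw, hk]⟩

private lemma D3a_step {t : ℕ} {x : ℝ} (hx : ∃ z : ℤ, x = z / 2 ^ (t + 1))
    (hn : ¬ ∃ z : ℤ, x = z / 2 ^ t) (h0 : 0 ≤ x) (h1 : x ≤ 1) {e : ℝ} (he : e = 1 ∨ e = -1) :
    (∃ z : ℤ, x + e / 2 ^ (t + 1) = z / 2 ^ t) ∧ 0 ≤ x + e / 2 ^ (t + 1) ∧
      x + e / 2 ^ (t + 1) ≤ 1 ∧ 1 ≤ 2 ^ (t + 1) * x := by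
  obtain ⟨z, hz⟩ := D3a_odd hx hn
  have hpos : (0 : ℝ) < 2 ^ (t + 1) := by positivity
  have hpost : (0 : ℝ) < 2 ^ t := by positivity
  have hxe : 2 ^ (t + 1) * x = (2 * z + 1 : ℤ) := by
    rw [hz]; field_simp
  have hz0 : 0 ≤ z := by
    have h3 : (0 : ℝ) ≤ ((2 * z + 1 : ℤ) : ℝ) := by
      rw [← hxe]; positivity
    have h4 : (0 : ℤ) ≤ 2 * z + 1 := by exact_mod_cast h3
    omega
  have hz1 : 2 * z + 1 ≤ 2 ^ (t + 1) - 1 := by
    have h3 : ((2 * z + 1 : ℤ) : ℝ) ≤ 2 ^ (t + 1) := by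
      rw [← hxe]
      nlinarith
    have h4 : 2 * z + 1 ≤ (2 : ℤ) ^ (t + 1) := by exact_mod_cast h3
    have h5 : (2 : ℤ) ^ (t + 1) = 2 * 2 ^ t := by rw [pow_succ]; ring
    omega
  have hx1 : x = (2 * (z : ℝ) + 1) / 2 ^ (t + 1) := by
    rw [hz]; push_cast; ring
  have hz0' : (0 : ℝ) ≤ z := by exact_mod_cast hz0
  have hz1' : 2 * (z : ℝ) + 1 ≤ 2 ^ (t + 1) - 1 := by exact_mod_cast hz1
  have hlow : (1 : ℝ) ≤ 2 ^ (t + 1) * x := by
    rw [hxe]; push_cast; linarith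
  rcases he with rfl | rfl
  · refine ⟨⟨z + 1, ?_⟩, ?_, ?_, hlow⟩
    · rw [hx1, pow_succ]
      push_cast
      field_simp
      ring
    · positivity
    · rw [hx1, ← add_div, div_le_one hpos]
      linarith
  · refine ⟨⟨z, ?_⟩, ?_, ?_, hlow⟩
    · rw [hx1, pow_succ]
      field_simp
      ring
    · rw [hx1, ← add_div]
      apply div_nonneg _ hpos.le
      linarith
    · have : (-1 : ℝ) / 2 ^ (t + 1) ≤ 0 := div_nonpos_of_nonpos_of_nonneg (by norm_num) hpos.le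
      linarith

/-- One level of bit by bit rounding. -/
theorem round_step : ∃ C : ℝ, 0 < C ∧ ∀ (N m : ℕ), N ≤ m →
    ∀ a : Fin m → Fin N → ℝ, (∀ i j, |a i j| ≤ 1) → ∀ t : ℕ, ∀ p : Fin N → ℝ,
    (∀ j, ∃ z : ℤ, p j = z / 2 ^ (t + 1)) → (∀ j, 0 ≤ p j ∧ p j ≤ 1) →
    ∀ U : ℝ, ∑ j, p j ≤ U →
    ∃ p' : Fin N → ℝ, (∀ j, ∃ z : ℤ, p' j = z / 2 ^ t) ∧ (∀ j, 0 ≤ p' j ∧ p' j ≤ 1) ∧
      ∀ i, |∑ j, a i j * (p' j - p j)| ≤
        C / 2 ^ (t + 1) * Real.sqrt (Real.sqrt (2 ^ (t + 1) * U * m)) := by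
  classical
  obtain ⟨C, hC, hS⟩ := spencer
  refine ⟨C, hC, ?_⟩
  intro N m hNm a ha t p hp hp01 U hU
  have hpos : (0 : ℝ) < 2 ^ (t + 1) := by positivity
  let A : Finset (Fin N) := Finset.univ.filter fun j => ¬ ∃ z : ℤ, p j = z / 2 ^ t
  have hA : ∀ j, j ∈ A ↔ ¬ ∃ z : ℤ, p j = z / 2 ^ t := by
    intro j
    simp [A]
  have hAm : A.card ≤ m := by
    refine le_trans (Finset.card_le_univ A) ?_
    simpa using hNm
  obtain ⟨ε, hε, hb⟩ := hS N m A hAm a ha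
  have hst := fun j (hj : j ∈ A) =>
    D3a_step (hp j) ((hA j).1 hj) (hp01 j).1 (hp01 j).2 (hε j)
  refine ⟨fun j => if j ∈ A then p j + ε j / 2 ^ (t + 1) else p j, ?_, ?_, ?_⟩
  · intro j
    by_cases hj : j ∈ A
    · simp only [hj, if_true]
      exact (hst j hj).1
    · simp only [hj, if_false]
      exact not_not.1 fun h => hj ((hA j).2 h)
  · intro j
    by_cases hj : j ∈ A
    · simp only [hj, if_true]
      exact ⟨(hst j hj).2.1, (hst j hj).2.2.1⟩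
    · simp only [hj, if_false]
      exact hp01 j
  · intro i
    have hsum : ∑ j, a i j * ((if j ∈ A then p j + ε j / 2 ^ (t + 1) else p j) - p j) =
        (∑ j ∈ A, a i j * ε j) / 2 ^ (t + 1) := by
      rw [Finset.sum_div, ← Finset.sum_subset (Finset.subset_univ A)]
      · refine Finset.sum_congr rfl fun j hj => ?_
        rw [if_pos hj]
        ring
      · intro j _ hj
        rw [if_neg hj]
        ring
    rw [hsum, abs_div, abs_of_pos hpos]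
    have hcard : (A.card : ℝ) ≤ 2 ^ (t + 1) * U := by
      calc (A.card : ℝ) = ∑ j ∈ A, (1 : ℝ) := by simp
        _ ≤ ∑ j ∈ A, 2 ^ (t + 1) * p j := Finset.sum_le_sum fun j hj => (hst j hj).2.2.2
        _ ≤ ∑ j, 2 ^ (t + 1) * p j :=
            Finset.sum_le_sum_of_subset_of_nonneg (Finset.subset_univ A)
              fun j _ _ => mul_nonneg hpos.le (hp01 j).1
        _ = 2 ^ (t + 1) * ∑ j, p j := by rw [Finset.mul_sum]
        _ ≤ 2 ^ (t + 1) * U := mul_le_mul_of_nonneg_left hU hpos.le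
    have h1 : Real.sqrt (Real.sqrt ((A.card : ℝ) * m)) ≤
        Real.sqrt (Real.sqrt (2 ^ (t + 1) * U * m)) :=
      Real.sqrt_le_sqrt (Real.sqrt_le_sqrt
        (mul_le_mul_of_nonneg_right hcard (Nat.cast_nonneg m)))
    calc |∑ j ∈ A, a i j * ε j| / 2 ^ (t + 1)
        ≤ (C * Real.sqrt (Real.sqrt ((A.card : ℝ) * m))) / 2 ^ (t + 1) :=
          div_le_div_of_nonneg_right (hb i) hpos.le
      _ = C / 2 ^ (t + 1) * Real.sqrt (Real.sqrt ((A.card : ℝ) * m)) := by ring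
      _ ≤ _ := mul_le_mul_of_nonneg_left h1 (by positivity)

end Vale.Agent.P110U
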