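import Vale.Agent.Lib.P110U.Defs
import Vale.Agent.Lib.P110U.D3a

/-! P110U: module D3b. -/

namespace Vale.Agent.P110U

open MeasureTheory Filter Topology
open scoped ComplexConjugate ENNReal
open Vale.Agent.P110F

private noncomputable def gs (t : ℕ) : ℝ := ∑ s ∈ Finset.range t, (3 / 5 : ℝ) ^ (s + 1)

private theorem gs_eq (t : ℕ) : gs t = 3 / 2 * (1 - (3 / 5 : ℝ) ^ t) := by
  induction t with
  | zero => simp [gs]
  | succ t ih =>
    unfold gs at ih ⊢
    rw [Finset.sum_range_succ, ih]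
    ring

private theorem gs_nonneg (t : ℕ) : 0 ≤ gs t := Finset.sum_nonneg fun s _ => by positivity

private theorem gs_le (t : ℕ) : gs t ≤ 3 / 2 := by
  rw [gs_eq]
  have : 0 ≤ (3 / 5 : ℝ) ^ t := by positivity
  linarith

private theorem gs_succ (t : ℕ) : gs (t + 1) = gs t + (3 / 5 : ℝ) ^ (t + 1) := by
  unfold gs
  rw [Finset.sum_range_succ]

private theorem sqrt_four {a x : ℝ} (ha : 0 ≤ a) :
    Real.sqrt (Real.sqrt (a ^ 4 * x)) = a * Real.sqrt (Real.sqrt x) := by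
  rw [show a ^ 4 * x = (a ^ 2) ^ 2 * x by ring, Real.sqrt_mul (by positivity),
    Real.sqrt_sq (by positivity), Real.sqrt_mul (by positivity), Real.sqrt_sq ha]

/-- the error of one level -/
private theorem err_le {C x : ℝ} (hC : 0 < C) (hx : 0 ≤ x) (t : ℕ) :
    C / 2 ^ t * Real.sqrt (Real.sqrt (2 ^ t * x)) ≤
      C * Real.sqrt (Real.sqrt x) * (3 / 5 : ℝ) ^ t := by
  have h1 : Real.sqrt (Real.sqrt (2 ^ t * x)) ≤ (6 / 5 : ℝ) ^ t * Real.sqrt (Real.sqrt x) := by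
    rw [← sqrt_four (by positivity)]
    refine Real.sqrt_le_sqrt (Real.sqrt_le_sqrt (mul_le_mul_of_nonneg_right ?_ hx))
    rw [← pow_mul, mul_comm t 4, pow_mul]
    exact pow_le_pow_left₀ (by norm_num) (by norm_num) t
  calc C / 2 ^ t * Real.sqrt (Real.sqrt (2 ^ t * x)) ≤
      C / 2 ^ t * ((6 / 5 : ℝ) ^ t * Real.sqrt (Real.sqrt x)) :=
        mul_le_mul_of_nonneg_left h1 (by positivity)
    _ = C * Real.sqrt (Real.sqrt x) * (3 / 5 : ℝ) ^ t := by
        rw [show (3 / 5 : ℝ) = (6 / 5) / 2 by norm_num, div_pow (6 / 5 : ℝ) 2 t]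
        ring

/-- from level `t` to level `0` -/
private theorem levels {C : ℝ} (hC : 0 < C)
    (hst : ∀ (N m : ℕ), N ≤ m →
      ∀ a : Fin m → Fin N → ℝ, (∀ i j, |a i j| ≤ 1) → ∀ t : ℕ, ∀ p : Fin N → ℝ,
      (∀ j, ∃ z : ℤ, p j = z / 2 ^ (t + 1)) → (∀ j, 0 ≤ p j ∧ p j ≤ 1) →
      ∀ U : ℝ, ∑ j, p j ≤ U →
      ∃ p' : Fin N → ℝ, (∀ j, ∃ z : ℤ, p' j = z / 2 ^ t) ∧ (∀ j, 0 ≤ p' j ∧ p' j ≤ 1) ∧
        ∀ i, |∑ j, a i j * (p' j - p j)| ≤
          C / 2 ^ (t + 1) * Real.sqrt (Real.sqrt (2 ^ (t + 1) * U * m)))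
    {N m : ℕ} (hNm : N ≤ m) (a : Fin m → Fin N → ℝ) (ha : ∀ i j, |a i j| ≤ 1)
    (i₁ : Fin m) (h1 : ∀ j, a i₁ j = 1) {U : ℝ} (hU : 0 ≤ U) (t : ℕ) :
    ∀ p : Fin N → ℝ, (∀ j, ∃ z : ℤ, p j = z / 2 ^ t) → (∀ j, 0 ≤ p j ∧ p j ≤ 1) →
      ∑ j, p j + C * Real.sqrt (Real.sqrt (U * m)) * gs t ≤ U →
      ∃ f : Fin N → ℝ, (∀ j, ∃ z : ℤ, f j = z / 2 ^ 0) ∧ (∀ j, 0 ≤ f j ∧ f j ≤ 1) ∧
        ∀ i, |∑ j, a i j * (f j - p j)| ≤ C * Real.sqrt (Real.sqrt (U * m)) * gs t := by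
  induction t with
  | zero =>
    intro p hp hp1 _
    refine ⟨p, hp, hp1, fun i => ?_⟩
    have h2 := gs_nonneg 0
    simp only [sub_self, mul_zero, Finset.sum_const_zero, abs_zero]
    positivity
  | succ t ih =>
    intro p hp hp1 hS
    have hg := gs_nonneg (t + 1)
    have hK : 0 ≤ C * Real.sqrt (Real.sqrt (U * m)) := by positivity
    have hSU : ∑ j, p j ≤ U := by
      have : 0 ≤ C * Real.sqrt (Real.sqrt (U * m)) * gs (t + 1) := mul_nonneg hK hg
      linarith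
    obtain ⟨p', hp', hp1', he⟩ := hst N m hNm a ha t p hp hp1 U hSU
    have he' : ∀ i, |∑ j, a i j * (p' j - p j)| ≤
        C * Real.sqrt (Real.sqrt (U * m)) * (3 / 5 : ℝ) ^ (t + 1) := by
      intro i
      refine (he i).trans ?_
      rw [mul_assoc ((2 : ℝ) ^ (t + 1)) U]
      exact err_le hC (by positivity) (t + 1)
    have hone := he' i₁
    simp only [h1, one_mul, Finset.sum_sub_distrib] at hone
    have hone' := (le_abs_self _).trans hone
    rw [gs_succ, mul_add] at hS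
    obtain ⟨f, hf, hf1, hfe⟩ := ih p' hp' hp1' (by linarith)
    refine ⟨f, hf, hf1, fun i => ?_⟩
    have e1 : ∑ j, a i j * (f j - p j) =
        ∑ j, a i j * (f j - p' j) + ∑ j, a i j * (p' j - p j) := by
      rw [← Finset.sum_add_distrib]
      exact Finset.sum_congr rfl fun j _ => by ring
    rw [e1, gs_succ, mul_add]
    exact (abs_add_le _ _).trans (add_le_add (hfe i) (he' i))

/-- Rounding a small fractional vector. -/
theorem round_small (r : ℕ) {η : ℝ} (hη : 0 < η) : ∃ δ : ℝ, 0 < δ ∧ ∃ N₀ : ℕ, ∀ N ≥ N₀,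
    ∀ a : Fin (r * N) → Fin N → ℝ, (∀ i j, |a i j| ≤ 1) →
    ∀ p : Fin N → ℝ, (∀ j, 0 ≤ p j ∧ p j ≤ 1) → ∑ j, p j ≤ δ * N →
    ∃ f : Fin N → ℝ, (∀ j, f j = 0 ∨ f j = 1) ∧
      ∀ i, |∑ j, a i j * (f j - p j)| ≤ η * Real.sqrt N := by
  obtain ⟨C, hC, hst⟩ := round_step
  set δ : ℝ := (η / (3 * C)) ^ 4 / (2 * (r + 2)) with hδ
  have hδ0 : 0 < δ := by positivity
  refine ⟨δ, hδ0, ⌈(η / (2 * δ) + 2 / η) ^ 2⌉₊ + 1, fun N hN a ha p hp hS => ?_⟩
  have hN1 : 1 ≤ N := by omega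
  have hNR : (1 : ℝ) ≤ N := by exact_mod_cast hN1
  have hsq : η / (2 * δ) + 2 / η ≤ Real.sqrt N := by
    refine Real.le_sqrt_of_sq_le ?_
    have h1 := Nat.le_ceil ((η / (2 * δ) + 2 / η) ^ 2)
    have h2 : ((⌈(η / (2 * δ) + 2 / η) ^ 2⌉₊ + 1 : ℕ) : ℝ) ≤ N := by exact_mod_cast hN
    push_cast at h2
    linarith
  have hs1 : 1 ≤ η / 2 * Real.sqrt N := by
    have h1 : 0 ≤ η / (2 * δ) := by positivity
    have h2 : 2 / η ≤ Real.sqrt N := by linarith
    calc (1 : ℝ) = η / 2 * (2 / η) := by field_simp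
      _ ≤ η / 2 * Real.sqrt N := mul_le_mul_of_nonneg_left h2 (by positivity)
  have hs2 : η / 2 * Real.sqrt N ≤ δ * N := by
    have h1 : 0 ≤ 2 / η := by positivity
    have h2 : η / (2 * δ) ≤ Real.sqrt N := by linarith
    have h3 : η / 2 ≤ δ * Real.sqrt N := by
      calc η / 2 = δ * (η / (2 * δ)) := by field_simp
        _ ≤ δ * Real.sqrt N := mul_le_mul_of_nonneg_left h2 hδ0.le
    calc η / 2 * Real.sqrt N ≤ δ * Real.sqrt N * Real.sqrt N :=
          mul_le_mul_of_nonneg_right h3 (Real.sqrt_nonneg _)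
      _ = δ * N := by rw [mul_assoc, Real.mul_self_sqrt (by positivity)]
  set m : ℕ := (r + 1) * N + 1 with hm
  have hmR : (m : ℝ) ≤ (r + 2) * N := by
    rw [hm]
    push_cast
    nlinarith
  have hNm : N ≤ m := by rw [hm]; nlinarith
  set U : ℝ := 2 * δ * N with hU
  have hU0 : 0 ≤ U := by positivity
  have hK : C * Real.sqrt (Real.sqrt (U * m)) * (3 / 2) ≤ η / 2 * Real.sqrt N := by
    have h1 : U * m ≤ (η / (3 * C) * Real.sqrt N) ^ 4 * 1 := by
      have h2 : (η / (3 * C) * Real.sqrt N) ^ 4 * 1 = (η / (3 * C)) ^ 4 * (N : ℝ) ^ 2 := by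
        rw [mul_pow, mul_one]
        congr 1
        rw [show (4 : ℕ) = 2 * 2 by norm_num, pow_mul, Real.sq_sqrt (by positivity)]
      have h3 : (η / (3 * C)) ^ 4 = δ * (2 * (r + 2)) := by
        rw [hδ]
        field_simp
      rw [h2, h3, hU]
      calc 2 * δ * N * m ≤ 2 * δ * N * ((r + 2) * N) :=
            mul_le_mul_of_nonneg_left hmR (by positivity)
        _ = δ * (2 * (r + 2)) * (N : ℝ) ^ 2 := by ring
    have h4 : Real.sqrt (Real.sqrt (U * m)) ≤ η / (3 * C) * Real.sqrt N := by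
      refine (Real.sqrt_le_sqrt (Real.sqrt_le_sqrt h1)).trans (le_of_eq ?_)
      rw [sqrt_four (by positivity), Real.sqrt_one, Real.sqrt_one, mul_one]
    calc C * Real.sqrt (Real.sqrt (U * m)) * (3 / 2) ≤
        C * (η / (3 * C) * Real.sqrt N) * (3 / 2) := by gcongr
      _ = η / 2 * Real.sqrt N := by field_simp
  -- the matrix with a row of ones
  set a' : Fin m → Fin N → ℝ := fun i j =>
    if h : (i : ℕ) < r * N then a ⟨i, h⟩ j else if (i : ℕ) = r * N then 1 else 0 with ha'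
  have ha1 : ∀ i j, |a' i j| ≤ 1 := by
    intro i j
    simp only [ha']
    split_ifs
    · exact ha _ _
    · simp
    · simp
  have hlt : r * N < m := by rw [hm]; nlinarith
  have hrow : ∀ j, a' ⟨r * N, hlt⟩ j = 1 := by
    intro j
    simp only [ha', lt_irrefl, dite_false, if_true]
  -- the dyadic approximation
  have h2N : (0 : ℝ) < 2 ^ N := by positivity
  set q : Fin N → ℝ := fun j => (⌊2 ^ N * p j⌋ : ℤ) / 2 ^ N with hq
  have hq1 : ∀ j, q j ≤ p j := by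
    intro j
    simp only [hq]
    rw [div_le_iff₀ h2N, mul_comm]
    exact Int.floor_le _
  have hq2 : ∀ j, p j - q j ≤ 1 / 2 ^ N := by
    intro j
    simp only [hq]
    rw [sub_le_iff_le_add, ← add_div, le_div_iff₀ h2N, mul_comm]
    have := Int.lt_floor_add_one (2 ^ N * p j)
    linarith
  have hq0 : ∀ j, 0 ≤ q j := by
    intro j
    simp only [hq]
    refine div_nonneg ?_ h2N.le
    exact_mod_cast Int.floor_nonneg.2 (mul_nonneg h2N.le (hp j).1)
  have hqs : ∑ j, q j ≤ δ * N := (Finset.sum_le_sum fun j _ => hq1 j).trans hS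
  have hlev : ∑ j, q j + C * Real.sqrt (Real.sqrt (U * m)) * gs N ≤ U := by
    have h1 : C * Real.sqrt (Real.sqrt (U * m)) * gs N ≤
        C * Real.sqrt (Real.sqrt (U * m)) * (3 / 2) :=
      mul_le_mul_of_nonneg_left (gs_le N) (by positivity)
    rw [hU] at h1 hK ⊢
    linarith
  obtain ⟨f, hf, hf1, hfe⟩ := levels hC hst hNm a' ha1 ⟨r * N, hlt⟩ hrow hU0 N q
    (fun j => ⟨⌊2 ^ N * p j⌋, rfl⟩) (fun j => ⟨hq0 j, (hq1 j).trans (hp j).2⟩) hlev
  refine ⟨f, fun j => ?_, fun i => ?_⟩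
  · obtain ⟨z, hz⟩ := hf j
    have h1 := hf1 j
    rw [hz, pow_zero, div_one] at h1
    have h2 : 0 ≤ z := by exact_mod_cast h1.1
    have h3 : z ≤ 1 := by exact_mod_cast h1.2
    rw [hz, pow_zero, div_one]
    rcases (by omega : z = 0 ∨ z = 1) with h | h
    · left; rw [h]; norm_num
    · right; rw [h]; norm_num
  · have hi : (i : ℕ) < m := lt_trans i.2 hlt
    have h1 := hfe ⟨i, hi⟩
    have h2 : ∀ j, a' ⟨i, hi⟩ j = a i j := by
      intro j
      simp only [ha']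
      rw [dif_pos i.2]
    simp only [h2] at h1
    have h3 : |∑ j, a i j * (q j - p j)| ≤ 1 := by
      calc |∑ j, a i j * (q j - p j)| ≤ ∑ j, |a i j * (q j - p j)| :=
            Finset.abs_sum_le_sum_abs _ _
        _ ≤ ∑ _j : Fin N, (1 / 2 ^ N : ℝ) := by
            refine Finset.sum_le_sum fun j _ => ?_
            rw [abs_mul, abs_sub_comm, abs_of_nonneg (sub_nonneg.2 (hq1 j))]
            calc |a i j| * (p j - q j) ≤ 1 * (p j - q j) :=
                  mul_le_mul_of_nonneg_right (ha i j) (sub_nonneg.2 (hq1 j))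
              _ ≤ 1 / 2 ^ N := by rw [one_mul]; exact hq2 j
        _ ≤ 1 := by
            rw [Finset.sum_const, Finset.card_univ, Fintype.card_fin, nsmul_eq_mul,
              mul_one_div, div_le_one h2N]
            exact_mod_cast (Nat.lt_two_pow_self (n := N)).le
    have e1 : ∑ j, a i j * (f j - p j) =
        ∑ j, a i j * (f j - q j) + ∑ j, a i j * (q j - p j) := by
      rw [← Finset.sum_add_distrib]
      exact Finset.sum_congr rfl fun j _ => by ring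
    have h4 : C * Real.sqrt (Real.sqrt (U * m)) * gs N ≤
        C * Real.sqrt (Real.sqrt (U * m)) * (3 / 2) :=
      mul_le_mul_of_nonneg_left (gs_le N) (by positivity)
    rw [e1]
    refine (abs_add_le _ _).trans ?_
    linarith

end Vale.Agent.P110U
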