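import Vale.Agent.Lib.P110U.Defs
import Vale.Agent.Lib.P110F.K0

/-! P110U: module D4. -/

namespace Vale.Agent.P110U

open MeasureTheory Filter Topology
open scoped ComplexConjugate ENNReal
open Vale.Agent.P110F

private theorem d4_pow (x : ℝ) (j : ℕ) : e1 ((j : ℝ) * x) = e1 x ^ j := by
  induction j with
  | zero => rw [Nat.cast_zero, zero_mul, e1_zero, pow_zero]
  | succ j ih => rw [Nat.cast_succ, add_mul, one_mul, e1_add, ih, pow_succ]

private theorem d4_ne_one {x : ℝ} (h : e1 x = 1) : ∃ n : ℤ, x = n := by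
  unfold e1 at h
  obtain ⟨n, hn⟩ := Complex.exp_eq_one_iff.1 h
  refine ⟨n, ?_⟩
  have h2 : (2 * Real.pi * Complex.I : ℂ) ≠ 0 := by
    simp [Real.pi_ne_zero, Complex.I_ne_zero]
  have h3 : (x : ℂ) = (n : ℂ) := by
    apply mul_left_cancel₀ h2
    rw [hn]
    ring
  exact_mod_cast h3

/-- geometric sums over the grid -/
private theorem d4_geom {G : ℕ} (hG : 0 < G) (z : ℤ) (hz : |z| < G) :
    ∑ j ∈ Finset.range G, e1 ((z : ℝ) * ((j : ℝ) / (G : ℝ))) = if z = 0 then (G : ℂ) else 0 := by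
  have hG' : (G : ℝ) ≠ 0 := by exact_mod_cast hG.ne'
  have h1 : ∀ j : ℕ, e1 ((z : ℝ) * ((j : ℝ) / (G : ℝ))) = e1 ((z : ℝ) / G) ^ j := by
    intro j
    rw [← d4_pow]
    congr 1
    ring
  simp_rw [h1]
  split_ifs with h
  · subst h
    simp [e1_zero]
  · have hne : e1 ((z : ℝ) / G) ≠ 1 := by
      intro he
      obtain ⟨n, hn⟩ := d4_ne_one he
      have h2 : (z : ℝ) = n * G := by
        rw [← hn]
        field_simp
      have h3 : z = n * G := by exact_mod_cast h2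
      have h4 : n ≠ 0 := by
        rintro rfl
        exact h (by rw [h3, zero_mul])
      rw [h3, abs_mul, Nat.abs_cast] at hz
      have h5 : 1 ≤ |n| := Int.one_le_abs h4
      nlinarith
    have hG1 : e1 ((z : ℝ) / G) ^ G = 1 := by
      rw [← d4_pow]
      have : (G : ℝ) * ((z : ℝ) / G) = ((z : ℤ) : ℝ) := by field_simp
      rw [this]
      exact e1_int z
    rw [geom_sum_eq hne, hG1, sub_self, zero_div]

/-- Dirichlet kernel -/
private noncomputable def d4D (L : ℕ) (t : ℝ) : ℂ := ∑ a ∈ Finset.range L, e1 ((a : ℝ) * t)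

private theorem d4_conj (x : ℝ) : conj (e1 x) = e1 (-x) := (e1_neg x).symm

private theorem d4_par {G : ℕ} (hG : 0 < G) (L : ℕ) (hL : L ≤ G) (x : ℝ) :
    ∑ j ∈ Finset.range G, ‖d4D L (x - (j : ℝ) / (G : ℝ))‖ ^ 2 = G * L := by
  have h : ((∑ j ∈ Finset.range G, ‖d4D L (x - (j : ℝ) / (G : ℝ))‖ ^ 2 : ℝ) : ℂ) =
      ((G * L : ℝ) : ℂ) := by
    push_cast
    have h1 : ∀ j ∈ Finset.range G, ((‖d4D L (x - (j : ℝ) / (G : ℝ))‖ : ℂ)) ^ 2 =
        ∑ a ∈ Finset.range L, ∑ b ∈ Finset.range L, e1 (((a : ℝ) - b) * x) *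
          e1 ((((b : ℤ) - (a : ℤ) : ℤ) : ℝ) * ((j : ℝ) / (G : ℝ))) := by
      intro j _
      rw [← Complex.mul_conj', d4D, map_sum, Finset.sum_mul_sum]
      refine Finset.sum_congr rfl fun a _ => Finset.sum_congr rfl fun b _ => ?_
      rw [d4_conj, ← e1_add, ← e1_add]
      congr 1
      push_cast
      ring
    rw [Finset.sum_congr rfl h1, Finset.sum_comm]
    have h2 : ∀ a ∈ Finset.range L, ∑ j ∈ Finset.range G, ∑ b ∈ Finset.range L,
        e1 (((a : ℝ) - b) * x) * e1 ((((b : ℤ) - (a : ℤ) : ℤ) : ℝ) * ((j : ℝ) / (G : ℝ))) =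
        (G : ℂ) := by
      intro a ha
      rw [Finset.sum_comm]
      have h3 : ∀ b ∈ Finset.range L, ∑ j ∈ Finset.range G,
          e1 (((a : ℝ) - b) * x) * e1 ((((b : ℤ) - (a : ℤ) : ℤ) : ℝ) * ((j : ℝ) / (G : ℝ))) =
          if b = a then (G : ℂ) else 0 := by
        intro b hb
        rw [← Finset.mul_sum, d4_geom hG]
        · by_cases hab : b = a
          · subst hab
            simp [e1_zero]
          · have : (b : ℤ) - (a : ℤ) ≠ 0 := by
              intro h0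
              exact hab (by omega)
            rw [if_neg this, if_neg hab, mul_zero]
        · have h4 := Finset.mem_range.1 ha
          have h5 := Finset.mem_range.1 hb
          rw [abs_lt]
          constructor <;> omega
      rw [Finset.sum_congr rfl h3, Finset.sum_ite_eq' (Finset.range L) a, if_pos ha]
    rw [Finset.sum_congr rfl h2, Finset.sum_const, Finset.card_range, nsmul_eq_mul, mul_comm]
  exact_mod_cast h

private theorem d4_ident {N : ℕ} (hN : 0 < N) (q : ℕ → ℂ) (x : ℝ) :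
    ∑ j ∈ Finset.range (4 * N), (∑ k ∈ Finset.range N,
      q k * e1 ((k : ℝ) * ((j : ℝ) / ((4 * N : ℕ) : ℝ)))) *
      (d4D (2 * N) (x - (j : ℝ) / ((4 * N : ℕ) : ℝ)) *
        conj (d4D N (x - (j : ℝ) / ((4 * N : ℕ) : ℝ)))) =
    ((4 * N : ℕ) : ℂ) * (N * ∑ k ∈ Finset.range N, q k * e1 ((k : ℝ) * x)) := by
  have hG : 0 < 4 * N := by omega
  have h1 : ∀ j ∈ Finset.range (4 * N), (∑ k ∈ Finset.range N,
      q k * e1 ((k : ℝ) * ((j : ℝ) / ((4 * N : ℕ) : ℝ)))) *
      (d4D (2 * N) (x - (j : ℝ) / ((4 * N : ℕ) : ℝ)) *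
        conj (d4D N (x - (j : ℝ) / ((4 * N : ℕ) : ℝ)))) =
      ∑ k ∈ Finset.range N, ∑ b ∈ Finset.range (2 * N), ∑ a ∈ Finset.range N,
        (q k * e1 (((b : ℝ) - a) * x)) *
          e1 ((((k : ℤ) - (b : ℤ) + (a : ℤ) : ℤ) : ℝ) * ((j : ℝ) / ((4 * N : ℕ) : ℝ))) := by
    intro j _
    rw [d4D, d4D, map_sum, Finset.sum_mul_sum, Finset.sum_mul]
    refine Finset.sum_congr rfl fun k _ => ?_
    rw [Finset.mul_sum]
    refine Finset.sum_congr rfl fun b _ => ?_
    rw [Finset.mul_sum]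
    refine Finset.sum_congr rfl fun a _ => ?_
    rw [d4_conj, ← e1_add, mul_assoc, mul_assoc, ← e1_add, ← e1_add]
    congr 2
    push_cast
    ring
  rw [Finset.sum_congr rfl h1, Finset.sum_comm, Finset.mul_sum, Finset.mul_sum]
  refine Finset.sum_congr rfl fun k hk => ?_
  rw [Finset.sum_comm]
  have h2 : ∀ b ∈ Finset.range (2 * N), ∑ j ∈ Finset.range (4 * N), ∑ a ∈ Finset.range N,
      (q k * e1 (((b : ℝ) - a) * x)) *
          e1 ((((k : ℤ) - (b : ℤ) + (a : ℤ) : ℤ) : ℝ) * ((j : ℝ) / ((4 * N : ℕ) : ℝ))) =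
      ∑ a ∈ Finset.range N, if b = a + k then ((4 * N : ℕ) : ℂ) * (q k * e1 ((k : ℝ) * x))
        else 0 := by
    intro b hb
    rw [Finset.sum_comm]
    refine Finset.sum_congr rfl fun a ha => ?_
    rw [← Finset.mul_sum, d4_geom hG]
    · by_cases hab : b = a + k
      · subst hab
        rw [if_pos (by push_cast; ring), if_pos rfl, mul_comm]
        congr 3
        push_cast
        ring
      · have : (k : ℤ) - (b : ℤ) + (a : ℤ) ≠ 0 := by
          intro h0
          exact hab (by omega)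
        rw [if_neg this, if_neg hab, mul_zero]
    · have h4 := Finset.mem_range.1 ha
      have h5 := Finset.mem_range.1 hb
      have h6 := Finset.mem_range.1 hk
      rw [abs_lt]
      constructor <;> omega
  rw [Finset.sum_congr rfl h2, Finset.sum_comm]
  have h3 : ∀ a ∈ Finset.range N, ∑ b ∈ Finset.range (2 * N),
      (if b = a + k then ((4 * N : ℕ) : ℂ) * (q k * e1 ((k : ℝ) * x)) else 0) =
      ((4 * N : ℕ) : ℂ) * (q k * e1 ((k : ℝ) * x)) := by
    intro a ha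
    rw [Finset.sum_ite_eq' (Finset.range (2 * N)) (a + k), if_pos]
    have h4 := Finset.mem_range.1 ha
    have h6 := Finset.mem_range.1 hk
    exact Finset.mem_range.2 (by omega)
  rw [Finset.sum_congr rfl h3, Finset.sum_const, Finset.card_range, nsmul_eq_mul]
  ring

/-- The maximum of a polynomial is controlled by its values on a grid. -/
theorem grid_sup {N : ℕ} (hN : 0 < N) (q : ℕ → ℂ) {B : ℝ}
    (hB : ∀ j < 4 * N, ‖∑ k ∈ Finset.range N, q k * e1 ((k : ℝ) * ((j : ℝ) / ((4 * N : ℕ) : ℝ)))‖ ≤ B)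
    (x : ℝ) : ‖∑ k ∈ Finset.range N, q k * e1 ((k : ℝ) * x)‖ ≤ 3 * B := by
  have hG : 0 < 4 * N := by omega
  have hB0 : 0 ≤ B := (norm_nonneg _).trans (hB 0 hG)
  have h := congrArg norm (d4_ident hN q x)
  rw [norm_mul, norm_mul, Complex.norm_natCast, Complex.norm_natCast] at h
  have h1 : ‖∑ j ∈ Finset.range (4 * N), (∑ k ∈ Finset.range N,
      q k * e1 ((k : ℝ) * ((j : ℝ) / ((4 * N : ℕ) : ℝ)))) *
      (d4D (2 * N) (x - (j : ℝ) / ((4 * N : ℕ) : ℝ)) *
        conj (d4D N (x - (j : ℝ) / ((4 * N : ℕ) : ℝ))))‖ ≤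
      ∑ j ∈ Finset.range (4 * N), B * ((‖d4D (2 * N) (x - (j : ℝ) / ((4 * N : ℕ) : ℝ))‖ ^ 2 +
        ‖d4D N (x - (j : ℝ) / ((4 * N : ℕ) : ℝ))‖ ^ 2) / 2) := by
    refine (norm_sum_le _ _).trans (Finset.sum_le_sum fun j hj => ?_)
    rw [norm_mul, norm_mul, Complex.norm_conj]
    refine mul_le_mul (hB j (Finset.mem_range.1 hj)) ?_ (by positivity) hB0
    nlinarith [sq_nonneg (‖d4D (2 * N) (x - (j : ℝ) / ((4 * N : ℕ) : ℝ))‖ -
      ‖d4D N (x - (j : ℝ) / ((4 * N : ℕ) : ℝ))‖)]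
  rw [← Finset.mul_sum, ← Finset.sum_div, Finset.sum_add_distrib, d4_par hG (2 * N) (by omega),
    d4_par hG N (by omega), h] at h1
  have hN' : (0 : ℝ) < N := by exact_mod_cast hN
  push_cast at h1
  have h2 : (4 * N : ℝ) * (N * ‖∑ k ∈ Finset.range N, q k * e1 ((k : ℝ) * x)‖) ≤
      (4 * N) * (N * (3 * B)) := by
    refine h1.trans ?_
    have : 0 ≤ B * (N : ℝ) * N := by positivity
    nlinarith
  exact le_of_mul_le_mul_left (le_of_mul_le_mul_left h2 (by positivity)) hN'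

end Vale.Agent.P110U
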