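import Vale.Agent.Lib.P110U.Defs
import Vale.Agent.Lib.P110U.D3b
import Vale.Agent.Lib.P110U.D4

/-! P110U: module D5. -/

namespace Vale.Agent.P110U

open MeasureTheory Filter Topology
open scoped ComplexConjugate ENNReal
open Vale.Agent.P110F

private theorem D5_e1 (y : ℝ) : e1 y = ((Real.cos (2 * Real.pi * y) : ℝ) : ℂ) +
    ((Real.sin (2 * Real.pi * y) : ℝ) : ℂ) * Complex.I := by
  unfold e1
  rw [show (2 * Real.pi * Complex.I * y : ℂ) = ((2 * Real.pi * y : ℝ) : ℂ) * Complex.I by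
    push_cast; ring, Complex.exp_mul_I, ← Complex.ofReal_cos, ← Complex.ofReal_sin]

private theorem D5_norm {N : ℕ} (t y : Fin N → ℝ) {B : ℝ}
    (h1 : |∑ j, t j * Real.cos (2 * Real.pi * y j)| ≤ B)
    (h2 : |∑ j, t j * Real.sin (2 * Real.pi * y j)| ≤ B) :
    ‖∑ j, ((-2 * t j : ℝ) : ℂ) * e1 (y j)‖ ≤ 4 * B := by
  have h : ∑ j, ((-2 * t j : ℝ) : ℂ) * e1 (y j) =
      ((-2 * ∑ j, t j * Real.cos (2 * Real.pi * y j) : ℝ) : ℂ) +
      ((-2 * ∑ j, t j * Real.sin (2 * Real.pi * y j) : ℝ) : ℂ) * Complex.I := by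
    rw [Finset.mul_sum, Finset.mul_sum, Complex.ofReal_sum, Complex.ofReal_sum, Finset.sum_mul,
      ← Finset.sum_add_distrib]
    refine Finset.sum_congr rfl (fun j _ => ?_)
    rw [D5_e1]
    push_cast
    ring
  rw [h]
  refine (norm_add_le _ _).trans ?_
  rw [norm_mul, Complex.norm_I, mul_one, Complex.norm_real, Complex.norm_real, Real.norm_eq_abs,
    Real.norm_eq_abs, abs_mul, abs_mul]
  have h3 : |(-2 : ℝ)| = 2 := by norm_num
  rw [h3]
  linarith

/-- Rounding real coefficients close to `±1`, uniformly on the circle. -/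
theorem round_poly {η : ℝ} (hη : 0 < η) : ∃ δ : ℝ, 0 < δ ∧ ∃ N₀ : ℕ, ∀ N ≥ N₀,
    ∀ c : ℕ → ℝ, (∀ j, |c j| ≤ 1) → ∑ j ∈ Finset.range N, (1 - |c j|) ≤ δ * N →
    ∃ a : ℕ → ℝ, (∀ j, a j = 1 ∨ a j = -1) ∧
      ∀ x : ℝ, ‖∑ j ∈ Finset.range N, ((a j - c j : ℝ) : ℂ) * e1 ((j : ℝ) * x)‖ ≤
        η * Real.sqrt N := by
  obtain ⟨δ, hδ, N₀, hr⟩ := round_small 8 (η := η / 12) (by positivity)
  refine ⟨δ, hδ, max N₀ 1, fun N hN c hc hsum => ?_⟩
  have hN0 : N₀ ≤ N := le_trans (le_max_left _ _) hN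
  have hN1 : 0 < N := lt_of_lt_of_le Nat.zero_lt_one (le_trans (le_max_right _ _) hN)
  let s : ℕ → ℝ := fun j => if 0 ≤ c j then 1 else -1
  have hs : ∀ j, |s j| = 1 := by
    intro j
    show |if 0 ≤ c j then (1 : ℝ) else -1| = 1
    split_ifs <;> simp
  have hs1 : ∀ j, s j = 1 ∨ s j = -1 := by
    intro j
    show (if 0 ≤ c j then (1 : ℝ) else -1) = 1 ∨ (if 0 ≤ c j then (1 : ℝ) else -1) = -1
    split_ifs <;> simp
  have hcs : ∀ j, c j = s j * |c j| := by
    intro j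
    show c j = (if 0 ≤ c j then (1 : ℝ) else -1) * |c j|
    split_ifs with h
    · rw [abs_of_nonneg h, one_mul]
    · rw [abs_of_neg (not_le.1 h)]
      ring
  let y : ℕ → ℕ → ℝ := fun g j => (j : ℝ) * ((g : ℝ) / ((4 * N : ℕ) : ℝ))
  let A : Fin (8 * N) → Fin N → ℝ := fun i j => s j *
    (if i.val % 2 = 0 then Real.cos (2 * Real.pi * y (i.val / 2) j)
      else Real.sin (2 * Real.pi * y (i.val / 2) j))
  have hA : ∀ i j, |A i j| ≤ 1 := by
    intro i j
    show |s j * (if i.val % 2 = 0 then Real.cos (2 * Real.pi * y (i.val / 2) j)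
      else Real.sin (2 * Real.pi * y (i.val / 2) j))| ≤ 1
    rw [abs_mul, hs, one_mul]
    split_ifs
    · exact Real.abs_cos_le_one _
    · exact Real.abs_sin_le_one _
  let p : Fin N → ℝ := fun j => (1 - |c j|) / 2
  have hp : ∀ j, 0 ≤ p j ∧ p j ≤ 1 := by
    intro j
    have h1 := hc j
    have h2 := abs_nonneg (c j)
    show 0 ≤ (1 - |c j|) / 2 ∧ (1 - |c j|) / 2 ≤ 1
    constructor <;> linarith
  have hpsum : ∑ j, p j ≤ δ * N := by
    have h1 : ∑ j, p j = (∑ j ∈ Finset.range N, (1 - |c j|)) / 2 := by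
      rw [Finset.sum_range, Finset.sum_div]
    have h2 : 0 ≤ δ * N := by positivity
    rw [h1]
    linarith
  obtain ⟨f, hf, hfb⟩ := hr N hN0 A hA p hp hpsum
  let a : ℕ → ℝ := fun j => if h : j < N then s j * (1 - 2 * f ⟨j, h⟩) else 1
  have ha : ∀ j, a j = 1 ∨ a j = -1 := by
    intro j
    by_cases h : j < N
    · have h1 : a j = s j * (1 - 2 * f ⟨j, h⟩) := dif_pos h
      rw [h1]
      rcases hf ⟨j, h⟩ with h2 | h2 <;> rcases hs1 j with h3 | h3 <;> rw [h2, h3] <;> norm_num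
    · left
      exact dif_neg h
  refine ⟨a, ha, ?_⟩
  let t : Fin N → ℝ := fun j => s j * (f j - p j)
  have hat : ∀ j : Fin N, a j - c j = -2 * t j := by
    intro j
    have h1 : a j = s j * (1 - 2 * f j) := by
      have h2 : a j = s j * (1 - 2 * f ⟨j.val, j.2⟩) := dif_pos j.2
      exact h2
    have h3 := hcs j
    show a j - c j = -2 * (s j * (f j - (1 - |c j|) / 2))
    rw [h1]
    linear_combination -h3
  have hgrid : ∀ g < 4 * N, ‖∑ k ∈ Finset.range N, ((a k - c k : ℝ) : ℂ) *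
      e1 ((k : ℝ) * ((g : ℝ) / ((4 * N : ℕ) : ℝ)))‖ ≤ 4 * (η / 12 * Real.sqrt N) := by
    intro g hg
    rw [Finset.sum_range]
    have h1 : ∑ k : Fin N, ((a k - c k : ℝ) : ℂ) *
        e1 (((k : ℕ) : ℝ) * ((g : ℝ) / ((4 * N : ℕ) : ℝ))) =
        ∑ k : Fin N, ((-2 * t k : ℝ) : ℂ) * e1 (y g k) := by
      refine Finset.sum_congr rfl (fun k _ => ?_)
      rw [hat]
    rw [h1]
    refine D5_norm t (fun k => y g k) ?_ ?_
    · have h2 := hfb ⟨2 * g, by omega⟩
      have h3 : ∑ j, A ⟨2 * g, by omega⟩ j * (f j - p j) =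
          ∑ j, t j * Real.cos (2 * Real.pi * y g j) := by
        refine Finset.sum_congr rfl (fun j _ => ?_)
        show s j * (if (2 * g) % 2 = 0 then Real.cos (2 * Real.pi * y (2 * g / 2) j)
          else Real.sin (2 * Real.pi * y (2 * g / 2) j)) * (f j - p j) =
          s j * (f j - p j) * Real.cos (2 * Real.pi * y g j)
        rw [if_pos (by omega), show 2 * g / 2 = g by omega]
        ring
      rw [h3] at h2
      exact h2
    · have h2 := hfb ⟨2 * g + 1, by omega⟩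
      have h3 : ∑ j, A ⟨2 * g + 1, by omega⟩ j * (f j - p j) =
          ∑ j, t j * Real.sin (2 * Real.pi * y g j) := by
        refine Finset.sum_congr rfl (fun j _ => ?_)
        show s j * (if (2 * g + 1) % 2 = 0 then Real.cos (2 * Real.pi * y ((2 * g + 1) / 2) j)
          else Real.sin (2 * Real.pi * y ((2 * g + 1) / 2) j)) * (f j - p j) =
          s j * (f j - p j) * Real.sin (2 * Real.pi * y g j)
        rw [if_neg (by omega), show (2 * g + 1) / 2 = g by omega]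
        ring
      rw [h3] at h2
      exact h2
  intro x
  have h := grid_sup hN1 (fun k => ((a k - c k : ℝ) : ℂ)) hgrid x
  refine h.trans (le_of_eq ?_)
  ring

end Vale.Agent.P110U
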