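import Vale.Agent.Lib.P110U.G15
import Vale.Agent.Lib.P110T.Iface

/-! P110U: module G16. -/

namespace Vale.Agent.P110U

open MeasureTheory Filter Topology
open scoped ComplexConjugate ENNReal
open Vale.Agent.P110F

/-- The input theorem of the completion step. -/
theorem inputT : Vale.Agent.P110T.InputT := by
  intro μ ε₀ η' K hμ hμ1 hε₀ hη' hK N₀
  obtain ⟨ε, hε, hε1, hεε⟩ : ∃ ε : ℝ, 0 < ε ∧ ε ≤ 1 ∧ ε ≤ ε₀ :=
    ⟨min ε₀ 1, lt_min hε₀ one_pos, min_le_right _ _, min_le_left _ _⟩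
  obtain ⟨N', hN', c, hc1, hcsum, hsup, hpure⟩ := exists_real_poly_pure (η := ε / 10)
    (δ := ε / 10) (ε := η') (K := K) (by positivity) (by positivity) hη' hK
    (N₀ + ⌈100 / μ⌉₊ + 1)
  have hN1 : 1 ≤ N' := by omega
  have hN'r : (1 : ℝ) ≤ N' := by exact_mod_cast hN1
  have hNbig : 100 / μ ≤ (N' : ℝ) := by
    have h1 : 100 / μ ≤ (⌈100 / μ⌉₊ : ℝ) := Nat.le_ceil _
    have h2 : ((⌈100 / μ⌉₊ : ℕ) : ℝ) ≤ N' := by
      have : ⌈100 / μ⌉₊ ≤ N' := by omega
      exact_mod_cast this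
    linarith
  have hμN : 100 ≤ μ * N' := by
    rw [div_le_iff₀ hμ] at hNbig
    linarith
  have hμ2 : 0 < 1 - 2 * μ := by linarith
  -- the shift
  obtain ⟨s, hs⟩ : ∃ s : ℕ, s = ⌈μ * N' / (1 - 2 * μ)⌉₊ := ⟨_, rfl⟩
  have hs1 : μ * N' ≤ (1 - 2 * μ) * s := by
    have h1 : μ * N' / (1 - 2 * μ) ≤ s := by
      rw [hs]
      exact Nat.le_ceil _
    rw [div_le_iff₀ hμ2] at h1
    linarith
  have hs2 : (1 - 2 * μ) * s ≤ μ * N' + (1 - 2 * μ) := by
    have h1 : (s : ℝ) ≤ μ * N' / (1 - 2 * μ) + 1 := by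
      rw [hs]
      exact (Nat.ceil_lt_add_one (by positivity)).le
    have h2 := mul_le_mul_of_nonneg_left h1 hμ2.le
    rw [mul_add, mul_one, mul_div_cancel₀ _ hμ2.ne'] at h2
    exact h2
  obtain ⟨N, hN⟩ : ∃ N : ℕ, N = N' + 2 * s := ⟨_, rfl⟩
  have hNr : (N : ℝ) = N' + 2 * s := by
    rw [hN]
    push_cast
    ring
  have hs3 : μ * N ≤ s := by
    rw [hNr]
    linarith
  have hs0 : (0 : ℝ) ≤ s := Nat.cast_nonneg _
  have hge : (1 - 3 * μ) * N ≤ N' := by
    rw [hNr]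
    -- `2 s (1 - 3 μ) ≤ 3 μ N'`
    have h1 : (1 - 3 * μ) * (2 * s) ≤ 3 * μ * N' := by
      have h2 : (1 - 3 * μ) ≤ (1 - 2 * μ) * (1 - μ) := by nlinarith
      have h3 : (1 - 3 * μ) * (2 * s) ≤ ((1 - 2 * μ) * (1 - μ)) * (2 * s) :=
        mul_le_mul_of_nonneg_right h2 (by positivity)
      have h4 : ((1 - 2 * μ) * (1 - μ)) * (2 * s) ≤ 2 * (1 - μ) * (μ * N' + (1 - 2 * μ)) := by
        have h5 : 0 ≤ 2 * (1 - μ) := by linarith
        have h6 := mul_le_mul_of_nonneg_left hs2 h5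
        linarith
      have h7 : 2 * (1 - μ) * (μ * N' + (1 - 2 * μ)) ≤ 3 * μ * N' := by nlinarith
      linarith
    linarith
  have hNpos : (0 : ℝ) < N := by
    rw [hNr]
    linarith
  have hNN' : (N' : ℝ) ≤ N := by
    rw [hNr]
    linarith
  -- the coefficients
  obtain ⟨a, ha⟩ : ∃ a : ℝ, a = 1 / (1 + ε / 10) := ⟨_, rfl⟩
  have ha0 : 0 < a := by
    rw [ha]
    positivity
  have ha1 : a ≤ 1 := by
    rw [ha, div_le_one (by positivity)]
    linarith
  have haε : a * (1 + ε / 10) = 1 := by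
    rw [ha]
    field_simp
  have ha2 : 1 - ε / 10 ≤ a := by
    rw [ha, le_div_iff₀ (by positivity)]
    nlinarith
  obtain ⟨b, hb⟩ : ∃ b : ℕ → ℝ, b = fun k => if s ≤ k ∧ k < s + N' then a * c (k - s) else 0 :=
    ⟨_, rfl⟩
  have hbin : ∀ j, j < N' → b (s + j) = a * c j := by
    intro j hj
    rw [hb]
    beta_reduce
    rw [if_pos ⟨by omega, by omega⟩]
    congr 2
    omega
  have hbout : ∀ k, ¬ (s ≤ k ∧ k < s + N') → b k = 0 := by
    intro k hk
    rw [hb]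
    beta_reduce
    rw [if_neg hk]
  -- sums over `range N`
  have hsplit : ∀ {M : Type} [AddCommMonoid M] (Φ : ℕ → M), (∀ k, ¬ (s ≤ k ∧ k < s + N') → Φ k = 0) →
      ∑ k ∈ Finset.range N, Φ k = ∑ j ∈ Finset.range N', Φ (s + j) := by
    intro M _ Φ hΦ
    rw [hN, show N' + 2 * s = s + N' + s by ring, Finset.sum_range_add, Finset.sum_range_add]
    have h1 : ∑ k ∈ Finset.range s, Φ k = 0 := Finset.sum_eq_zero fun k hk => by
      rw [Finset.mem_range] at hk
      exact hΦ k (by omega)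
    have h2 : ∑ k ∈ Finset.range s, Φ (s + N' + k) = 0 := Finset.sum_eq_zero fun k hk =>
      hΦ _ (by omega)
    rw [h1, h2, zero_add, add_zero]
  have hpoly : ∀ x : ℝ, Vale.Agent.P110T.pol N b x =
      (a : ℂ) * e1 ((s : ℝ) * x) * ∑ j ∈ Finset.range N', (c j : ℂ) * e1 ((j : ℝ) * x) := by
    intro x
    unfold Vale.Agent.P110T.pol
    rw [hsplit (fun k => (b k : ℂ) * e1 ((k : ℝ) * x)) fun k hk => by rw [hbout k hk]; simp,
      Finset.mul_sum]
    refine Finset.sum_congr rfl fun j hj => ?_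
    rw [Finset.mem_range] at hj
    rw [hbin j hj]
    push_cast
    rw [add_mul, e1_add]
    ring
  refine ⟨N, by omega, N', b, ⟨by omega, hge, ?_, ?_, ?_, ?_, ?_⟩⟩
  · intro k
    by_cases hk : s ≤ k ∧ k < s + N'
    · obtain ⟨j, rfl⟩ := Nat.exists_eq_add_of_le hk.1
      rw [hbin j (by omega), abs_mul, abs_of_pos ha0]
      calc a * |c j| ≤ 1 * 1 := mul_le_mul ha1 (hc1 j) (abs_nonneg _) zero_le_one
        _ = 1 := one_mul 1
    · rw [hbout k hk]
      simp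
  · intro k hk
    have hk' : s ≤ k ∧ k < s + N' := by
      by_contra h
      exact hk (hbout k h)
    have h1 : (s : ℝ) ≤ k := by exact_mod_cast hk'.1
    have h2 : (k : ℝ) ≤ s + N' := by exact_mod_cast hk'.2.le
    refine ⟨hs3.trans h1, ?_⟩
    have h3 : (1 - μ) * N = N - μ * N := by ring
    rw [h3]
    linarith
  · intro x
    rw [hpoly, norm_mul, norm_mul, norm_e1, mul_one, Complex.norm_real,
      Real.norm_of_nonneg ha0.le]
    calc a * ‖∑ j ∈ Finset.range N', (c j : ℂ) * e1 ((j : ℝ) * x)‖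
        ≤ a * ((1 + ε / 10) * Real.sqrt N') := mul_le_mul_of_nonneg_left (hsup x) ha0.le
      _ = Real.sqrt N' := by rw [← mul_assoc, haε, one_mul]
  · rw [hsplit (fun k => b k ^ 2) fun k hk => by rw [hbout k hk]; norm_num]
    have h1 : ∀ j ∈ Finset.range N', a ^ 2 * (1 - 2 * (1 - |c j|)) ≤ b (s + j) ^ 2 := by
      intro j hj
      rw [Finset.mem_range] at hj
      rw [hbin j hj, mul_pow]
      refine mul_le_mul_of_nonneg_left ?_ (by positivity)
      rw [← sq_abs (c j)]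
      nlinarith [sq_nonneg (1 - |c j|)]
    have h2 := Finset.sum_le_sum h1
    rw [← Finset.mul_sum, Finset.sum_sub_distrib, ← Finset.mul_sum, Finset.sum_const,
      Finset.card_range, nsmul_eq_mul, mul_one] at h2
    refine le_trans ?_ h2
    have h3 : (1 - ε / 5) * N' ≤ (N' : ℝ) - 2 * ∑ j ∈ Finset.range N', (1 - |c j|) := by
      linarith
    have h4 : (1 - ε / 10) ^ 2 ≤ a ^ 2 := pow_le_pow_left₀ (by linarith) ha2 2
    have h5 : (1 - ε / 5) ≤ (1 - ε / 10) ^ 2 := by nlinarith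
    have h6 : (1 - ε / 5) * ((1 - ε / 5) * N') ≤ a ^ 2 * ((N' : ℝ) -
        2 * ∑ j ∈ Finset.range N', (1 - |c j|)) := by
      refine mul_le_mul (h5.trans h4) h3 ?_ (by positivity)
      have : 0 ≤ 1 - ε / 5 := by linarith
      positivity
    refine le_trans ?_ h6
    have h9 : (1 - ε₀) ≤ (1 - ε / 5) * (1 - ε / 5) := by nlinarith
    calc (1 - ε₀) * N' ≤ ((1 - ε / 5) * (1 - ε / 5)) * N' :=
          mul_le_mul_of_nonneg_right h9 (by positivity)
      _ = (1 - ε / 5) * ((1 - ε / 5) * N') := by ring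
  · intro x₀
    obtain ⟨κ, hκ0, hκ1, hκ⟩ := hpure x₀
    refine ⟨s + κ, by linarith, ?_, fun x hx => ?_⟩
    · have h3 : (1 - μ) * N = N - μ * N := by ring
      rw [h3]
      linarith
    · have hx' : |x - x₀| ≤ K / N' := by
        refine hx.trans ?_
        exact div_le_div_of_nonneg_left hK.le (by linarith) hNN'
      have h1 := hκ x hx'
      rw [hpoly, hpoly]
      have h2 : (a : ℂ) * e1 ((s : ℝ) * x) * (∑ j ∈ Finset.range N', (c j : ℂ) * e1 ((j : ℝ) * x)) -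
          (a : ℂ) * e1 ((s : ℝ) * x₀) * (∑ j ∈ Finset.range N', (c j : ℂ) * e1 ((j : ℝ) * x₀)) *
            e1 ((s + κ) * (x - x₀)) = (a : ℂ) * e1 ((s : ℝ) * x) *
          ((∑ j ∈ Finset.range N', (c j : ℂ) * e1 ((j : ℝ) * x)) -
            (∑ j ∈ Finset.range N', (c j : ℂ) * e1 ((j : ℝ) * x₀)) * e1 (κ * (x - x₀))) := by
        have h3 : e1 ((s + κ) * (x - x₀)) * e1 ((s : ℝ) * x₀) =
            e1 ((s : ℝ) * x) * e1 (κ * (x - x₀)) := by
          rw [← e1_add, ← e1_add]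
          congr 1
          ring
        linear_combination (-(a : ℂ) *
          ∑ j ∈ Finset.range N', (c j : ℂ) * e1 ((j : ℝ) * x₀)) * h3
      rw [h2, norm_mul, norm_mul, norm_e1, mul_one, Complex.norm_real,
        Real.norm_of_nonneg ha0.le]
      calc a * _ ≤ 1 * (η' * Real.sqrt N') := mul_le_mul ha1 h1 (norm_nonneg _) zero_le_one
        _ = η' * Real.sqrt N' := one_mul _

end Vale.Agent.P110U
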