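import Vale.Agent.Lib.P110U.Defs
import Vale.Agent.Lib.P110U.S1a
import Vale.Agent.Lib.P110U.S9
import Vale.Agent.Lib.P110U.X1
import Vale.Agent.Lib.P110U.X3
import Vale.Agent.Lib.P110U.X4
import Vale.Agent.Lib.P110U.F1
import Vale.Agent.Lib.P110U.F2
import Vale.Agent.Lib.P110U.F3a
import Vale.Agent.Lib.P110U.F3b
import Vale.Agent.Lib.P110F.FinalA
import Vale.Agent.Lib.P110F.CellsMain

/-! P110U: module F3. -/

namespace Vale.Agent.P110U

open MeasureTheory Filter Topology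
open scoped ComplexConjugate ENNReal
open Vale.Agent.P110F

private theorem F3_int_zero (k : ℕ) : ∫ _x : UnitAddTorus (Fin k), (1 : ℝ) = 1 := by
  have hp : IsProbabilityMeasure (volume : Measure UnitAddCircle) := ⟨UnitAddCircle.measure_univ⟩
  have hp2 : IsProbabilityMeasure (volume : Measure (UnitAddTorus (Fin k))) := by
    change IsProbabilityMeasure (Measure.pi fun _ : Fin k => (volume : Measure UnitAddCircle))
    infer_instance
  rw [integral_const]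
  simp

/-- the number of cells -/
private noncomputable def F3_C (δ : ℝ) (N₀ n : ℕ) : ℕ := ⌈8 * 4 ^ n / δ⌉₊ + N₀ + 1

/-- the coefficients and the loss -/
private theorem F3_coeff {k n R L N₀ : ℕ} {δ ρ : ℝ} (hδ : 0 < δ) (hρ : 0 < ρ) (hρ2 : ρ ≤ 1 / 2)
    (hρδ : 2 * n * ρ ≤ δ / 8) (hL : 0 < L) (hLδ : 2 * n / (L : ℝ) ≤ δ / 8)
    {ι : Type} [Fintype ι] [DecidableEq ι]
    (hJ : F3_C δ N₀ n ≤ Fintype.card ι) (hR1 : Fintype.card ι ≤ R * 4 ^ n)
    (hR2 : R * 4 ^ n ≤ Fintype.card ι + 4 ^ n) (X : UnitAddTorus (Fin k) → ℝ)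
    (hX : Continuous X) (hX1 : ∀ x, |X x| ≤ 1)
    (hXi : ∫ x : UnitAddTorus (Fin k), (1 - |X x|) ≤ δ / 4)
    (P : ι → (Fin n → Fin L) → UnitAddTorus (Fin k)) :
    ∃ (α : UnitAddTorus (Fin k)) (c : ℕ → ℝ) (base : ι → ℝ), (∀ t, |c t| ≤ 1) ∧
      ∑ t ∈ Finset.range (R * (4 * L) ^ n), (1 - |c t|) ≤ δ * ((R * (4 * L) ^ n : ℕ) : ℝ) ∧
      ∀ x : ℝ, ∑ t ∈ Finset.range (R * (4 * L) ^ n), (c t : ℂ) * e1 (t * x) =
        ∑ j, ∑ y : Fin n → Fin L, ((∏ i, tp ρ (((y i : ℕ) : ℝ) / L) : ℝ) : ℂ) *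
          (X (P j y + α) : ℂ) *
          e1 ((base j + ∑ i : Fin n, ((y i : ℕ) : ℝ) * ((4 * L : ℕ) : ℝ) ^ (i : ℕ)) * x) := by
  classical
  obtain ⟨sl, hsl⟩ := exists_emb (ι := ι) (n := n) (R := R) hR1
  obtain ⟨α, hα⟩ := exists_shift k (fun x => 1 - |X x|)
    (measurable_const.sub (hX.abs.measurable)) (fun x => sub_nonneg.2 (hX1 x)) (C := 1)
    (fun x => by have := abs_nonneg (X x); linarith)
    (fun y : ι × (Fin n → Fin L) => P y.1 y.2)
  rw [Fintype.card_prod, Fintype.card_fun, Fintype.card_fin, Fintype.card_fin,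
    Fintype.sum_prod_type] at hα
  set T : (Fin n → Fin L) → ℝ := fun y => ∏ i, tp ρ (((y i : ℕ) : ℝ) / L) with hT
  have hT0 : ∀ y, 0 ≤ T y := fun y => Finset.prod_nonneg fun i _ => tp_nonneg _ _
  have hT1 : ∀ y, T y ≤ 1 := fun y => Finset.prod_le_one (fun i _ => tp_nonneg _ _)
    fun i _ => tp_le_one _ _
  obtain ⟨c, base, hc1, hc2, hc3⟩ := exists_polyT hL sl hsl (fun j y => T y * X (P j y + α))
    (fun j y => by
      rw [abs_mul, abs_of_nonneg (hT0 y)]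
      exact mul_le_one₀ (hT1 y) (abs_nonneg _) (hX1 _))
  refine ⟨α, c, base, hc1, ?_, ?_⟩
  · rw [hc3]
    set J : ℝ := (Fintype.card ι : ℝ) with hJdef
    have hLr : (0 : ℝ) < (L : ℝ) ^ n := by
      have : (0 : ℝ) < L := by exact_mod_cast hL
      positivity
    have hJ8 : (4 : ℝ) ^ n ≤ δ / 8 * J := by
      have h1 : ((F3_C δ N₀ n : ℕ) : ℝ) ≤ J := by rw [hJdef]; exact_mod_cast hJ
      have h2 : 8 * 4 ^ n / δ ≤ ((F3_C δ N₀ n : ℕ) : ℝ) := by
        unfold F3_C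
        push_cast
        have := Nat.le_ceil (8 * 4 ^ n / δ)
        have h3 : (0 : ℝ) ≤ N₀ := Nat.cast_nonneg _
        linarith
      have h4 : 8 * 4 ^ n / δ ≤ J := h2.trans h1
      rw [div_le_iff₀ hδ] at h4
      linarith
    have hNr : ((R * (4 * L) ^ n : ℕ) : ℝ) = ((R * 4 ^ n : ℕ) : ℝ) * (L : ℝ) ^ n := by
      push_cast
      rw [mul_pow]
      ring
    have hR1' : J ≤ ((R * 4 ^ n : ℕ) : ℝ) := by rw [hJdef]; exact_mod_cast hR1
    have hR2' : ((R * 4 ^ n : ℕ) : ℝ) ≤ J + 4 ^ n := by rw [hJdef]; exact_mod_cast hR2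
    have hJ0 : 0 ≤ J := Nat.cast_nonneg _
    have hpt : ∀ j y, 1 - |T y * X (P j y + α)| ≤ (1 - T y) + (1 - |X (P j y + α)|) := by
      intro j y
      rw [abs_mul, abs_of_nonneg (hT0 y)]
      have h1 := hT0 y
      have h2 := hT1 y
      have h3 := hX1 (P j y + α)
      nlinarith
    have hs1 : ∑ j : ι, ∑ y : Fin n → Fin L, (1 - |T y * X (P j y + α)|) ≤
        (∑ _j : ι, ∑ y : Fin n → Fin L, (1 - T y)) +
          ∑ j : ι, ∑ y : Fin n → Fin L, (1 - |X (P j y + α)|) := by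
      rw [← Finset.sum_add_distrib]
      refine Finset.sum_le_sum fun j _ => ?_
      rw [← Finset.sum_add_distrib]
      exact Finset.sum_le_sum fun y _ => hpt j y
    have hs2 : ∑ _j : ι, ∑ y : Fin n → Fin L, (1 - T y) ≤ J * (δ / 4 * (L : ℝ) ^ n) := by
      rw [Finset.sum_const, Finset.card_univ, nsmul_eq_mul, ← hJdef]
      refine mul_le_mul_of_nonneg_left ((taper_loss hρ hρ2 n hL).trans ?_) hJ0
      refine mul_le_mul_of_nonneg_right ?_ hLr.le
      linarith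
    have hs3 : ∑ j : ι, ∑ y : Fin n → Fin L, (1 - |X (P j y + α)|) ≤
        J * (L : ℝ) ^ n * (δ / 4) := by
      refine hα.trans ?_
      push_cast
      rw [← hJdef]
      exact mul_le_mul_of_nonneg_left hXi (by positivity)
    rw [hNr]
    have hJL : 0 ≤ J * (L : ℝ) ^ n := by positivity
    have h5 : ((R * 4 ^ n : ℕ) : ℝ) * (L : ℝ) ^ n ≤ (J + δ / 8 * J) * (L : ℝ) ^ n :=
      mul_le_mul_of_nonneg_right (by linarith) hLr.le
    have h6 : J * (L : ℝ) ^ n ≤ ((R * 4 ^ n : ℕ) : ℝ) * (L : ℝ) ^ n :=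
      mul_le_mul_of_nonneg_right hR1' hLr.le
    have h7 : δ * (J * (L : ℝ) ^ n) ≤ δ * (((R * 4 ^ n : ℕ) : ℝ) * (L : ℝ) ^ n) :=
      mul_le_mul_of_nonneg_left h6 hδ.le
    have h8 : 0 ≤ δ * (J * (L : ℝ) ^ n) := mul_nonneg hδ.le hJL
    nlinarith
  · intro x
    rw [hc2]
    refine Finset.sum_congr rfl fun j _ => Finset.sum_congr rfl fun y _ => ?_
    rw [Complex.ofReal_mul]

/-- Real polynomials with coefficients in `[-1,1]`, mostly near `±1`, and small maximum. -/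
theorem exists_real_poly {η δ : ℝ} (hη : 0 < η) (hδ : 0 < δ) (N₀ : ℕ) :
    ∃ N : ℕ, N₀ ≤ N ∧ ∃ c : ℕ → ℝ, (∀ j, |c j| ≤ 1) ∧
      ∑ j ∈ Finset.range N, (1 - |c j|) ≤ δ * N ∧
      ∀ x : ℝ, ‖∑ j ∈ Finset.range N, (c j : ℂ) * e1 ((j : ℝ) * x)‖ ≤
        (1 + η) * Real.sqrt N := by
  classical
  rcases le_or_gt 1 δ with hδ1 | hδ1
  · refine ⟨N₀, le_rfl, fun _ => 0, fun j => by simp, ?_, fun x => ?_⟩
    · simp only [abs_zero, sub_zero, Finset.sum_const, Finset.card_range, nsmul_eq_mul, mul_one]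
      have h0 : (0 : ℝ) ≤ N₀ := Nat.cast_nonneg _
      nlinarith
    · simp only [Complex.ofReal_zero, zero_mul, Finset.sum_const_zero, norm_zero]
      positivity
  obtain ⟨k, hk, hXi⟩ := XT_energy (δ := δ / 4) (by positivity)
  obtain ⟨Sp, a, hS, ha0, hrep⟩ := XT_TP k
  have hpars := TP_parseval k (XT k) (abs_XT_le k) Sp a hS hrep
  have hne : Sp.Nonempty := by
    by_contra hcon
    rw [Finset.not_nonempty_iff_eq_empty] at hcon
    have h1 : ∀ x, XT k x = 0 := by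
      intro x
      have h2 := hrep x
      rw [hcon, Finset.sum_empty] at h2
      exact_mod_cast h2
    simp only [h1, abs_zero, sub_zero] at hXi
    rw [F3_int_zero] at hXi
    linarith
  obtain ⟨n, c, ι, hfin, hdec, H, β, hc, hcard, hsymm, hdet, hrow, hvb, hsep⟩ :=
    exists_cells k Sp hS hne (fun m => ‖a m‖ ^ 2)
      (fun m hm => by have := norm_pos_iff.2 (ha0 m hm); positivity) hpars hη (F3_C δ N₀)
  obtain ⟨R, hR1, hR2⟩ := exists_R (Fintype.card ι) n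
  have hJ1 : N₀ + 1 ≤ Fintype.card ι := by
    refine le_trans ?_ hcard
    unfold F3_C
    omega
  set J : ℝ := (Fintype.card ι : ℝ) with hJdef
  have hJr : (1 : ℝ) ≤ J := by
    rw [hJdef]
    exact_mod_cast (show 1 ≤ Fintype.card ι by omega)
  -- the taper
  set ρ : ℝ := min (1 / 2) (δ / (16 * n + 16)) with hρdef
  have hρ : 0 < ρ := by positivity
  have hρ2 : ρ ≤ 1 / 2 := min_le_left _ _
  have hρδ : 2 * n * ρ ≤ δ / 8 := by
    have h1 : ρ ≤ δ / (16 * n + 16) := min_le_right _ _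
    have h2 : (0 : ℝ) ≤ n := Nat.cast_nonneg _
    have h3 : 2 * n * ρ ≤ 2 * n * (δ / (16 * n + 16)) := mul_le_mul_of_nonneg_left h1 (by positivity)
    refine h3.trans ?_
    rw [mul_div_assoc', div_le_div_iff₀ (by positivity) (by norm_num)]
    nlinarith
  -- the pieces
  obtain ⟨A, hA⟩ : ∃ A : ι × Sp × Bool → Matrix (Fin n) (Fin n) ℤ,
    A = fun p => ∑ i, (sgz p.2.2 * p.2.1.1 i) • H p.1 i := ⟨_, rfl⟩
  obtain ⟨b, hb⟩ : ∃ b : ι × Sp × Bool → Fin n → ℝ,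
    b = fun p a => ∑ i, ((sgz p.2.2 * p.2.1.1 i : ℤ) : ℝ) * β p.1 i a := ⟨_, rfl⟩
  have hAdet : ∀ p : ι × Sp × Bool, |((A p).det : ℝ)| =
      |((∑ i, p.2.1.1 i • H p.1 i).det : ℝ)| := fun p => by
    rw [hA]
    exact sgn_det (sgz_cases _) _ _
  have hAdet0 : ∀ p, (A p).det ≠ 0 := by
    intro p h
    have h1 := hAdet p
    rw [h, Int.cast_zero, abs_zero] at h1
    have h2 := abs_eq_zero.1 h1.symm
    exact hdet p.1 p.2.1.1 p.2.1.2 (by exact_mod_cast h2)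
  have hAs : ∀ p, (A p).IsSymm := fun p => by
    rw [hA]
    exact sgn_symm _ (hsymm p.1)
  have hArow : ∀ p, ∀ i, ∑ j, |scl c (A p) i j| ≤ 1 / 4 := by
    intro p i
    have h1 := hrow p.1 p.2.1.1 p.2.1.2 i
    refine le_trans (le_of_eq ?_) h1
    refine Finset.sum_congr rfl fun j _ => ?_
    rw [hA]
    exact sgn_scl (sgz_cases _) _ _ _ _ _
  have hAsep : ∀ p q, p ≠ q → Sep (scl c (A p)) (b p) (scl c (A q)) (b q) := by
    intro p q hpq
    rw [hA, hb]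
    exact cells_sep hsep p q hpq
  have hK : ∀ p : ι × Sp × Bool, ‖a p.2.1.1‖ ^ 2 ≤ ((1 + η) * J) * (c ^ n * |((A p).det : ℝ)|) := by
    intro p
    rw [hAdet]
    have h1 := hvb p.1 p.2.1.1 p.2.1.2
    refine h1.trans (le_of_eq ?_)
    rw [hJdef]
    ring
  have hsup := sup_bound hρ hρ2 hc A hAdet0 hAs hArow b hAsep
    (fun p => ‖a p.2.1.1‖ ^ 2) (K := (1 + η) * J) (by positivity) hK hη
  have hLbig : ∀ᶠ L : ℕ in atTop, 2 * n / (L : ℝ) ≤ δ / 8 :=
    (tendsto_const_div_atTop_nhds_zero_nat (2 * (n : ℝ))).eventually_le_const (by positivity)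
  obtain ⟨L, hL1, hL2, hL3⟩ := (hsup.and (hLbig.and (eventually_gt_atTop 0))).exists
  obtain ⟨α, cc', base, hc1, hc2, hc3⟩ := F3_coeff (N₀ := N₀) hδ hρ hρ2 hρδ hL3 hL2 hcard hR1 hR2
    (XT k) (continuous_XT k) (abs_XT_le k) hXi
    (fun j y => fun i => (phi c L (H j) (β j) y i : UnitAddCircle))
  have hLr : (1 : ℝ) ≤ (L : ℝ) ^ n := by
    have : (1 : ℝ) ≤ L := by exact_mod_cast hL3
    exact one_le_pow₀ this
  have hN : J * (L : ℝ) ^ n ≤ ((R * (4 * L) ^ n : ℕ) : ℝ) := by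
    have hNr : ((R * (4 * L) ^ n : ℕ) : ℝ) = ((R * 4 ^ n : ℕ) : ℝ) * (L : ℝ) ^ n := by
      push_cast
      rw [mul_pow]
      ring
    rw [hNr]
    refine mul_le_mul_of_nonneg_right ?_ (by linarith)
    rw [hJdef]
    exact_mod_cast hR1
  refine ⟨R * (4 * L) ^ n, ?_, cc', hc1, hc2, fun x => ?_⟩
  · have h1 : (N₀ : ℝ) ≤ ((R * (4 * L) ^ n : ℕ) : ℝ) := by
      have h2 : (N₀ : ℝ) ≤ J := by
        rw [hJdef]
        exact_mod_cast (show N₀ ≤ Fintype.card ι by omega)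
      have h3 : J * 1 ≤ J * (L : ℝ) ^ n := mul_le_mul_of_nonneg_left hLr (by linarith)
      rw [mul_one] at h3
      exact h2.trans (h3.trans hN)
    exact_mod_cast h1
  · have hdec' : ∑ t ∈ Finset.range (R * (4 * L) ^ n), (cc' t : ℂ) * e1 ((t : ℝ) * x) =
        ∑ p : ι × Sp × Bool, (cf a α p * e1 (base p.1 * x)) *
          TT ρ (scl c (A p)) (b p) L (kr n L x) := by
      rw [hc3, hA, hb]
      have h1 := f_decompT ρ c L H β Sp a α base x
      rw [← h1]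
      refine Finset.sum_congr rfl fun j _ => Finset.sum_congr rfl fun y _ => ?_
      rw [hrep]
    rw [hdec']
    have h1 := hL1 (kr n L x) (fun p => cf a α p * e1 (base p.1 * x)) (fun p => by
      rw [norm_mul, norm_cf, norm_e1, mul_one])
    have h2 : ((1 + η) * J + η) * (L : ℝ) ^ n ≤ (1 + η) ^ 2 * ((R * (4 * L) ^ n : ℕ) : ℝ) := by
      have h3 : ((1 + η) * J + η) * (L : ℝ) ^ n ≤ ((1 + η) ^ 2 * J) * (L : ℝ) ^ n := by
        refine mul_le_mul_of_nonneg_right ?_ (by linarith)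
        have h8 : 0 ≤ J * (1 + η) - 1 := by nlinarith
        have h9 : 0 ≤ η * (J * (1 + η) - 1) := mul_nonneg hη.le h8
        linarith [h9, show (1 + η) ^ 2 * J - ((1 + η) * J + η) = η * (J * (1 + η) - 1) by ring]
      refine h3.trans ?_
      rw [mul_assoc]
      exact mul_le_mul_of_nonneg_left hN (by positivity)
    have h4 := h1.trans h2
    have h50 : ∀ M : ℝ, 0 ≤ M → (1 + η) ^ 2 * M = ((1 + η) * Real.sqrt M) ^ 2 := fun M hM => by
      rw [mul_pow, Real.sq_sqrt hM]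
    have h5 := h50 ((R * (4 * L) ^ n : ℕ) : ℝ) (Nat.cast_nonneg _)
    rw [h5] at h4
    exact le_of_sq_le_sq h4 (by positivity)

end Vale.Agent.P110U
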