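import Vale.Agent.Lib.P110U.Defs
import Vale.Agent.Lib.P110U.D5
import Vale.Agent.Lib.P110U.F3

/-! P110U: module F4. -/

namespace Vale.Agent.P110U

open MeasureTheory Filter Topology
open scoped ComplexConjugate ENNReal
open Vale.Agent.P110F

/-- Real Littlewood polynomials with maximum at most `(1 + η) √N`. -/
theorem one_sided {η : ℝ} (hη : 0 < η) (N₀ : ℕ) :
    ∃ N : ℕ, N₀ ≤ N ∧ ∃ a : ℕ → ℝ, (∀ j, a j = 1 ∨ a j = -1) ∧
      ∀ x : ℝ, ‖∑ j ∈ Finset.range N, (a j : ℂ) * e1 ((j : ℝ) * x)‖ ≤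
        (1 + η) * Real.sqrt N := by
  obtain ⟨δ, hδ, N₁, h1⟩ := round_poly (half_pos hη)
  obtain ⟨N, hN, c, hc1, hc2, hc3⟩ := exists_real_poly (half_pos hη) hδ (max N₀ N₁)
  obtain ⟨a, ha, ha2⟩ := h1 N ((le_max_right _ _).trans hN) c hc1 hc2
  refine ⟨N, (le_max_left _ _).trans hN, a, ha, fun x => ?_⟩
  have e : ∑ j ∈ Finset.range N, (a j : ℂ) * e1 ((j : ℝ) * x) =
      ∑ j ∈ Finset.range N, ((a j - c j : ℝ) : ℂ) * e1 ((j : ℝ) * x) +
        ∑ j ∈ Finset.range N, (c j : ℂ) * e1 ((j : ℝ) * x) := by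
    rw [← Finset.sum_add_distrib]
    refine Finset.sum_congr rfl fun j _ => ?_
    push_cast
    ring
  rw [e]
  refine (norm_add_le _ _).trans ?_
  have h2 := ha2 x
  have h3 := hc3 x
  linarith

end Vale.Agent.P110U
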