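import Vale.Agent.Lib.P110U.D1a
import Vale.Agent.Lib.P110U.D1b
import Vale.Agent.Lib.P110U.D1c
import Vale.Agent.Lib.P110U.D1
import Vale.Agent.Lib.P110U.D2
import Vale.Agent.Lib.P110U.D3a
import Vale.Agent.Lib.P110U.D3b
import Vale.Agent.Lib.P110U.D4
import Vale.Agent.Lib.P110U.D5
import Vale.Agent.Lib.P110U.S1a
import Vale.Agent.Lib.P110U.S1
import Vale.Agent.Lib.P110U.S2
import Vale.Agent.Lib.P110U.S3
import Vale.Agent.Lib.P110U.S3b
import Vale.Agent.Lib.P110U.S4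
import Vale.Agent.Lib.P110U.S5
import Vale.Agent.Lib.P110U.S6
import Vale.Agent.Lib.P110U.S7
import Vale.Agent.Lib.P110U.S8a
import Vale.Agent.Lib.P110U.S8
import Vale.Agent.Lib.P110U.S9
import Vale.Agent.Lib.P110U.X1
import Vale.Agent.Lib.P110U.X3
import Vale.Agent.Lib.P110U.X4
import Vale.Agent.Lib.P110U.F1
import Vale.Agent.Lib.P110U.F2
import Vale.Agent.Lib.P110U.F3
import Vale.Agent.Lib.P110U.F4
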