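import Vale.Agent.Lib.P110F.Defs
import Vale.Agent.Lib.P110F.K0

/-! P110U: Bernstein type inequality for exponential sums with integer frequencies. -/

namespace Vale.Agent.P110U

open MeasureTheory Filter Topology
open scoped ComplexConjugate ENNReal
open Vale.Agent.P110F

private theorem bn_pow (x : ℝ) (j : ℕ) : e1 ((j : ℝ) * x) = e1 x ^ j := by
  induction j with
  | zero => rw [Nat.cast_zero, zero_mul, e1_zero, pow_zero]
  | succ j ih => rw [Nat.cast_succ, add_mul, one_mul, e1_add, ih, pow_succ]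

private theorem bn_ne_one {x : ℝ} (h : e1 x = 1) : ∃ n : ℤ, x = n := by
  unfold e1 at h
  obtain ⟨n, hn⟩ := Complex.exp_eq_one_iff.1 h
  refine ⟨n, ?_⟩
  have h2 : (2 * Real.pi * Complex.I : ℂ) ≠ 0 := by
    simp [Real.pi_ne_zero, Complex.I_ne_zero]
  have h3 : (x : ℂ) = (n : ℂ) := by
    apply mul_left_cancel₀ h2
    rw [hn]
    ring
  exact_mod_cast h3

/-- geometric sums over the grid -/
private theorem bn_geom {G : ℕ} (hG : 0 < G) (z : ℤ) (hz : |z| < G) :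
    ∑ j ∈ Finset.range G, e1 ((z : ℝ) * ((j : ℝ) / (G : ℝ))) = if z = 0 then (G : ℂ) else 0 := by
  have hG' : (G : ℝ) ≠ 0 := by exact_mod_cast hG.ne'
  have h1 : ∀ j : ℕ, e1 ((z : ℝ) * ((j : ℝ) / (G : ℝ))) = e1 ((z : ℝ) / G) ^ j := by
    intro j
    rw [← bn_pow]
    congr 1
    ring
  simp_rw [h1]
  split_ifs with h
  · subst h
    simp [e1_zero]
  · have hne : e1 ((z : ℝ) / G) ≠ 1 := by
      intro he
      obtain ⟨n, hn⟩ := bn_ne_one he
      have h2 : (z : ℝ) = n * G := by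
        rw [← hn]
        field_simp
      have h3 : z = n * G := by exact_mod_cast h2
      have h4 : n ≠ 0 := by
        rintro rfl
        exact h (by rw [h3, zero_mul])
      rw [h3, abs_mul, Nat.abs_cast] at hz
      have h5 : 1 ≤ |n| := Int.one_le_abs h4
      nlinarith
    have hG1 : e1 ((z : ℝ) / G) ^ G = 1 := by
      rw [← bn_pow]
      have : (G : ℝ) * ((z : ℝ) / G) = ((z : ℤ) : ℝ) := by field_simp
      rw [this]
      exact e1_int z
    rw [geom_sum_eq hne, hG1, sub_self, zero_div]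

/-- Dirichlet kernel -/
private noncomputable def bnD (L : ℕ) (t : ℝ) : ℂ := ∑ a ∈ Finset.range L, e1 ((a : ℝ) * t)

private theorem bn_conj (x : ℝ) : conj (e1 x) = e1 (-x) := (e1_neg x).symm

/-- Parseval on the grid -/
private theorem bn_par {G : ℕ} (hG : 0 < G) (L : ℕ) (hL : L ≤ G) (c : ℕ → ℂ) :
    ∑ j ∈ Finset.range G, ‖∑ a ∈ Finset.range L, c a * e1 (-((a : ℝ) * ((j : ℝ) / (G : ℝ))))‖ ^ 2 =
      G * ∑ a ∈ Finset.range L, ‖c a‖ ^ 2 := by
  have h : ((∑ j ∈ Finset.range G,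
      ‖∑ a ∈ Finset.range L, c a * e1 (-((a : ℝ) * ((j : ℝ) / (G : ℝ))))‖ ^ 2 : ℝ) : ℂ) =
      ((G * ∑ a ∈ Finset.range L, ‖c a‖ ^ 2 : ℝ) : ℂ) := by
    push_cast
    have h1 : ∀ j ∈ Finset.range G,
        ((‖∑ a ∈ Finset.range L, c a * e1 (-((a : ℝ) * ((j : ℝ) / (G : ℝ))))‖ : ℂ)) ^ 2 =
        ∑ a ∈ Finset.range L, ∑ b ∈ Finset.range L, (c a * conj (c b)) *
          e1 ((((b : ℤ) - (a : ℤ) : ℤ) : ℝ) * ((j : ℝ) / (G : ℝ))) := by
      intro j _
      rw [← Complex.mul_conj', map_sum, Finset.sum_mul_sum]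
      refine Finset.sum_congr rfl fun a _ => Finset.sum_congr rfl fun b _ => ?_
      rw [map_mul, bn_conj, neg_neg]
      have e : e1 ((((b : ℤ) - (a : ℤ) : ℤ) : ℝ) * ((j : ℝ) / (G : ℝ))) =
          e1 (-((a : ℝ) * ((j : ℝ) / (G : ℝ)))) * e1 ((b : ℝ) * ((j : ℝ) / (G : ℝ))) := by
        rw [← e1_add]
        congr 1
        push_cast
        ring
      rw [e]
      ring
    rw [Finset.sum_congr rfl h1, Finset.sum_comm, Finset.mul_sum]
    refine Finset.sum_congr rfl fun a ha => ?_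
    rw [Finset.sum_comm]
    have h3 : ∀ b ∈ Finset.range L, ∑ j ∈ Finset.range G,
        (c a * conj (c b)) * e1 ((((b : ℤ) - (a : ℤ) : ℤ) : ℝ) * ((j : ℝ) / (G : ℝ))) =
        if b = a then (G : ℂ) * (‖c a‖ : ℂ) ^ 2 else 0 := by
      intro b hb
      rw [← Finset.mul_sum, bn_geom hG]
      · by_cases hab : b = a
        · subst hab
          rw [if_pos (by ring), if_pos rfl, Complex.mul_conj']
          ring
        · have : (b : ℤ) - (a : ℤ) ≠ 0 := by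
            intro h0
            exact hab (by omega)
          rw [if_neg this, if_neg hab, mul_zero]
      · have h4 := Finset.mem_range.1 ha
        have h5 := Finset.mem_range.1 hb
        rw [abs_lt]
        constructor <;> omega
    rw [Finset.sum_congr rfl h3, Finset.sum_ite_eq' (Finset.range L) a, if_pos ha]
  exact_mod_cast h

private theorem bn_D_eq (L : ℕ) (x y : ℝ) : bnD L (x - y) =
    ∑ a ∈ Finset.range L, e1 ((a : ℝ) * x) * e1 (-((a : ℝ) * y)) := by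
  unfold bnD
  refine Finset.sum_congr rfl fun a _ => ?_
  rw [← e1_add]
  congr 1
  ring

private theorem bn_par1 {G : ℕ} (hG : 0 < G) (L : ℕ) (hL : L ≤ G) (x : ℝ) :
    ∑ j ∈ Finset.range G, ‖bnD L (x - (j : ℝ) / (G : ℝ))‖ ^ 2 = G * L := by
  have h := bn_par hG L hL (fun a => e1 ((a : ℝ) * x))
  simp_rw [bn_D_eq]
  rw [h]
  congr 1
  simp [norm_e1]

private theorem bn_lip (a b : ℝ) : ‖e1 a - e1 b‖ ≤ 2 * Real.pi * |a - b| := by
  have h1 : e1 a - e1 b = e1 b * (e1 (a - b) - 1) := by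
    rw [mul_sub, ← e1_add, mul_one]
    congr 2
    ring
  have h2 : e1 (a - b) = Complex.exp (Complex.I * ((2 * Real.pi * (a - b) : ℝ) : ℂ)) := by
    unfold e1
    congr 1
    push_cast
    ring
  rw [h1, norm_mul, norm_e1, one_mul, h2]
  refine (Real.norm_exp_I_mul_ofReal_sub_one_le).trans ?_
  rw [Real.norm_eq_abs, abs_mul, abs_of_pos Real.two_pi_pos]

private theorem bn_par2 {G : ℕ} (hG : 0 < G) (L : ℕ) (hL : L ≤ G) (x x' : ℝ) :
    ∑ j ∈ Finset.range G, ‖bnD L (x - (j : ℝ) / (G : ℝ)) - bnD L (x' - (j : ℝ) / (G : ℝ))‖ ^ 2 ≤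
      G * L * (2 * Real.pi * L * |x - x'|) ^ 2 := by
  have h := bn_par hG L hL (fun a => e1 ((a : ℝ) * x) - e1 ((a : ℝ) * x'))
  have h2 : ∀ j ∈ Finset.range G,
      ‖bnD L (x - (j : ℝ) / (G : ℝ)) - bnD L (x' - (j : ℝ) / (G : ℝ))‖ ^ 2 =
      ‖∑ a ∈ Finset.range L, (e1 ((a : ℝ) * x) - e1 ((a : ℝ) * x')) *
        e1 (-((a : ℝ) * ((j : ℝ) / (G : ℝ))))‖ ^ 2 := by
    intro j _
    rw [bn_D_eq, bn_D_eq, ← Finset.sum_sub_distrib]
    congr 2
    refine Finset.sum_congr rfl fun a _ => ?_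
    ring
  rw [Finset.sum_congr rfl h2, h]
  have h3 : ∑ a ∈ Finset.range L, ‖e1 ((a : ℝ) * x) - e1 ((a : ℝ) * x')‖ ^ 2 ≤
      ∑ _a ∈ Finset.range L, (2 * Real.pi * L * |x - x'|) ^ 2 := by
    refine Finset.sum_le_sum fun a ha => ?_
    refine pow_le_pow_left₀ (norm_nonneg _) ((bn_lip _ _).trans ?_) 2
    rw [← mul_sub, abs_mul, Nat.abs_cast, mul_assoc (2 * Real.pi)]
    have h4 : (a : ℝ) ≤ L := by exact_mod_cast (Finset.mem_range.1 ha).le
    exact mul_le_mul_of_nonneg_left (mul_le_mul_of_nonneg_right h4 (abs_nonneg _))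
      Real.two_pi_pos.le
  rw [Finset.sum_const, Finset.card_range, nsmul_eq_mul] at h3
  have h5 : (0 : ℝ) ≤ G := Nat.cast_nonneg _
  calc _ ≤ (G : ℝ) * (L * (2 * Real.pi * L * |x - x'|) ^ 2) := mul_le_mul_of_nonneg_left h3 h5
    _ = _ := by ring

private theorem bn_ident {N : ℕ} (hN : 0 < N) (q : ℕ → ℂ) (x : ℝ) :
    ∑ j ∈ Finset.range (4 * N), (∑ k ∈ Finset.range N,
      q k * e1 ((k : ℝ) * ((j : ℝ) / ((4 * N : ℕ) : ℝ)))) *
      (bnD (2 * N) (x - (j : ℝ) / ((4 * N : ℕ) : ℝ)) *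
        conj (bnD N (x - (j : ℝ) / ((4 * N : ℕ) : ℝ)))) =
    ((4 * N : ℕ) : ℂ) * (N * ∑ k ∈ Finset.range N, q k * e1 ((k : ℝ) * x)) := by
  have hG : 0 < 4 * N := by omega
  have h1 : ∀ j ∈ Finset.range (4 * N), (∑ k ∈ Finset.range N,
      q k * e1 ((k : ℝ) * ((j : ℝ) / ((4 * N : ℕ) : ℝ)))) *
      (bnD (2 * N) (x - (j : ℝ) / ((4 * N : ℕ) : ℝ)) *
        conj (bnD N (x - (j : ℝ) / ((4 * N : ℕ) : ℝ)))) =
      ∑ k ∈ Finset.range N, ∑ b ∈ Finset.range (2 * N), ∑ a ∈ Finset.range N,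
        (q k * e1 (((b : ℝ) - a) * x)) *
          e1 ((((k : ℤ) - (b : ℤ) + (a : ℤ) : ℤ) : ℝ) * ((j : ℝ) / ((4 * N : ℕ) : ℝ))) := by
    intro j _
    rw [bnD, bnD, map_sum, Finset.sum_mul_sum, Finset.sum_mul]
    refine Finset.sum_congr rfl fun k _ => ?_
    rw [Finset.mul_sum]
    refine Finset.sum_congr rfl fun b _ => ?_
    rw [Finset.mul_sum]
    refine Finset.sum_congr rfl fun a _ => ?_
    rw [bn_conj, ← e1_add, mul_assoc, mul_assoc, ← e1_add, ← e1_add]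
    congr 2
    push_cast
    ring
  rw [Finset.sum_congr rfl h1, Finset.sum_comm, Finset.mul_sum, Finset.mul_sum]
  refine Finset.sum_congr rfl fun k hk => ?_
  rw [Finset.sum_comm]
  have h2 : ∀ b ∈ Finset.range (2 * N), ∑ j ∈ Finset.range (4 * N), ∑ a ∈ Finset.range N,
      (q k * e1 (((b : ℝ) - a) * x)) *
          e1 ((((k : ℤ) - (b : ℤ) + (a : ℤ) : ℤ) : ℝ) * ((j : ℝ) / ((4 * N : ℕ) : ℝ))) =
      ∑ a ∈ Finset.range N, if b = a + k then ((4 * N : ℕ) : ℂ) * (q k * e1 ((k : ℝ) * x))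
        else 0 := by
    intro b hb
    rw [Finset.sum_comm]
    refine Finset.sum_congr rfl fun a ha => ?_
    rw [← Finset.mul_sum, bn_geom hG]
    · by_cases hab : b = a + k
      · subst hab
        rw [if_pos (by push_cast; ring), if_pos rfl, mul_comm]
        congr 3
        push_cast
        ring
      · have : (k : ℤ) - (b : ℤ) + (a : ℤ) ≠ 0 := by
          intro h0
          exact hab (by omega)
        rw [if_neg this, if_neg hab, mul_zero]
    · have h4 := Finset.mem_range.1 ha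
      have h5 := Finset.mem_range.1 hb
      have h6 := Finset.mem_range.1 hk
      rw [abs_lt]
      constructor <;> omega
  rw [Finset.sum_congr rfl h2, Finset.sum_comm]
  have h3 : ∀ a ∈ Finset.range N, ∑ b ∈ Finset.range (2 * N),
      (if b = a + k then ((4 * N : ℕ) : ℂ) * (q k * e1 ((k : ℝ) * x)) else 0) =
      ((4 * N : ℕ) : ℂ) * (q k * e1 ((k : ℝ) * x)) := by
    intro a ha
    rw [Finset.sum_ite_eq' (Finset.range (2 * N)) (a + k), if_pos]
    have h4 := Finset.mem_range.1 ha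
    have h6 := Finset.mem_range.1 hk
    exact Finset.mem_range.2 (by omega)
  rw [Finset.sum_congr rfl h3, Finset.sum_const, Finset.card_range, nsmul_eq_mul]
  ring

private theorem bn_main {W : ℕ} (hW : 0 < W) (q : ℕ → ℂ) {B : ℝ}
    (hB : ∀ x : ℝ, ‖∑ k ∈ Finset.range W, q k * e1 ((k : ℝ) * x)‖ ≤ B) (x x' : ℝ)
    (hx : 0 < |x - x'|) :
    ‖∑ k ∈ Finset.range W, q k * e1 ((k : ℝ) * x) - ∑ k ∈ Finset.range W, q k * e1 ((k : ℝ) * x')‖ ≤
      60 * W * |x - x'| * B := by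
  have hG : 0 < 4 * W := by omega
  have hB0 : 0 ≤ B := (norm_nonneg _).trans (hB 0)
  have hW' : (0 : ℝ) < W := by exact_mod_cast hW
  set G : ℕ := 4 * W with hGdef
  have hGr : (G : ℝ) = 4 * W := by rw [hGdef]; push_cast; ring
  set δ : ℝ := |x - x'| with hδ
  set S : ℕ → ℂ := fun j => ∑ k ∈ Finset.range W, q k * e1 ((k : ℝ) * ((j : ℝ) / (G : ℝ))) with hS
  set a1 : ℕ → ℂ := fun j => bnD (2 * W) (x - (j : ℝ) / (G : ℝ)) with ha1
  set a2 : ℕ → ℂ := fun j => bnD (2 * W) (x' - (j : ℝ) / (G : ℝ)) with ha2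
  set c1 : ℕ → ℂ := fun j => bnD W (x - (j : ℝ) / (G : ℝ)) with hc1
  set c2 : ℕ → ℂ := fun j => bnD W (x' - (j : ℝ) / (G : ℝ)) with hc2
  have e1' : ∑ j ∈ Finset.range G, S j * (a1 j * conj (c1 j)) =
    (G : ℂ) * (W * ∑ k ∈ Finset.range W, q k * e1 ((k : ℝ) * x)) := bn_ident hW q x
  have e2' : ∑ j ∈ Finset.range G, S j * (a2 j * conj (c2 j)) =
    (G : ℂ) * (W * ∑ k ∈ Finset.range W, q k * e1 ((k : ℝ) * x')) := bn_ident hW q x'
  have h0 : ∑ j ∈ Finset.range G, S j * (a1 j * conj (c1 j)) -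
      ∑ j ∈ Finset.range G, S j * (a2 j * conj (c2 j)) =
      (G : ℂ) * (W * ∑ k ∈ Finset.range W, q k * e1 ((k : ℝ) * x)) -
      (G : ℂ) * (W * ∑ k ∈ Finset.range W, q k * e1 ((k : ℝ) * x')) := by rw [e1', e2']
  have h := congrArg norm h0
  rw [← mul_sub, ← mul_sub, norm_mul, norm_mul, Complex.norm_natCast, Complex.norm_natCast,
    ← Finset.sum_sub_distrib] at h
  set lam : ℝ := Real.pi * W * δ with hlam
  have hlam0 : 0 < lam := by positivity
  have p1 : ∑ j ∈ Finset.range G, ‖a1 j - a2 j‖ ^ 2 ≤ G * (2 * W) * (4 * lam) ^ 2 := by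
    have := bn_par2 hG (2 * W) (by omega) x x'
    push_cast at this
    refine this.trans (le_of_eq ?_)
    rw [hlam]
    ring
  have p2 : ∑ j ∈ Finset.range G, ‖c1 j - c2 j‖ ^ 2 ≤ G * W * (2 * lam) ^ 2 := by
    have := bn_par2 hG W (by omega) x x'
    refine this.trans (le_of_eq ?_)
    rw [hlam]
    ring
  have p3 : ∑ j ∈ Finset.range G, ‖c1 j‖ ^ 2 = G * W := bn_par1 hG W (by omega) x
  have p4 : ∑ j ∈ Finset.range G, ‖a2 j‖ ^ 2 = G * (2 * W) := by
    have := bn_par1 hG (2 * W) (by omega) x'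
    push_cast at this
    exact this
  have key : lam * ‖∑ j ∈ Finset.range G, (S j * (a1 j * conj (c1 j)) - S j * (a2 j * conj (c2 j)))‖ ≤
      ∑ j ∈ Finset.range G, B * ((‖a1 j - a2 j‖ ^ 2 / 4 + 4 * lam ^ 2 * ‖c1 j‖ ^ 2) / 2 +
        (2 * lam ^ 2 * ‖a2 j‖ ^ 2 + ‖c1 j - c2 j‖ ^ 2 / 2) / 2) := by
    rw [← abs_of_pos hlam0, ← Real.norm_eq_abs, ← Complex.norm_real, ← norm_mul, Finset.mul_sum]
    refine (norm_sum_le _ _).trans (Finset.sum_le_sum fun j _ => ?_)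
    rw [Complex.norm_real, Real.norm_eq_abs, abs_of_pos hlam0]
    have hd : S j * (a1 j * conj (c1 j)) - S j * (a2 j * conj (c2 j)) =
        S j * ((a1 j - a2 j) * conj (c1 j) + a2 j * conj (c1 j - c2 j)) := by
      rw [map_sub]
      ring
    rw [hd, norm_mul, Complex.norm_real, Real.norm_eq_abs, abs_of_pos hlam0, norm_mul]
    have hn : ‖(a1 j - a2 j) * conj (c1 j) + a2 j * conj (c1 j - c2 j)‖ ≤
        ‖a1 j - a2 j‖ * ‖c1 j‖ + ‖a2 j‖ * ‖c1 j - c2 j‖ := by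
      refine (norm_add_le _ _).trans (le_of_eq ?_)
      rw [norm_mul, norm_mul, Complex.norm_conj, Complex.norm_conj]
    have hSB : ‖S j‖ ≤ B := hB _
    have t1 : lam * (‖a1 j - a2 j‖ * ‖c1 j‖) ≤
        (‖a1 j - a2 j‖ ^ 2 / 4 + 4 * lam ^ 2 * ‖c1 j‖ ^ 2) / 2 := by
      nlinarith [sq_nonneg (‖a1 j - a2 j‖ / 2 - 2 * lam * ‖c1 j‖)]
    have t2 : lam * (‖a2 j‖ * ‖c1 j - c2 j‖) ≤
        (2 * lam ^ 2 * ‖a2 j‖ ^ 2 + ‖c1 j - c2 j‖ ^ 2 / 2) / 2 := by
      nlinarith [sq_nonneg (2 * lam * ‖a2 j‖ - ‖c1 j - c2 j‖)]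
    calc lam * (‖S j‖ * ‖(a1 j - a2 j) * conj (c1 j) + a2 j * conj (c1 j - c2 j)‖) ≤
          lam * (B * (‖a1 j - a2 j‖ * ‖c1 j‖ + ‖a2 j‖ * ‖c1 j - c2 j‖)) :=
          mul_le_mul_of_nonneg_left (mul_le_mul hSB hn (norm_nonneg _) hB0) hlam0.le
      _ = B * (lam * (‖a1 j - a2 j‖ * ‖c1 j‖) + lam * (‖a2 j‖ * ‖c1 j - c2 j‖)) := by ring
      _ ≤ _ := mul_le_mul_of_nonneg_left (add_le_add t1 t2) hB0
  rw [h] at key
  rw [← Finset.mul_sum, Finset.sum_add_distrib, ← Finset.sum_div, ← Finset.sum_div,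
    Finset.sum_add_distrib, Finset.sum_add_distrib, ← Finset.sum_div, ← Finset.sum_div,
    ← Finset.mul_sum, ← Finset.mul_sum, p3, p4] at key
  set D : ℝ := ‖∑ k ∈ Finset.range W, q k * e1 ((k : ℝ) * x) -
    ∑ k ∈ Finset.range W, q k * e1 ((k : ℝ) * x')‖ with hD
  have hGp : (0 : ℝ) < G := by rw [hGr]; positivity
  have key2 : lam * (G * (W * D)) ≤ B * (G * W * (9 * lam ^ 2)) := by
    refine key.trans (mul_le_mul_of_nonneg_left ?_ hB0)
    nlinarith
  have key3 : D ≤ 9 * lam * B := by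
    have h1 : (lam * (G * W)) * D ≤ (lam * (G * W)) * (9 * lam * B) := by
      nlinarith
    exact le_of_mul_le_mul_left h1 (by positivity)
  refine key3.trans ?_
  rw [hlam]
  have hpi : Real.pi ≤ 4 := Real.pi_le_four
  have : 9 * (Real.pi * W * δ) * B = (9 * Real.pi) * (W * δ * B) := by ring
  rw [this, show 60 * (W : ℝ) * δ * B = 60 * (W * δ * B) by ring]
  refine mul_le_mul_of_nonneg_right (by linarith) (by positivity)

/-- Exponential sums with integer frequencies in `[0, W)` which are bounded by `B` are Lipschitz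
with constant `60 W B`. -/
theorem bern_diff {Y : Type} [Fintype Y] (a : Y → ℂ) (φ : Y → ℕ) {W : ℕ} (hφ : ∀ y, φ y < W)
    {B : ℝ} (hB : ∀ x : ℝ, ‖∑ y, a y * e1 ((φ y : ℝ) * x)‖ ≤ B) (x x' : ℝ) :
    ‖∑ y, a y * e1 ((φ y : ℝ) * x) - ∑ y, a y * e1 ((φ y : ℝ) * x')‖ ≤
      60 * W * |x - x'| * B := by
  classical
  have hB0 : 0 ≤ B := (norm_nonneg _).trans (hB 0)
  rcases (abs_nonneg (x - x')).eq_or_lt with h0 | h0
  · have : x = x' := by
      have := abs_eq_zero.1 h0.symm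
      linarith
    subst this
    simp
  rcases Nat.eq_zero_or_pos W with hW | hW
  · subst hW
    have : IsEmpty Y := ⟨fun y => absurd (hφ y) (Nat.not_lt_zero _)⟩
    simp
  set q : ℕ → ℂ := fun k => ∑ y ∈ Finset.univ.filter (fun y => φ y = k), a y with hq
  have hs : ∀ x : ℝ, ∑ y, a y * e1 ((φ y : ℝ) * x) =
      ∑ k ∈ Finset.range W, q k * e1 ((k : ℝ) * x) := by
    intro x
    rw [← Finset.sum_fiberwise_of_maps_to (s := Finset.univ) (t := Finset.range W) (g := φ)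
      (fun y _ => Finset.mem_range.2 (hφ y))]
    refine Finset.sum_congr rfl fun k _ => ?_
    rw [hq]
    simp only
    rw [Finset.sum_mul]
    refine Finset.sum_congr rfl fun y hy => ?_
    rw [(Finset.mem_filter.1 hy).2]
  rw [hs, hs]
  refine bn_main hW q (fun x => ?_) x x' h0
  rw [← hs]
  exact hB x

end Vale.Agent.P110U
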