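import Vale.Agent.Lib.P110U.Defs
import Vale.Agent.Lib.P110U.D2

/-! P110U: module D6. -/

namespace Vale.Agent.P110U

open MeasureTheory Filter Topology
open scoped ComplexConjugate ENNReal
open Vale.Agent.P110F

private lemma D6_odd {t : ℕ} {x : ℝ} (hx : ∃ z : ℤ, x = z / 2 ^ (t + 1))
    (hn : ¬ ∃ z : ℤ, x = z / 2 ^ t) : ∃ z : ℤ, x = (2 * z + 1 : ℤ) / 2 ^ (t + 1) := by
  obtain ⟨w, hw⟩ := hx
  rcases Int.even_or_odd' w with ⟨k, hk | hk⟩
  · exfalso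
    apply hn
    refine ⟨k, ?_⟩
    rw [hw, hk, pow_succ]
    push_cast
    have h2 : (2 : ℝ) ^ t ≠ 0 := by positivity
    field_simp
  · exact ⟨k, by rw [hw, hk]⟩

private lemma D6_step {t : ℕ} {x : ℝ} (hx : ∃ z : ℤ, x = z / 2 ^ (t + 1))
    (hn : ¬ ∃ z : ℤ, x = z / 2 ^ t) (h0 : 0 ≤ x) (h1 : x ≤ 1) {e : ℝ} (he : e = 1 ∨ e = -1) :
    (∃ z : ℤ, x + e / 2 ^ (t + 1) = z / 2 ^ t) ∧ 0 ≤ x + e / 2 ^ (t + 1) ∧
      x + e / 2 ^ (t + 1) ≤ 1 ∧ 1 ≤ 2 ^ (t + 1) * x := by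
  obtain ⟨z, hz⟩ := D6_odd hx hn
  have hpos : (0 : ℝ) < 2 ^ (t + 1) := by positivity
  have hpost : (0 : ℝ) < 2 ^ t := by positivity
  have hxe : 2 ^ (t + 1) * x = (2 * z + 1 : ℤ) := by
    rw [hz]; field_simp
  have hz0 : 0 ≤ z := by
    have h3 : (0 : ℝ) ≤ ((2 * z + 1 : ℤ) : ℝ) := by
      rw [← hxe]; positivity
    have h4 : (0 : ℤ) ≤ 2 * z + 1 := by exact_mod_cast h3
    omega
  have hz1 : 2 * z + 1 ≤ 2 ^ (t + 1) - 1 := by
    have h3 : ((2 * z + 1 : ℤ) : ℝ) ≤ 2 ^ (t + 1) := by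
      rw [← hxe]
      nlinarith
    have h4 : 2 * z + 1 ≤ (2 : ℤ) ^ (t + 1) := by exact_mod_cast h3
    have h5 : (2 : ℤ) ^ (t + 1) = 2 * 2 ^ t := by rw [pow_succ]; ring
    omega
  have hx1 : x = (2 * (z : ℝ) + 1) / 2 ^ (t + 1) := by
    rw [hz]; push_cast; ring
  have hz0' : (0 : ℝ) ≤ z := by exact_mod_cast hz0
  have hz1' : 2 * (z : ℝ) + 1 ≤ 2 ^ (t + 1) - 1 := by exact_mod_cast hz1
  have hlow : (1 : ℝ) ≤ 2 ^ (t + 1) * x := by
    rw [hxe]; push_cast; linarith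
  rcases he with rfl | rfl
  · refine ⟨⟨z + 1, ?_⟩, ?_, ?_, hlow⟩
    · rw [hx1, pow_succ]
      push_cast
      field_simp
      ring
    · positivity
    · rw [hx1, ← add_div, div_le_one hpos]
      linarith
  · refine ⟨⟨z, ?_⟩, ?_, ?_, hlow⟩
    · rw [hx1, pow_succ]
      field_simp
      ring
    · rw [hx1, ← add_div]
      apply div_nonneg _ hpos.le
      linarith
    · have : (-1 : ℝ) / 2 ^ (t + 1) ≤ 0 := div_nonpos_of_nonpos_of_nonneg (by norm_num) hpos.le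
      linarith

/-- One level of bit by bit rounding, with the error bounded by the number of points. -/
private theorem D6_level {C : ℝ} (hC : 0 < C)
    (hS : ∀ (N m : ℕ) (A : Finset (Fin N)), A.card ≤ m →
      ∀ a : Fin m → Fin N → ℝ, (∀ i j, |a i j| ≤ 1) →
      ∃ ε : Fin N → ℝ, (∀ j, ε j = 1 ∨ ε j = -1) ∧
        ∀ i, |∑ j ∈ A, a i j * ε j| ≤ C * Real.sqrt (Real.sqrt ((A.card : ℝ) * m)))
    {N m : ℕ} (hNm : N ≤ m) (a : Fin m → Fin N → ℝ) (ha : ∀ i j, |a i j| ≤ 1) (t : ℕ)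
    (p : Fin N → ℝ) (hp : ∀ j, ∃ z : ℤ, p j = z / 2 ^ (t + 1)) (hp01 : ∀ j, 0 ≤ p j ∧ p j ≤ 1) :
    ∃ p' : Fin N → ℝ, (∀ j, ∃ z : ℤ, p' j = z / 2 ^ t) ∧ (∀ j, 0 ≤ p' j ∧ p' j ≤ 1) ∧
      ∀ i, |∑ j, a i j * (p' j - p j)| ≤
        C * Real.sqrt (Real.sqrt ((N : ℝ) * m)) / 2 ^ (t + 1) := by
  classical
  have hpos : (0 : ℝ) < 2 ^ (t + 1) := by positivity
  let A : Finset (Fin N) := Finset.univ.filter fun j => ¬ ∃ z : ℤ, p j = z / 2 ^ t
  have hA : ∀ j, j ∈ A ↔ ¬ ∃ z : ℤ, p j = z / 2 ^ t := by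
    intro j
    simp [A]
  have hAN : A.card ≤ N := by
    refine le_trans (Finset.card_le_univ A) ?_
    simp
  have hAm : A.card ≤ m := hAN.trans hNm
  obtain ⟨ε, hε, hb⟩ := hS N m A hAm a ha
  have hst := fun j (hj : j ∈ A) =>
    D6_step (hp j) ((hA j).1 hj) (hp01 j).1 (hp01 j).2 (hε j)
  refine ⟨fun j => if j ∈ A then p j + ε j / 2 ^ (t + 1) else p j, ?_, ?_, ?_⟩
  · intro j
    by_cases hj : j ∈ A
    · simp only [hj, if_true]
      exact (hst j hj).1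
    · simp only [hj, if_false]
      exact not_not.1 fun h => hj ((hA j).2 h)
  · intro j
    by_cases hj : j ∈ A
    · simp only [hj, if_true]
      exact ⟨(hst j hj).2.1, (hst j hj).2.2.1⟩
    · simp only [hj, if_false]
      exact hp01 j
  · intro i
    have hsum : ∑ j, a i j * ((if j ∈ A then p j + ε j / 2 ^ (t + 1) else p j) - p j) =
        (∑ j ∈ A, a i j * ε j) / 2 ^ (t + 1) := by
      rw [Finset.sum_div, ← Finset.sum_subset (Finset.subset_univ A)]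
      · refine Finset.sum_congr rfl fun j hj => ?_
        rw [if_pos hj]
        ring
      · intro j _ hj
        rw [if_neg hj]
        ring
    rw [hsum, abs_div, abs_of_pos hpos]
    have hcard : (A.card : ℝ) ≤ N := by exact_mod_cast hAN
    have h1 : Real.sqrt (Real.sqrt ((A.card : ℝ) * m)) ≤
        Real.sqrt (Real.sqrt ((N : ℝ) * m)) :=
      Real.sqrt_le_sqrt (Real.sqrt_le_sqrt
        (mul_le_mul_of_nonneg_right hcard (Nat.cast_nonneg m)))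
    exact div_le_div_of_nonneg_right ((hb i).trans (mul_le_mul_of_nonneg_left h1 hC.le)) hpos.le

/-- From level `t` to level `0`. -/
private theorem D6_levels {C : ℝ} (hC : 0 < C)
    (hS : ∀ (N m : ℕ) (A : Finset (Fin N)), A.card ≤ m →
      ∀ a : Fin m → Fin N → ℝ, (∀ i j, |a i j| ≤ 1) →
      ∃ ε : Fin N → ℝ, (∀ j, ε j = 1 ∨ ε j = -1) ∧
        ∀ i, |∑ j ∈ A, a i j * ε j| ≤ C * Real.sqrt (Real.sqrt ((A.card : ℝ) * m)))
    {N m : ℕ} (hNm : N ≤ m) (a : Fin m → Fin N → ℝ) (ha : ∀ i j, |a i j| ≤ 1) (t : ℕ) :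
    ∀ p : Fin N → ℝ, (∀ j, ∃ z : ℤ, p j = z / 2 ^ t) → (∀ j, 0 ≤ p j ∧ p j ≤ 1) →
      ∃ f : Fin N → ℝ, (∀ j, ∃ z : ℤ, f j = z / 2 ^ 0) ∧ (∀ j, 0 ≤ f j ∧ f j ≤ 1) ∧
        ∀ i, |∑ j, a i j * (f j - p j)| ≤
          C * Real.sqrt (Real.sqrt ((N : ℝ) * m)) * (1 - 1 / 2 ^ t) := by
  induction t with
  | zero =>
    intro p hp hp1
    refine ⟨p, hp, hp1, fun i => ?_⟩
    simp
  | succ t ih =>
    intro p hp hp1
    obtain ⟨p', hp', hp1', he⟩ := D6_level hC hS hNm a ha t p hp hp1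
    obtain ⟨f, hf, hf1, hfe⟩ := ih p' hp' hp1'
    refine ⟨f, hf, hf1, fun i => ?_⟩
    have e1 : ∑ j, a i j * (f j - p j) =
        ∑ j, a i j * (f j - p' j) + ∑ j, a i j * (p' j - p j) := by
      rw [← Finset.sum_add_distrib]
      exact Finset.sum_congr rfl fun j _ => by ring
    rw [e1]
    refine (abs_add_le _ _).trans ((add_le_add (hfe i) (he i)).trans (le_of_eq ?_))
    have h2 : (2 : ℝ) ^ t ≠ 0 := by positivity
    rw [pow_succ]
    field_simp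
    ring

/-- Rounding of numbers in `[0,1]`: the linear discrepancy form of the theorem of Spencer. -/
theorem lindisc : ∃ C : ℝ, 0 < C ∧ ∀ (N m : ℕ), N ≤ m → ∀ a : Fin m → Fin N → ℝ,
    (∀ i j, |a i j| ≤ 1) → ∀ p : Fin N → ℝ, (∀ j, 0 ≤ p j ∧ p j ≤ 1) →
    ∃ f : Fin N → ℝ, (∀ j, f j = 0 ∨ f j = 1) ∧
      ∀ i, |∑ j, a i j * (f j - p j)| ≤ C * Real.sqrt (Real.sqrt ((N : ℝ) * m)) := by
  obtain ⟨C, hC, hS⟩ := spencer
  refine ⟨C + 1, by positivity, fun N m hNm a ha p hp => ?_⟩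
  rcases Nat.eq_zero_or_pos N with h0 | hN
  · subst h0
    refine ⟨p, fun j => j.elim0, fun i => ?_⟩
    simp
  set K : ℝ := Real.sqrt (Real.sqrt ((N : ℝ) * m)) with hK
  have hK1 : 1 ≤ K := by
    have h1 : (1 : ℝ) ≤ N := by exact_mod_cast hN
    have h2 : (1 : ℝ) ≤ m := by exact_mod_cast (lt_of_lt_of_le hN hNm)
    have h3 : (1 : ℝ) ≤ (N : ℝ) * m := by nlinarith
    rw [hK]
    exact Real.one_le_sqrt.2 (Real.one_le_sqrt.2 h3)
  have h2N : (0 : ℝ) < 2 ^ N := by positivity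
  set q : Fin N → ℝ := fun j => (⌊2 ^ N * p j⌋ : ℤ) / 2 ^ N with hq
  have hq1 : ∀ j, q j ≤ p j := by
    intro j
    simp only [hq]
    rw [div_le_iff₀ h2N, mul_comm]
    exact Int.floor_le _
  have hq2 : ∀ j, p j - q j ≤ 1 / 2 ^ N := by
    intro j
    simp only [hq]
    rw [sub_le_iff_le_add, ← add_div, le_div_iff₀ h2N, mul_comm]
    have := Int.lt_floor_add_one (2 ^ N * p j)
    linarith
  have hq0 : ∀ j, 0 ≤ q j := by
    intro j
    simp only [hq]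
    refine div_nonneg ?_ h2N.le
    exact_mod_cast Int.floor_nonneg.2 (mul_nonneg h2N.le (hp j).1)
  obtain ⟨f, hf, hf1, hfe⟩ := D6_levels hC hS hNm a ha N q
    (fun j => ⟨⌊2 ^ N * p j⌋, rfl⟩) (fun j => ⟨hq0 j, (hq1 j).trans (hp j).2⟩)
  refine ⟨f, fun j => ?_, fun i => ?_⟩
  · obtain ⟨z, hz⟩ := hf j
    have h1 := hf1 j
    rw [hz, pow_zero, div_one] at h1
    have h2 : 0 ≤ z := by exact_mod_cast h1.1
    have h3 : z ≤ 1 := by exact_mod_cast h1.2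
    rw [hz, pow_zero, div_one]
    rcases (by omega : z = 0 ∨ z = 1) with h | h
    · left; rw [h]; norm_num
    · right; rw [h]; norm_num
  · have h3 : |∑ j, a i j * (q j - p j)| ≤ 1 := by
      calc |∑ j, a i j * (q j - p j)| ≤ ∑ j, |a i j * (q j - p j)| :=
            Finset.abs_sum_le_sum_abs _ _
        _ ≤ ∑ _j : Fin N, (1 / 2 ^ N : ℝ) := by
            refine Finset.sum_le_sum fun j _ => ?_
            rw [abs_mul, abs_sub_comm, abs_of_nonneg (sub_nonneg.2 (hq1 j))]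
            calc |a i j| * (p j - q j) ≤ 1 * (p j - q j) :=
                  mul_le_mul_of_nonneg_right (ha i j) (sub_nonneg.2 (hq1 j))
              _ ≤ 1 / 2 ^ N := by rw [one_mul]; exact hq2 j
        _ ≤ 1 := by
            rw [Finset.sum_const, Finset.card_univ, Fintype.card_fin, nsmul_eq_mul,
              mul_one_div, div_le_one h2N]
            exact_mod_cast (Nat.lt_two_pow_self (n := N)).le
    have e1 : ∑ j, a i j * (f j - p j) =
        ∑ j, a i j * (f j - q j) + ∑ j, a i j * (q j - p j) := by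
      rw [← Finset.sum_add_distrib]
      exact Finset.sum_congr rfl fun j _ => by ring
    have h4 : C * K * (1 - 1 / 2 ^ N) ≤ C * K := by
      have h5 : 0 ≤ C * K := by positivity
      have h6 : (0 : ℝ) ≤ 1 / 2 ^ N := by positivity
      nlinarith
    rw [e1]
    refine (abs_add_le _ _).trans ?_
    have h7 := hfe i
    rw [← hK] at h7
    nlinarith

end Vale.Agent.P110U
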