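import Vale.Agent.Lib.P110F.Defs

/-!
P110U: definitions for real Littlewood polynomials whose maximum is at most `(1 + η) √N`.
-/

namespace Vale.Agent.P110U

open MeasureTheory
open scoped ComplexConjugate
open Vale.Agent.P110F

/-- The taper: `0` outside `(0,1)`, `1` on `[ρ, 1 - ρ]`, linear in between. -/
noncomputable def tp (ρ u : ℝ) : ℝ := max 0 (min 1 (min (u / ρ) ((1 - u) / ρ)))

/-- The tapered quadratic exponential sum over one cell, at the frequency vector `θ`. -/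
noncomputable def TT {n : ℕ} (ρ : ℝ) (H : Matrix (Fin n) (Fin n) ℝ) (b : Fin n → ℝ) (L : ℕ)
    (θ : Fin n → ℝ) : ℂ :=
  ∑ y : Fin n → Fin L, ((∏ i, tp ρ (((y i : ℕ) : ℝ) / L) : ℝ) : ℂ) *
    e1 (quad H (fun i => ((y i : ℕ) : ℝ)) / (2 * L) + ∑ i, (b i + θ i) * ((y i : ℕ) : ℝ))

/-- The one dimensional tapered correlation sum. -/
noncomputable def W1 (ρ : ℝ) (L : ℕ) (d : ℤ) (t : ℝ) : ℂ :=
  ∑ y ∈ Finset.Ico (0 : ℤ) L, ((tp ρ ((y : ℝ) / L) * tp ρ (((y + d : ℤ) : ℝ) / L) : ℝ) : ℂ) *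
    e1 (t * ((y : ℝ) / L))

/-- Its limit. -/
noncomputable def sT (ρ t : ℝ) : ℂ := ∫ u in (0 : ℝ)..1, ((tp ρ u ^ 2 : ℝ) : ℂ) * e1 (t * u)

/-- The coefficient of the squared modulus of the tapered sum. -/
noncomputable def cT {n : ℕ} (ρ : ℝ) (H : Matrix (Fin n) (Fin n) ℝ) (b : Fin n → ℝ) (L : ℕ)
    (d : Fin n → ℤ) : ℂ :=
  ∑ y ∈ Fintype.piFinset (fun _ : Fin n => Finset.Ico (0 : ℤ) L),
    ((∏ i, (tp ρ ((y i : ℝ) / L) * tp ρ (((y i + d i : ℤ) : ℝ) / L)) : ℝ) : ℂ) *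
    e1 ((quad H (fun i => ((y i + d i : ℤ) : ℝ)) -
      quad H (fun i => ((y i : ℤ) : ℝ))) / (2 * L) + ∑ i, b i * (d i : ℝ))

/-- The limit coefficient. -/
noncomputable def gT {n : ℕ} (ρ : ℝ) (H : Matrix (Fin n) (Fin n) ℝ) (b : Fin n → ℝ)
    (d : Fin n → ℤ) : ℂ :=
  e1 (∑ i, b i * (d i : ℝ)) * ∏ i, sT ρ (∑ j, H i j * (d j : ℝ))

/-- The domination weight. -/
noncomputable def wT {n : ℕ} (ρ : ℝ) (H : Matrix (Fin n) (Fin n) ℝ) (d : Fin n → ℤ) : ℝ :=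
  ∏ i, (1 / ρ ^ 2) / max 1 ((∑ j, H i j * (d j : ℝ)) ^ 2)

/-- The polynomial martingale. -/
noncomputable def XT : (k : ℕ) → UnitAddTorus (Fin k) → ℝ
  | 0, _ => 0
  | k + 1, x => XT k (fun i => x i.castSucc) +
      (1 / 2) * (1 - XT k (fun i => x i.castSucc) ^ 2) * (fourier 1 (x (Fin.last k)) : ℂ).re

/-- Trigonometric polynomials whose frequencies have last nonzero entry `1` or `-1`. -/
def TP (k : ℕ) (X : UnitAddTorus (Fin k) → ℝ) : Prop :=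
  ∃ (Sp : Finset (Fin k → ℤ)) (a : (Fin k → ℤ) → ℂ), (∀ m ∈ Sp, LNO m) ∧ (∀ m ∈ Sp, a m ≠ 0) ∧
    ∀ x, (X x : ℂ) = ∑ m ∈ Sp, (a m * UnitAddTorus.mFourier m x +
      conj (a m) * UnitAddTorus.mFourier (-m) x)

end Vale.Agent.P110U
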