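import Vale.Agent.Lib.P110U.D6
import Vale.Agent.Lib.P110U.G0
import Vale.Agent.Lib.P110U.G1
import Vale.Agent.Lib.P110U.G2
import Vale.Agent.Lib.P110U.G3
import Vale.Agent.Lib.P110U.G3b
import Vale.Agent.Lib.P110U.G4
import Vale.Agent.Lib.P110U.G5
import Vale.Agent.Lib.P110U.G6
import Vale.Agent.Lib.P110U.G7
import Vale.Agent.Lib.P110U.G8
import Vale.Agent.Lib.P110U.G8b
import Vale.Agent.Lib.P110U.G9
import Vale.Agent.Lib.P110U.G10
import Vale.Agent.Lib.P110U.G11a
import Vale.Agent.Lib.P110U.G11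
import Vale.Agent.Lib.P110U.G12a
import Vale.Agent.Lib.P110U.G12
import Vale.Agent.Lib.P110U.G13
import Vale.Agent.Lib.P110U.G14
import Vale.Agent.Lib.P110U.G15
import Vale.Agent.Lib.P110U.G16
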